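import Crest.Agent.KM.Star

/-!
# The boundary certificate of the k-median potential at an arbitrary time

`cc` as a minimum of chords, monotonicity, supermodularity, continuity of the slope; certificate
for a star whose slope sum at time `t` is at least the price (no minimality of `t`).
-/

set_option autoImplicit false

namespace Crest.Agent.KM

open Finset

/-- admissible anchors of the chord formula: curve points, or the clamp `(2,0)` -/
def Anch (F f s v : ℝ) : Prop := (0 < s ∧ s ≤ 1 ∧ v = Bc F f s) ∨ (s = 2 ∧ v = 0)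

lemma Anch.pos {F f s v : ℝ} (h : Anch F f s v) : 0 < s := by
  rcases h with h | h
  · exact h.1
  · rw [h.1]; norm_num

/-- `cc` lies below every chord from `(0,u)` to an anchor -/
lemma cc_le_chord {u F f s v t : ℝ} (hf : 0 ≤ f) (hF : 0 ≤ F) (huF : u ≤ F)
    (h : Anch F f s v) (ht0 : 0 ≤ t) (hts : t ≤ s) (ht1 : t ≤ 1) :
    cc u F f t ≤ (1 - t/s) * u + (t/s) * v := by
  rcases h with ⟨h0, h1, rfl⟩ | ⟨rfl, rfl⟩
  · have hρ0 : 0 ≤ t/s := div_nonneg ht0 h0.le
    have hρ1 : t/s ≤ 1 := by rw [div_le_one h0]; exact hts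
    have h2 := cc_chord (u := u) (x := s) hf hF huF hρ0 hρ1
    rw [div_mul_cancel₀ _ h0.ne'] at h2
    have h3 := mul_le_mul_of_nonneg_left (cc_le_Bc (u := u) (t := s) hf hF h0.le h1) hρ0
    linarith
  · have h2 := cc_chord (u := u) (x := 1) hf hF huF ht0 ht1
    rw [mul_one, cc_one hf hF huF] at h2
    have h3 := mul_le_mul_of_nonneg_left (min_le_left (u/2) (ee * min F f)) ht0
    linarith

/-- `cc` is attained by a chord -/
lemma cc_eq_chord {u F f t : ℝ} (hf : 0 ≤ f) (hF : 0 ≤ F) (huF : u ≤ F)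
    (ht0 : 0 ≤ t) (ht1 : t ≤ 1) :
    ∃ s v, Anch F f s v ∧ t ≤ s ∧ cc u F f t = (1 - t/s) * u + (t/s) * v := by
  by_cases h : u ≤ F - (1-2*ee)*min F f
  · rw [cc_of_le h]
    rcases le_total (u/2) (u - ee*min F f) with h1 | h1
    · refine ⟨1, Bc F f 1, Or.inl ⟨one_pos, le_rfl, rfl⟩, ht1, ?_⟩
      rw [max_eq_right h1]
      unfold Bc ee
      ring
    · refine ⟨2, 0, Or.inr ⟨rfl, rfl⟩, by linarith, ?_⟩
      rw [max_eq_left h1]; ring
  · push Not at h
    obtain ⟨hx0, hx1, -⟩ := ts_spec (le_min hF hf) huF h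
    have hline := line_at_ts hf hF huF h
    rw [cc_of_gt h]
    set x := ts u F (min F f) with hxdef
    rcases eq_or_lt_of_le (le_trans ht0 (le_max_left t x)) with h0 | h0
    · -- both vanish
      have ht : t = 0 := le_antisymm (by rw [h0]; exact le_max_left _ _) ht0
      have hx : x = 0 := le_antisymm (by rw [h0]; exact le_max_right _ _) hx0
      refine ⟨1, Bc F f 1, Or.inl ⟨one_pos, le_rfl, rfl⟩, by rw [ht]; norm_num, ?_⟩
      rw [← h0, ht]
      rw [hx] at hline
      linarith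
    · refine ⟨max t x, Bc F f (max t x), Or.inl ⟨h0, max_le ht1 hx1, rfl⟩, le_max_left _ _, ?_⟩
      rcases le_total x t with hxt | hxt
      · rw [max_eq_left hxt] at h0 ⊢
        rw [div_self h0.ne']; ring
      · rw [max_eq_right hxt] at h0 ⊢
        have h1 : t = (t/x) * x := by field_simp
        generalize t/x = ρ at *
        rw [h1]
        linear_combination (1-ρ) * hline

/-- the curve is nondecreasing in `F` -/
lemma Bc_mono {F F' f s : ℝ} (h : F ≤ F') (hs1 : s ≤ 1) : Bc F f s ≤ Bc F' f s := by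
  unfold Bc
  have h1 : min F f ≤ min F' f := min_le_min h le_rfl
  have h2 : F - min F f ≤ F' - min F' f := by
    rcases le_total F f with a | a <;> rcases le_total F' f with b | b <;>
      simp only [min_eq_left, min_eq_right, a, b] <;> linarith
  have h3 := mul_le_mul_of_nonneg_left h2 (show 0 ≤ 1 - s by linarith)
  have h4 := mul_le_mul_of_nonneg_left h1 (Real.exp_pos (-s)).le
  linarith

/-- the curve is 1-Lipschitz in `F` -/
lemma Bc_lip {F F' f s : ℝ} (h : F ≤ F') (hs0 : 0 ≤ s) (hs1 : s ≤ 1) :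
    Bc F' f s ≤ Bc F f s + (F' - F) := by
  unfold Bc
  have h1 : min F f ≤ min F' f := min_le_min h le_rfl
  have h2 : F - min F f ≤ F' - min F' f := by
    rcases le_total F f with a | a <;> rcases le_total F' f with b | b <;>
      simp only [min_eq_left, min_eq_right, a, b] <;> linarith
  have h3 : (1 - s) * ((F' - min F' f) - (F - min F f)) ≤ 1 * ((F' - min F' f) - (F - min F f)) :=
    mul_le_mul_of_nonneg_right (by linarith) (by linarith)
  have h4 : Real.exp (-s) * (min F' f - min F f) ≤ 1 * (min F' f - min F f) :=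
    mul_le_mul_of_nonneg_right (exp_neg_le_one hs0) (by linarith)
  linarith

lemma Bc_nonneg {F f s : ℝ} (hF : 0 ≤ F) (hf : 0 ≤ f) (hs1 : s ≤ 1) : 0 ≤ Bc F f s := by
  unfold Bc
  have h1 : min F f ≤ F := min_le_left _ _
  have h2 : 0 ≤ min F f := le_min hF hf
  have h3 := mul_nonneg (show 0 ≤ 1 - s by linarith) (show 0 ≤ F - min F f by linarith)
  have h4 := mul_nonneg (Real.exp_pos (-s)).le h2
  linarith

/-- `cc` is nondecreasing in `u` and `F` -/
lemma cc_mono {u u' F F' f t : ℝ} (hf : 0 ≤ f) (hF : 0 ≤ F) (hFF : F ≤ F')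
    (huu : u ≤ u') (hu : u ≤ F) (hu' : u' ≤ F') (ht0 : 0 ≤ t) (ht1 : t ≤ 1) :
    cc u F f t ≤ cc u' F' f t := by
  obtain ⟨s, v, hs, hts, he⟩ := cc_eq_chord (u := u') hf (hF.trans hFF) hu' ht0 ht1
  rw [he]
  have hspos := hs.pos
  have hρ0 : 0 ≤ t/s := div_nonneg ht0 hspos.le
  have hρ1 : t/s ≤ 1 := by rw [div_le_one hspos]; exact hts
  rcases hs with ⟨h0, h1, rfl⟩ | ⟨rfl, rfl⟩
  · refine (cc_le_chord hf hF hu (Or.inl ⟨h0, h1, rfl⟩) ht0 hts ht1).trans ?_
    have h2 := mul_le_mul_of_nonneg_left (Bc_mono (f := f) hFF h1) hρ0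
    have h3 := mul_le_mul_of_nonneg_left huu (show 0 ≤ 1 - t/s by linarith)
    linarith
  · refine (cc_le_chord hf hF hu (Or.inr ⟨rfl, rfl⟩) ht0 hts ht1).trans ?_
    have h3 := mul_le_mul_of_nonneg_left huu (show 0 ≤ 1 - t/2 by linarith)
    linarith

/-- joint Lipschitz bound -/
lemma cc_lip {u u' F F' f t : ℝ} (hf : 0 ≤ f) (hF : 0 ≤ F) (hFF : F ≤ F')
    (huu : u ≤ u') (hu : u ≤ F) (hu' : u' ≤ F') (ht0 : 0 ≤ t) (ht1 : t ≤ 1) :
    cc u' F' f t ≤ cc u F f t + (u' - u) + (F' - F) := by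
  obtain ⟨s, v, hs, hts, he⟩ := cc_eq_chord (u := u) hf hF hu ht0 ht1
  rw [he]
  have hspos := hs.pos
  have hρ0 : 0 ≤ t/s := div_nonneg ht0 hspos.le
  have hρ1 : t/s ≤ 1 := by rw [div_le_one hspos]; exact hts
  have h3 : (1 - t/s) * (u' - u) ≤ 1 * (u' - u) :=
    mul_le_mul_of_nonneg_right (by linarith) (by linarith)
  rcases hs with ⟨h0, h1, rfl⟩ | ⟨rfl, rfl⟩
  · refine (cc_le_chord hf (hF.trans hFF) hu' (Or.inl ⟨h0, h1, rfl⟩) ht0 hts ht1).trans ?_
    have h2 := mul_le_mul_of_nonneg_left (Bc_lip (f := f) hFF h0.le h1) hρ0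
    have h4 : t/s * (F' - F) ≤ 1 * (F' - F) := mul_le_mul_of_nonneg_right hρ1 (by linarith)
    linarith
  · refine (cc_le_chord hf (hF.trans hFF) hu' (Or.inr ⟨rfl, rfl⟩) ht0 hts ht1).trans ?_
    linarith

/-- `u - cc u F` is nondecreasing in `u` -/
lemma cc_lip_u {u u' F f t : ℝ} (hf : 0 ≤ f) (hF : 0 ≤ F)
    (huu : u ≤ u') (hu' : u' ≤ F) (ht0 : 0 ≤ t) (ht1 : t ≤ 1) :
    cc u' F f t ≤ cc u F f t + (u' - u) := by
  have := cc_lip hf hF le_rfl huu (huu.trans hu') hu' ht0 ht1
  linarith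

/-- supermodularity of `cc` in `(u, F)` -/
lemma cc_super {u u' F F' f t : ℝ} (hf : 0 ≤ f) (hF : 0 ≤ F) (hFF : F ≤ F')
    (huu : u ≤ u') (hu'F : u' ≤ F) (ht0 : 0 ≤ t) (ht1 : t ≤ 1) :
    cc u F' f t + cc u' F f t ≤ cc u F f t + cc u' F' f t := by
  obtain ⟨s1, v1, hs1, hts1, he1⟩ := cc_eq_chord (u := u) hf hF (huu.trans hu'F) ht0 ht1
  obtain ⟨s2, v2, hs2, hts2, he2⟩ := cc_eq_chord (u := u') hf (hF.trans hFF) (hu'F.trans hFF) ht0 ht1
  rw [he1, he2]
  have hp1 := hs1.pos
  have hp2 := hs2.pos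
  rcases le_total s1 s2 with h12 | h12
  · -- swap: (u, F') uses (s2, v2), (u', F) uses (s1, v1)
    have h1 := cc_le_chord (u := u) hf (hF.trans hFF) ((huu.trans hu'F).trans hFF) hs2 ht0 hts2 ht1
    have h2 := cc_le_chord (u := u') hf hF hu'F hs1 ht0 hts1 ht1
    have h3 : t/s2 ≤ t/s1 := div_le_div_of_nonneg_left ht0 hp1 h12
    nlinarith
  · -- keep
    have key : ∃ w1 w2, Anch F' f s1 w1 ∧ Anch F f s2 w2 ∧
        (t/s1) * (w1 - v1) ≤ (t/s2) * (v2 - w2) := by
      have hb1 : 0 ≤ min F' f - min F f := by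
        have : min F f ≤ min F' f := min_le_min hFF le_rfl
        linarith
      have hb2 : 0 ≤ (F' - min F' f) - (F - min F f) := by
        rcases le_total F f with a | a <;> rcases le_total F' f with b | b <;>
          simp only [min_eq_left, min_eq_right, a, b] <;> linarith
      rcases hs2 with ⟨h0, h1, hv2⟩ | ⟨h0, hv2⟩
      · refine ⟨if s1 ≤ 1 then Bc F' f s1 else 0, Bc F f s2, ?_, Or.inl ⟨h0, h1, rfl⟩, ?_⟩
        · rcases hs1 with ⟨a0, a1, a2⟩ | ⟨a0, a2⟩
          · rw [if_pos a1]; exact Or.inl ⟨a0, a1, rfl⟩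
          · rw [if_neg (by rw [a0]; norm_num)]; exact Or.inr ⟨a0, rfl⟩
        · have hR : 0 ≤ Bc F' f s2 - Bc F f s2 := by
            have := Bc_mono (f := f) hFF h1; linarith
          rw [hv2]
          rcases hs1 with ⟨a0, a1, a2⟩ | ⟨a0, a2⟩
          · rw [if_pos a1, a2]
            have h5 : Bc F' f s1 - Bc F f s1 ≤ Bc F' f s2 - Bc F f s2 := by
              unfold Bc
              have e1 := mul_le_mul_of_nonneg_right (exp_neg_anti h12) hb1
              have e2 := mul_le_mul_of_nonneg_right (show 1 - s1 ≤ 1 - s2 by linarith) hb2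
              linarith
            have h6 : t/s1 ≤ t/s2 := div_le_div_of_nonneg_left ht0 h0 h12
            have h7 : 0 ≤ t/s1 := div_nonneg ht0 hp1.le
            calc t/s1 * (Bc F' f s1 - Bc F f s1) ≤ t/s1 * (Bc F' f s2 - Bc F f s2) :=
                  mul_le_mul_of_nonneg_left h5 h7
              _ ≤ _ := mul_le_mul_of_nonneg_right h6 hR
          · rw [if_neg (by rw [a0]; norm_num), a2, sub_self, mul_zero]
            exact mul_nonneg (div_nonneg ht0 h0.le) hR
      · have a0 : s1 = 2 := by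
          rcases hs1 with ⟨a0, a1, a2⟩ | ⟨a0, a2⟩
          · linarith
          · exact a0
        have a2 : v1 = 0 := by
          rcases hs1 with ⟨a0', a1, a2⟩ | ⟨a0', a2⟩
          · linarith
          · exact a2
        refine ⟨0, 0, Or.inr ⟨a0, rfl⟩, Or.inr ⟨h0, rfl⟩, ?_⟩
        rw [hv2, a2]; simp
    obtain ⟨w1, w2, hw1, hw2, hkey⟩ := key
    have h1 := cc_le_chord (u := u) hf (hF.trans hFF) ((huu.trans hu'F).trans hFF) hw1 ht0 hts1 ht1
    have h2 := cc_le_chord (u := u') hf hF hu'F hw2 ht0 hts2 ht1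
    linarith

/-- slope formula: average slope or curve slope -/
lemma gg_eq {u F f t : ℝ} (hf : 0 ≤ f) (hF : 0 ≤ F) (huF : u ≤ F) (ht0 : 0 < t) (ht1 : t ≤ 1) :
    gg u F f t = min ((u - cc u F f t)/t) (bc F f t) := by
  have hm : min F f ≤ F := min_le_left _ _
  have hm0 : 0 ≤ min F f := le_min hF hf
  have he := ee_pos
  have he' := ee_lt
  by_cases h : u ≤ F - (1-2*ee)*min F f
  · rw [gg_of_le h, cc_of_le h]
    have h1 : (u - (u - t * max (u/2) (u - ee*min F f)))/t = max (u/2) (u - ee*min F f) := by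
      field_simp; ring
    rw [h1]
    refine (min_eq_left ?_).symm
    refine le_trans ?_ (bc_anti hF hf ht1)
    have : bc F f 1 = F - min F f + ee * min F f := by unfold bc ee; ring
    rw [this]
    generalize min F f = m at h hm hm0 ⊢
    apply max_le
    · nlinarith
    · nlinarith
  · push Not at h
    obtain ⟨hx0, hx1, -⟩ := ts_spec (le_min hF hf) huF h
    have hline := line_at_ts hf hF huF h
    rw [gg_of_gt h, cc_of_gt h]
    set x := ts u F (min F f) with hxdef
    rcases le_total x t with hxt | hxt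
    · rw [max_eq_left hxt]
      refine (min_eq_right ?_).symm
      rw [le_div_iff₀ ht0]
      have h1 := Bc_tangent hF hf x t
      have h2 : bc F f t ≤ bc F f x := bc_anti hF hf hxt
      have h3 := mul_le_mul_of_nonneg_left h2 hx0
      nlinarith
    · rw [max_eq_right hxt]
      have h1 : (u - (Bc F f x + (x - t) * bc F f x))/t = bc F f x := by
        rw [div_eq_iff ht0.ne']; linarith
      rw [h1, min_eq_left (bc_anti hF hf hxt)]

lemma cont_trunc {u f t : ℝ} (hf : 0 ≤ f) (ht0 : 0 ≤ t) (ht1 : t ≤ 1) :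
    Continuous fun x : ℝ => cc (min u (max x 0)) (max x 0) f t := by
  have key : ∀ x y : ℝ, x ≤ y →
      cc (min u (max x 0)) (max x 0) f t ≤ cc (min u (max y 0)) (max y 0) f t ∧
      cc (min u (max y 0)) (max y 0) f t ≤ cc (min u (max x 0)) (max x 0) f t + 2 * (y - x) := by
    intro x y hxy
    have h0 : max x 0 ≤ max y 0 := max_le_max hxy le_rfl
    have h1 : max y 0 - max x 0 ≤ y - x := by
      rcases le_total x 0 with a | a <;> rcases le_total y 0 with b | b <;>
        simp only [max_eq_left, max_eq_right, a, b] <;> linarith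
    have h2 : min u (max y 0) - min u (max x 0) ≤ max y 0 - max x 0 := by
      rcases le_total u (max x 0) with a | a <;> rcases le_total u (max y 0) with b | b <;>
        simp only [min_eq_left, min_eq_right, a, b] <;> linarith
    have h3 : min u (max x 0) ≤ min u (max y 0) := min_le_min le_rfl h0
    refine ⟨cc_mono hf (le_max_right _ _) h0 h3 (min_le_right _ _) (min_le_right _ _) ht0 ht1, ?_⟩
    have := cc_lip hf (le_max_right _ _) h0 h3 (min_le_right _ _) (min_le_right _ _) ht0 ht1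
    linarith
  apply LipschitzWith.continuous (K := 2)
  apply LipschitzWith.of_dist_le_mul
  intro x y
  rw [Real.dist_eq, Real.dist_eq]
  have h2 : ((2:NNReal):ℝ) = 2 := by norm_num
  rw [h2]
  rcases le_total x y with h | h
  · obtain ⟨a, b⟩ := key x y h
    rw [abs_sub_comm, abs_of_nonneg (by linarith), abs_sub_comm, abs_of_nonneg (by linarith)]
    linarith
  · obtain ⟨a, b⟩ := key y x h
    rw [abs_of_nonneg (by linarith), abs_of_nonneg (by linarith)]
    linarith

variable {ι : Type*}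

/-- the truncated slope sum reaches the price -/
lemma exists_trunc_t {J : Finset ι} {w u f : ι → ℝ} {F p t : ℝ} (hF : 0 < F) (hp : 0 < p)
    (hf : ∀ j ∈ J, 0 ≤ f j) (hu0 : ∀ j ∈ J, 0 ≤ u j) (huF : ∀ j ∈ J, u j ≤ F)
    (ht0 : 0 < t) (ht1 : t ≤ 1)
    (hge : p ≤ ∑ j ∈ J, w j * gg (u j) F (f j) t) :
    ∃ y, 0 < y ∧ y ≤ F ∧ ∑ j ∈ J, w j * gg (min (u j) y) y (f j) t = p := by
  set S : ℝ → ℝ := fun y => ∑ j ∈ J, w j *
    min ((min (u j) (max y 0) - cc (min (u j) (max y 0)) (max y 0) (f j) t)/t)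
      (bc (max y 0) (f j) t) with hS
  have hSc : ContinuousOn S (Set.Icc 0 F) := by
    rw [hS]
    apply Continuous.continuousOn
    refine continuous_finsetSum _ fun j hj => ?_
    refine continuous_const.mul ?_
    refine Continuous.min ?_ ?_
    · refine Continuous.div_const ?_ _
      refine Continuous.sub (by fun_prop) ?_
      exact cont_trunc (hf j hj) ht0.le ht1
    · unfold bc; fun_prop
  have hSg : ∀ y, 0 ≤ y → S y = ∑ j ∈ J, w j * gg (min (u j) y) y (f j) t := by
    intro y hy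
    apply Finset.sum_congr rfl
    intro j hj
    rw [gg_eq (hf j hj) hy (min_le_right _ _) ht0 ht1, max_eq_left hy]
  have hS0 : S 0 = 0 := by
    rw [hSg 0 le_rfl]
    apply Finset.sum_eq_zero
    intro j hj
    rw [min_eq_right (hu0 j hj), gg_of_le (by rw [min_eq_left (hf j hj)]; simp),
      min_eq_left (hf j hj)]
    simp
  have hSF : p ≤ S F := by
    rw [hSg F hF.le]
    refine hge.trans (le_of_eq ?_)
    apply Finset.sum_congr rfl
    intro j hj
    rw [min_eq_left (huF j hj)]
  have := intermediate_value_Icc hF.le hSc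
  obtain ⟨y, hy, hye⟩ := this ⟨by rw [hS0]; exact hp.le, hSF⟩
  have hy0 : 0 < y := by
    rcases eq_or_lt_of_le hy.1 with h | h
    · rw [← h, hS0] at hye; linarith
    · exact h
  exact ⟨y, hy0, hy.2, by rw [← hSg y hy.1]; exact hye⟩

/-- comparison with the truncated state -/
lemma trunc_cmp_t {u F r F' y f t : ℝ} (hf : 0 ≤ f) (hy : 0 < y) (hyF' : y ≤ F') (hF'F : F' ≤ F)
    (hru : r ≤ u) (huF : u ≤ F) (hrF' : r ≤ F') (ht0 : 0 ≤ t) (ht1 : t ≤ 1) :
    cc (min u y) y f t + min r y - cc (min r y) y f t ≤ cc u F f t + r - cc r F' f t := by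
  have h1 : cc r F' f t ≤ cc r F f t :=
    cc_mono hf (hy.le.trans hyF') hF'F le_rfl hrF' (hrF'.trans hF'F) ht0 ht1
  rcases le_total y r with hyr | hry
  · rw [min_eq_right hyr, min_eq_right (hyr.trans hru)]
    have h2 := cc_mono hf (hy.le.trans (hyF'.trans hF'F)) le_rfl hru (hru.trans huF) huF ht0 ht1
    linarith
  · rw [min_eq_left hry]
    have h2 := cc_super (u := r) (u' := min u y) hf hy.le (hyF'.trans hF'F) (le_min hru hry)
      (min_le_right _ _) ht0 ht1
    have h3 : cc (min u y) F f t ≤ cc u F f t :=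
      cc_mono hf (hy.le.trans (hyF'.trans hF'F)) le_rfl (min_le_left _ _)
        ((min_le_left _ _).trans huF) huF ht0 ht1
    linarith

/-- averaged price bound, weighted -/
lemma price_avg_w (hL : LProp) {κ : Type*} (L : Finset κ) (a x : κ → ℝ)
    (ha : ∀ l ∈ L, 0 ≤ a l) (hx : ∀ l ∈ L, 0 ≤ x l)
    {u F f d C g : ℝ} (hF : 0 < F) (hd : 0 ≤ d) (hC : 0 ≤ C)
    (hsum : ∑ l ∈ L, a l * x l = C)
    (hf : f = (11*d+5*C)/8) (hfF : f ≤ F)
    (hg : u - ee * f ≤ F - (1-ee)*f ∧ g ≤ u - ee * f ∨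
      F - (1-2*ee)*f ≤ u ∧ g ≤ F - (1-ee)*f) :
    ∑ l ∈ L, a l * (lam ((d+x l)/F) * max 0 (g - PP u F f d (x l))) ≤ ee * f := by
  have he := ee_pos
  have he' := ee_gt
  rcases eq_or_lt_of_le hC with hC0 | hCpos
  · have hx0 : ∀ l ∈ L, a l * x l = 0 := by
      rw [← hC0] at hsum
      exact (Finset.sum_eq_zero_iff_of_nonneg fun l hl => mul_nonneg (ha l hl) (hx l hl)).mp hsum
    have hf0 : 0 ≤ f := by rw [hf]; positivity
    have : ∑ l ∈ L, a l * (lam ((d+x l)/F) * max 0 (g - PP u F f d (x l))) = 0 := by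
      apply Finset.sum_eq_zero
      intro l hl
      rcases mul_eq_zero.mp (hx0 l hl) with h | h
      · rw [h, zero_mul]
      · rw [h, lam_of_le, zero_mul, mul_zero]
        rw [div_le_iff₀ hF]
        nlinarith
    rw [this]; positivity
  · have h1 : ∀ l ∈ L, a l * (lam ((d+x l)/F) * max 0 (g - PP u F f d (x l))) ≤
        a l * x l * (ee * f / C) := by
      intro l hl
      rw [mul_assoc]
      apply mul_le_mul_of_nonneg_left _ (ha l hl)
      have := price_pt hL hF hd hC (hx l hl) hf hfF hg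
      rw [mul_div_assoc', le_div_iff₀ hCpos]
      linarith
    refine (Finset.sum_le_sum h1).trans ?_
    rw [← Finset.sum_mul, hsum]
    apply le_of_eq
    field_simp

/-- (S), weighted: the average of `GG` over the neighbourhood is at least the price -/
theorem GG_avg_w (hL : LProp) {κ : Type*} (L : Finset κ) (a x : κ → ℝ)
    (ha : ∀ l ∈ L, 0 ≤ a l) (hx : ∀ l ∈ L, 0 ≤ x l)
    {u F f d C t : ℝ} (hF : 0 < F) (hd : 0 ≤ d) (hC : 0 ≤ C)
    (hone : ∑ l ∈ L, a l = 1)
    (hsum : ∑ l ∈ L, a l * x l = C)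
    (hf : f = (11*d+5*C)/8) (hu0 : 0 ≤ u) (huF : u ≤ F) (ht0 : 0 ≤ t) (ht1 : t ≤ 1) :
    gg u F f t ≤ ∑ l ∈ L, a l * GG u F f d t (x l) := by
  have he := ee_pos
  have he' := ee_gt
  have he'' := ee_lt
  have hf0 : 0 ≤ f := by rw [hf]; positivity
  have hnn : ∀ g : ℝ, 0 ≤ ∑ l ∈ L, a l * (lam ((d+x l)/F) * max 0 (g - PP u F f d (x l))) :=
    fun g => Finset.sum_nonneg fun l hl =>
      mul_nonneg (ha l hl) (mul_nonneg (lam_nonneg _) (le_max_left _ _))
  have key : t * ∑ l ∈ L, a l * (lam ((d+x l)/F) * max 0 (gg u F f t - PP u F f d (x l)))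
      ≤ cc u F f t - (1-t) * gg u F f t := by
    have hmF : min F f ≤ F := min_le_left _ _
    have hm0 : 0 ≤ min F f := le_min hF.le hf0
    -- crude bound
    have crude : ∀ b : ℝ, gg u F f t ≤ b → 0 ≤ b →
        ∑ l ∈ L, a l * (lam ((d+x l)/F) * max 0 (gg u F f t - PP u F f d (x l))) ≤ b := by
      intro b hb hb0
      have : ∀ l ∈ L, a l * (lam ((d+x l)/F) * max 0 (gg u F f t - PP u F f d (x l))) ≤ a l * b := by
        intro l hl
        apply mul_le_mul_of_nonneg_left _ (ha l hl)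
        have h1 : max 0 (gg u F f t - PP u F f d (x l)) ≤ b :=
          max_le hb0 (by have := PP_nonneg hu0 F f d (x l); linarith)
        calc _ ≤ 1 * b := mul_le_mul (lam_le_one _) h1 (le_max_left _ _) (by norm_num)
          _ = b := one_mul b
      refine (Finset.sum_le_sum this).trans ?_
      rw [← Finset.sum_mul, hone, one_mul]
    by_cases h : u ≤ F - (1-2*ee)*min F f
    · have hcc : cc u F f t - (1-t) * gg u F f t = u - max (u/2) (u - ee*min F f) := by
        rw [cc_of_le h, gg_of_le h]; ring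
      rw [hcc]
      rcases le_or_gt (u - ee*min F f) (u/2) with h1 | h1
      · have hg : gg u F f t = u/2 := by rw [gg_of_le h, max_eq_left h1]
        rw [max_eq_left h1]
        have h2 := crude (u/2) hg.le (by linarith)
        have h3 := hnn (gg u F f t)
        nlinarith
      · have hFf : f < F := by
          by_contra hc
          push Not at hc
          rw [min_eq_left hc] at h h1
          linarith
        rw [min_eq_right hFf.le] at h h1 ⊢
        have hg : gg u F f t = u - ee * f := by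
          rw [gg_of_le (by rw [min_eq_right hFf.le]; exact h), min_eq_right hFf.le,
            max_eq_right h1.le]
        rw [max_eq_right h1.le]
        have h2 := price_avg_w hL L a x ha hx hF hd hC hsum hf hFf.le (u := u) (g := gg u F f t)
          (Or.inl ⟨by linarith, hg.le⟩)
        have h3 := hnn (gg u F f t)
        nlinarith
    · push Not at h
      obtain ⟨hx0, hx1, -⟩ := ts_spec (le_min hF.le hf0) huF h
      have hcg := cc_of_gt h t
      have hgg := gg_of_gt h t
      set y := ts u F (min F f) with hy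
      set τ := max t y with hτ
      have hτ1 : τ ≤ 1 := max_le ht1 hx1
      have hτ0 : 0 ≤ τ := le_trans ht0 (le_max_left _ _)
      have htτ : t ≤ τ := le_max_left _ _
      have hs := ee_le_exp hτ1
      have hval : cc u F f t - (1-t) * gg u F f t = τ * (Real.exp (-τ) * min F f) := by
        rw [hcg, hgg]; unfold Bc bc; ring
      rw [hval]
      have h3 := hnn (gg u F f t)
      have goal2 : ∑ l ∈ L, a l * (lam ((d+x l)/F) * max 0 (gg u F f t - PP u F f d (x l)))
          ≤ Real.exp (-τ) * min F f := by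
        rcases le_or_gt F f with hFf | hFf
        · apply crude
          · rw [hgg]; unfold bc; rw [min_eq_left hFf]; linarith
          · exact mul_nonneg (Real.exp_pos _).le hm0
        · rw [min_eq_right hFf.le] at h ⊢
          have hgv : gg u F f t = (F - (1-ee)*f) + (Real.exp (-τ) - ee) * f := by
            rw [hgg]; unfold bc; rw [min_eq_right hFf.le]; ring
          have h2 := price_avg_w hL L a x ha hx hF hd hC hsum hf hFf.le (u := u)
            (g := F - (1-ee)*f) (Or.inr ⟨h.le, le_rfl⟩)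
          have h4 : ∀ l ∈ L, a l * (lam ((d+x l)/F) * max 0 (gg u F f t - PP u F f d (x l))) ≤
              a l * (lam ((d+x l)/F) * max 0 (F - (1-ee)*f - PP u F f d (x l)))
                + a l * ((Real.exp (-τ) - ee) * f) := by
            intro l hl
            rw [← mul_add]
            apply mul_le_mul_of_nonneg_left _ (ha l hl)
            have hδ : 0 ≤ (Real.exp (-τ) - ee) * f := mul_nonneg (by linarith) hf0
            have h5 : max 0 (gg u F f t - PP u F f d (x l)) ≤
                max 0 (F - (1-ee)*f - PP u F f d (x l)) + (Real.exp (-τ) - ee) * f := by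
              apply max_le
              · have := le_max_left 0 (F - (1-ee)*f - PP u F f d (x l))
                linarith
              · have := le_max_right 0 (F - (1-ee)*f - PP u F f d (x l))
                rw [hgv]; linarith
            have h6 := mul_le_mul_of_nonneg_left h5 (lam_nonneg ((d+x l)/F))
            have h7 := mul_le_mul_of_nonneg_right (lam_le_one ((d+x l)/F)) hδ
            linarith
          refine (Finset.sum_le_sum h4).trans ?_
          rw [Finset.sum_add_distrib, ← Finset.sum_mul, hone]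
          linarith
      have h5 : 0 ≤ Real.exp (-τ) * min F f := mul_nonneg (Real.exp_pos _).le hm0
      calc _ ≤ τ * ∑ l ∈ L, a l * (lam ((d+x l)/F) * max 0 (gg u F f t - PP u F f d (x l))) :=
            mul_le_mul_of_nonneg_right htτ h3
        _ ≤ τ * (Real.exp (-τ) * min F f) := mul_le_mul_of_nonneg_left goal2 hτ0
  have hexp : ∑ l ∈ L, a l * GG u F f d t (x l) = (cc u F f t + t * gg u F f t)
      - t * ∑ l ∈ L, a l * (lam ((d+x l)/F) * max 0 (gg u F f t - PP u F f d (x l))) := by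
    have : ∀ l ∈ L, a l * GG u F f d t (x l) = a l * (cc u F f t + t * gg u F f t) -
        t * (a l * (lam ((d+x l)/F) * max 0 (gg u F f t - PP u F f d (x l)))) := by
      intro l _
      unfold GG; ring
    rw [Finset.sum_congr rfl this, Finset.sum_sub_distrib, ← Finset.sum_mul, hone, one_mul,
      ← Finset.mul_sum]
  rw [hexp]
  linarith

/-- A certificate of a star (state `u, F`) at time `t` for the price `p`. -/
structure LCert (J : Finset ι) (w u f d C : ι → ℝ) (F p t : ℝ) where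
  n : ι → ℝ
  Θ : ℝ → ℝ
  G : ι → ℝ → ℝ
  price : ∑ j ∈ J, w j * n j = p
  Θ_nonneg : ∀ F', 0 ≤ Θ F'
  Θ_le : ∀ F', Θ F' ≤ t
  R : ∀ j ∈ J, ∀ F' u', 0 ≤ F' → F' ≤ F → u' ≤ u j → u' ≤ F' →
    cc u' F' (f j) (Θ F') ≤ cc (u j) F (f j) t + (t - Θ F') * n j
  G_dead : ∀ j ∈ J, ∀ x, G j x ≤ u j
  G_alive : ∀ j ∈ J, ∀ x F', 0 ≤ F' → F' ≤ F → F' ≤ d j + x → rr (u j) (d j) x ≤ F' →
    G j x ≤ cc (u j) F (f j) t + (t - Θ F') * n j + rr (u j) (d j) x
      - cc (rr (u j) (d j) x) F' (f j) (Θ F')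
  G_avg : ∀ j ∈ J, ∀ {κ : Type} (L : Finset κ) (a x : κ → ℝ), (∀ l ∈ L, 0 ≤ a l) →
    (∀ l ∈ L, 0 ≤ x l) → ∑ l ∈ L, a l = 1 →
    ∑ l ∈ L, a l * x l = C j → n j ≤ ∑ l ∈ L, a l * G j (x l)

/-- **Boundary certificate at any time.** -/
theorem lcert (hR0 : R0Prop) (hL : LProp) {J : Finset ι}
    {w u f d C : ι → ℝ} {F p t : ℝ}
    (hF : 0 < F) (hp : 0 < p) (hd : ∀ j ∈ J, 0 ≤ d j) (hC : ∀ j ∈ J, 0 ≤ C j)
    (hf : ∀ j ∈ J, f j = (11 * d j + 5 * C j)/8)
    (hu0 : ∀ j ∈ J, 0 ≤ u j) (huF : ∀ j ∈ J, u j ≤ F) (ht0 : 0 < t) (ht1 : t ≤ 1)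
    (hge : p ≤ ∑ j ∈ J, w j * gg (u j) F (f j) t) :
    Nonempty (LCert J w u f d C F p t) := by
  have hf0 : ∀ j ∈ J, 0 ≤ f j := by
    intro j hj; rw [hf j hj]; have := hd j hj; have := hC j hj; positivity
  have he := ee_pos
  obtain ⟨y, hy, hyF, hsum⟩ := exists_trunc_t hF hp hf0 hu0 huF ht0 ht1 hge
  refine ⟨{ n := fun j => gg (min (u j) y) y (f j) t, Θ := fun F' => t * lam (F'/y),
            G := fun j x => GG (min (u j) y) y (f j) (d j) t x,
            price := hsum, Θ_nonneg := ?_, Θ_le := ?_, R := ?_, G_dead := ?_,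
            G_alive := ?_, G_avg := ?_ }⟩
  · intro F'; exact mul_nonneg ht0.le (lam_nonneg _)
  · intro F'; exact mul_le_of_le_one_right ht0.le (lam_le_one _)
  · intro j hj F' u' h0 h1 h2 h3
    have hmono : cc (min (u j) y) y (f j) t ≤ cc (u j) F (f j) t :=
      cc_mono (hf0 j hj) hy.le hyF (min_le_left _ _) (min_le_right _ _) (huF j hj) ht0.le ht1
    rcases le_total F' y with hFy | hFy
    · have := cc_R hR0 (t := t) hy h0 hFy (hf0 j hj) (le_min h2 (h3.trans hFy)) h3
        (min_le_right (u j) y) ht0.le ht1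
      linarith
    · have hl : lam (F'/y) = 1 := lam_of_one_le (by rwa [one_le_div hy])
      rw [hl, mul_one, sub_self, zero_mul, add_zero]
      exact cc_mono (hf0 j hj) h0 h1 h2 h3 (huF j hj) ht0.le ht1
  · intro j hj x
    exact (GG_le_u hy (hf0 j hj) (min_le_right _ _) ht0.le).trans (min_le_left _ _)
  · intro j hj x F' h0 h1 h2 h3
    have hmono : cc (min (u j) y) y (f j) t ≤ cc (u j) F (f j) t :=
      cc_mono (hf0 j hj) hy.le hyF (min_le_left _ _) (min_le_right _ _) (huF j hj) ht0.le ht1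
    have hrr : rr (min (u j) y) (d j) x = min (rr (u j) (d j) x) y := by
      unfold rr; rw [min_assoc, min_comm y, ← min_assoc]
    rcases le_total F' y with hFy | hFy
    · have hr2 : rr (min (u j) y) (d j) x = rr (u j) (d j) x := by
        rw [hrr, min_eq_left (h3.trans hFy)]
      have := GG_le_term (u := min (u j) y) (d := d j) (x := x) (t := t) hy h0 hFy h2
        (hf0 j hj) (by rw [hr2]; exact h3) ht0.le ht1
      rw [hr2] at this
      linarith
    · have hl : lam (F'/y) = 1 := lam_of_one_le (by rwa [one_le_div hy])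
      have h5 := GG_le_term (u := min (u j) y) (F' := y) (d := d j) (x := x) (t := t) hy hy.le
        le_rfl (hFy.trans h2) (hf0 j hj) (by rw [hrr]; exact min_le_right _ _) ht0.le ht1
      rw [div_self hy.ne', lam_of_one_le le_rfl, hrr] at h5
      refine h5.trans ?_
      have h6 := trunc_cmp_t (t := t) (hf0 j hj) hy hFy h1 (rr_le (u j) (d j) x) (huF j hj) h3
        ht0.le ht1
      rw [hl, mul_one, sub_self, zero_mul, add_zero]
      linarith
  · intro j hj κ L a x ha hx hone hs
    exact GG_avg_w hL L a x ha hx hy (hd j hj) (hC j hj) hone hs (hf j hj)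
      (le_min (hu0 j hj) hy.le) (min_le_right _ _) ht0.le ht1

end Crest.Agent.KM
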