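import Mathlib

/-! # R310 (metric k-median), block DESC: exchange lemma, decoupling and bookkeeping of the
memoryless star potential.

Stars (facility copies) `i : σ`, clients `j : ι`, `d i j` the distance from star to client,
`N j` the finite set of copies serving client `j`, `w j ≥ 0` the weight of the client.
A state is an arbitrary vector `K : ι → ℝ` (current connection costs); after opening the copy `κ`
it becomes `min (K j) (d κ j)`.  The values of the star potentials before (`V0`) and after (`V1 κ`)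
the opening are abstract real numbers. -/

set_option autoImplicit false
set_option linter.unusedSectionVars false
set_option linter.unusedVariables false

open Finset

namespace Crest.Agent.KM

/-- Elementary identity behind the exchange: the linear gain of a dead star plus the drop of its
value is exactly the connection saving of the opened copy. -/
theorem pos_exchange (K a x : ℝ) :
    max (min a K - x) 0 + max (K - a) 0 - max (min K x - a) 0 = max (K - x) 0 := by
  rcases le_total a K with h1 | h1 <;> rcases le_total K x with h2 | h2 <;>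
    rcases le_total a x with h3 | h3 <;>
    simp only [min_eq_left, min_eq_right, h1, h2] <;>
    (try rw [max_eq_left (by linarith : (0:ℝ) ≤ K - a)]) <;>
    (try rw [max_eq_right (by linarith : K - a ≤ 0)]) <;>
    (try rw [max_eq_left (by linarith : (0:ℝ) ≤ K - x)]) <;>
    (try rw [max_eq_right (by linarith : K - x ≤ 0)]) <;>
    (try rw [max_eq_left (by linarith : (0:ℝ) ≤ a - x)]) <;>
    (try rw [max_eq_right (by linarith : a - x ≤ 0)]) <;>
    (try rw [max_eq_left (by linarith : (0:ℝ) ≤ x - a)]) <;>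
    (try rw [max_eq_right (by linarith : x - a ≤ 0)]) <;> linarith

theorem min_drop (K a x : ℝ) :
    min a K - min a (min K x) = max (min a K - x) 0 := by
  rw [← min_assoc]
  rcases le_total (min a K) x with h | h
  · rw [min_eq_left h, max_eq_right (by linarith)]; ring
  · rw [min_eq_right h, max_eq_left (by linarith)]

section

variable {ι σ : Type*} [Fintype ι] [Fintype σ] [DecidableEq σ]

/-- The trivial value of a star: the total saving of its clients. -/
noncomputable def uval (d : σ → ι → ℝ) (w : ι → ℝ) (N : ι → Finset σ) (K : ι → ℝ) (i : σ) : ℝ :=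
  ∑ j, if i ∈ N j then w j * max (K j - d i j) 0 else 0

/-- The potential of a state with `n` opened facilities. -/
noncomputable def Phi (d : σ → ι → ℝ) (w : ι → ℝ) (N : ι → Finset σ) (M lam : ℝ)
    (n : ℝ) (K : ι → ℝ) (V : σ → ℝ) : ℝ :=
  lam * n + (1 / M) * ∑ i, ((∑ j, if i ∈ N j then w j * min (d i j) (K j) else 0) + V i)

/-- **Exchange lemma (general form with errors).**  `A` is the set of copies among which the opened
copy is drawn.  Every copy in `A` satisfies its star inequality (with its own price `≥ lam`); for the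
other copies the drop plus the linear gain pays the connection saving of the opened copy up to an
error `err κ i`. -/
theorem exchange_err (d : σ → ι → ℝ) (w : ι → ℝ) (hw : ∀ j, 0 ≤ w j) (N : ι → Finset σ)
    (M lam : ℝ) (hM : 0 < M) (n : ℝ) (K : ι → ℝ) (V0 : σ → ℝ) (V1 : σ → σ → ℝ)
    (A : Finset σ) (err : σ → σ → ℝ) (dfc : σ → ℝ)
    (hout : ∀ i, i ∉ A → ∀ κ ∈ A,
      (∑ j, if i ∈ N j ∧ κ ∈ N j then w j * max (K j - d κ j) 0 else 0) - err κ i ≤
      (∑ j, if i ∈ N j then w j * max (min (d i j) (K j) - d κ j) 0 else 0) + (V0 i - V1 κ i))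
    (hstar : ∀ i ∈ A, (lam - dfc i) * M ≤ (∑ κ ∈ A, (V0 i - V1 κ i)) +
      ∑ j, if i ∈ N j then
        w j * ((∑ κ ∈ A, if κ ∈ N j then max (min (d κ j) (K j) - d i j) 0 else 0) +
          ((N j \ A).card : ℝ) * max (K j - d i j) 0) else 0) :
    ∑ κ ∈ A, (Phi d w N M lam (n + 1) (fun j => min (K j) (d κ j)) (V1 κ)
      - Phi d w N M lam n K V0) ≤
      (∑ i ∈ A, dfc i) + (1 / M) * ∑ κ ∈ A, ∑ i ∈ Aᶜ, err κ i := by
  classical
  -- the drop of one pair
  set G : σ → σ → ℝ := fun κ i =>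
    (∑ j, if i ∈ N j then w j * max (min (d i j) (K j) - d κ j) 0 else 0) + (V0 i - V1 κ i)
    with hG
  have hstep : ∀ κ, Phi d w N M lam (n + 1) (fun j => min (K j) (d κ j)) (V1 κ)
      - Phi d w N M lam n K V0 = lam - (1 / M) * ∑ i, G κ i := by
    intro κ
    unfold Phi
    have : ∑ i, G κ i = (∑ i, ((∑ j, if i ∈ N j then w j * min (d i j) (K j) else 0) + V0 i)) -
        ∑ i, ((∑ j, if i ∈ N j then w j * min (d i j) (min (K j) (d κ j)) else 0) + V1 κ i) := by
      rw [← Finset.sum_sub_distrib]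
      refine Finset.sum_congr rfl fun i _ => ?_
      simp only [hG]
      have : (∑ j, if i ∈ N j then w j * max (min (d i j) (K j) - d κ j) 0 else 0) =
          (∑ j, if i ∈ N j then w j * min (d i j) (K j) else 0) -
          (∑ j, if i ∈ N j then w j * min (d i j) (min (K j) (d κ j)) else 0) := by
        rw [← Finset.sum_sub_distrib]
        refine Finset.sum_congr rfl fun j _ => ?_
        by_cases h : i ∈ N j
        · simp only [h, if_true]
          rw [← mul_sub, min_drop]
        · simp [h]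
      rw [this]; ring
    rw [this]; ring
  have key : lam * M * (A.card : ℝ) ≤ (∑ κ ∈ A, ∑ i, G κ i) + (M * (∑ i ∈ A, dfc i) +
      ∑ κ ∈ A, ∑ i ∈ Aᶜ, err κ i) := by
    have h1 : lam * M * (A.card : ℝ) - M * (∑ i ∈ A, dfc i) ≤
      ∑ i ∈ A, ((∑ κ ∈ A, (V0 i - V1 κ i)) +
      ∑ j, if i ∈ N j then
        w j * ((∑ κ ∈ A, if κ ∈ N j then max (min (d κ j) (K j) - d i j) 0 else 0) +
          ((N j \ A).card : ℝ) * max (K j - d i j) 0) else 0) := by
      have := Finset.sum_le_sum hstar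
      refine le_trans (le_of_eq ?_) this
      rw [← Finset.sum_mul, Finset.sum_sub_distrib, Finset.sum_const, nsmul_eq_mul]
      ring
    have h1' : lam * M * (A.card : ℝ) ≤ M * (∑ i ∈ A, dfc i) +
      ∑ i ∈ A, ((∑ κ ∈ A, (V0 i - V1 κ i)) +
      ∑ j, if i ∈ N j then
        w j * ((∑ κ ∈ A, if κ ∈ N j then max (min (d κ j) (K j) - d i j) 0 else 0) +
          ((N j \ A).card : ℝ) * max (K j - d i j) 0) else 0) := by linarith
    refine h1'.trans ?_
    -- split the right hand side
    have h2 : ∑ κ ∈ A, ∑ i, G κ i = (∑ κ ∈ A, ∑ i ∈ A, G κ i) + ∑ κ ∈ A, ∑ i ∈ Aᶜ, G κ i := by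
      rw [← Finset.sum_add_distrib]
      refine Finset.sum_congr rfl fun κ _ => ?_
      rw [Finset.sum_add_sum_compl]
    -- alive part
    have h3 : ∑ i ∈ A, ((∑ κ ∈ A, (V0 i - V1 κ i)) + ∑ j, if i ∈ N j then
        w j * (∑ κ ∈ A, if κ ∈ N j then max (min (d κ j) (K j) - d i j) 0 else 0) else 0)
        ≤ ∑ κ ∈ A, ∑ i ∈ A, G κ i := by
      have e1 : ∑ κ ∈ A, ∑ i ∈ A, G κ i =
          (∑ i ∈ A, ∑ κ ∈ A, (V0 i - V1 κ i)) +
          ∑ i ∈ A, ∑ κ ∈ A, ∑ j,
            if κ ∈ N j then w j * max (min (d κ j) (K j) - d i j) 0 else 0 := by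
        simp only [hG]
        rw [Finset.sum_congr rfl fun κ _ => Finset.sum_add_distrib, Finset.sum_add_distrib,
          add_comm]
        congr 1
        exact Finset.sum_comm
      rw [e1, Finset.sum_add_distrib]
      gcongr with i hi
      rw [Finset.sum_comm]
      refine Finset.sum_le_sum fun j _ => ?_
      by_cases h : i ∈ N j
      · simp only [h, if_true]
        rw [Finset.mul_sum]
        refine Finset.sum_le_sum fun κ _ => ?_
        split_ifs
        · exact le_rfl
        · simp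
      · simp only [h, if_false]
        refine Finset.sum_nonneg fun κ _ => ?_
        split_ifs
        · exact mul_nonneg (hw j) (le_max_right _ _)
        · exact le_rfl
    -- dead part
    have h4 : ∑ i ∈ A, (∑ j, if i ∈ N j then
        w j * (((N j \ A).card : ℝ) * max (K j - d i j) 0) else 0)
        ≤ (∑ κ ∈ A, ∑ i ∈ Aᶜ, G κ i) + ∑ κ ∈ A, ∑ i ∈ Aᶜ, err κ i := by
      rw [← Finset.sum_add_distrib]
      refine Finset.sum_le_sum fun κ hκ => ?_
      rw [← Finset.sum_add_distrib]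
      have e1 : ∀ i ∈ Aᶜ,
          (∑ j, if i ∈ N j ∧ κ ∈ N j then w j * max (K j - d κ j) 0 else 0) ≤
            G κ i + err κ i := by
        intro i hi
        have hi' : i ∉ A := by simpa using hi
        have h0 := hout i hi' κ hκ
        simp only [hG]
        linarith
      refine le_trans ?_ (Finset.sum_le_sum e1)
      rw [Finset.sum_comm]
      refine Finset.sum_le_sum fun j _ => ?_
      by_cases h : κ ∈ N j
      · simp only [h, if_true, and_true]
        have e2 : ∑ i ∈ Aᶜ, (if i ∈ N j then w j * max (K j - d κ j) 0 else 0) =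
            ((N j \ A).card : ℝ) * (w j * max (K j - d κ j) 0) := by
          rw [← Finset.sum_filter, Finset.sum_const, nsmul_eq_mul]
          congr 2
          apply congrArg
          ext x
          simp only [mem_filter, mem_compl, mem_sdiff]
          tauto
        rw [e2]
        apply le_of_eq; ring
      · simp [h]
    rw [h2]
    refine le_trans (add_le_add_right (a := M * (∑ i ∈ A, dfc i))
      (le_trans (le_of_eq ?_) (add_le_add h3 h4))) (le_of_eq ?_)
    · rw [← Finset.sum_add_distrib]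
      refine Finset.sum_congr rfl fun i _ => ?_
      rw [add_assoc, ← Finset.sum_add_distrib]
      congr 1
      refine Finset.sum_congr rfl fun j _ => ?_
      split_ifs
      · ring
      · ring
    · ring
  rw [Finset.sum_congr rfl fun κ _ => hstep κ, Finset.sum_sub_distrib, Finset.sum_const,
    nsmul_eq_mul, ← Finset.mul_sum]
  have h5 : (A.card : ℝ) * lam = (1 / M) * (lam * M * (A.card : ℝ)) := by
    field_simp
  have h6 : (∑ i ∈ A, dfc i) = (1 / M) * (M * (∑ i ∈ A, dfc i)) := by field_simp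
  rw [h5, sub_le_iff_le_add, h6, ← mul_add, ← mul_add]
  refine mul_le_mul_of_nonneg_left ?_ (by positivity)
  linarith

/-- A dead copy pays exactly the connection saving of the opened copy. -/
theorem dead_pays (d : σ → ι → ℝ) (w : ι → ℝ) (hw : ∀ j, 0 ≤ w j) (N : ι → Finset σ)
    (K : ι → ℝ) (V0 V1 : ℝ) (i κ : σ)
    (h0 : uval d w N K i ≤ V0) (h1 : V1 ≤ uval d w N (fun j => min (K j) (d κ j)) i) :
    (∑ j, if i ∈ N j ∧ κ ∈ N j then w j * max (K j - d κ j) 0 else 0) ≤
      (∑ j, if i ∈ N j then w j * max (min (d i j) (K j) - d κ j) 0 else 0) + (V0 - V1) := by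
  have h2 : (∑ j, if i ∈ N j ∧ κ ∈ N j then w j * max (K j - d κ j) 0 else 0) ≤
      ∑ j, if i ∈ N j then w j * max (K j - d κ j) 0 else 0 := by
    refine Finset.sum_le_sum fun j _ => ?_
    by_cases hi : i ∈ N j <;> by_cases hk : κ ∈ N j <;> simp [hi, hk]
    exact mul_nonneg (hw j) (le_max_right _ _)
  have h3 : (∑ j, if i ∈ N j then w j * max (K j - d κ j) 0 else 0) =
      (∑ j, if i ∈ N j then w j * max (min (d i j) (K j) - d κ j) 0 else 0) +
      (uval d w N K i - uval d w N (fun j => min (K j) (d κ j)) i) := by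
    unfold uval
    rw [← Finset.sum_sub_distrib, ← Finset.sum_add_distrib]
    refine Finset.sum_congr rfl fun j _ => ?_
    by_cases h : i ∈ N j
    · simp only [h, if_true]
      rw [← pos_exchange (K j) (d i j) (d κ j)]; ring
    · simp [h]
  linarith

/-- **Exchange lemma.**  It is enough to prove a star inequality for every alive star. -/
theorem exchange (d : σ → ι → ℝ) (w : ι → ℝ) (hw : ∀ j, 0 ≤ w j) (N : ι → Finset σ)
    (M lam : ℝ) (hM : 0 < M) (n : ℝ) (K : ι → ℝ) (V0 : σ → ℝ) (V1 : σ → σ → ℝ)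
    (A : Finset σ)
    (hdead0 : ∀ i, i ∉ A → uval d w N K i ≤ V0 i)
    (hdead1 : ∀ i, i ∉ A → ∀ κ ∈ A, V1 κ i ≤ uval d w N (fun j => min (K j) (d κ j)) i)
    (hstar : ∀ i ∈ A, lam * M ≤ (∑ κ ∈ A, (V0 i - V1 κ i)) +
      ∑ j, if i ∈ N j then
        w j * ((∑ κ ∈ A, if κ ∈ N j then max (min (d κ j) (K j) - d i j) 0 else 0) +
          ((N j \ A).card : ℝ) * max (K j - d i j) 0) else 0) :
    ∑ κ ∈ A, (Phi d w N M lam (n + 1) (fun j => min (K j) (d κ j)) (V1 κ)
      - Phi d w N M lam n K V0) ≤ 0 := by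
  refine (exchange_err d w hw N M lam hM n K V0 V1 A (fun _ _ => 0) (fun _ => 0) ?_
    (fun i hi => by simpa using hstar i hi)).trans ?_
  · intro i hi κ hκ
    have := dead_pays d w hw N K (V0 i) (V1 κ i) i κ (hdead0 i hi) (hdead1 i hi κ hκ)
    linarith
  · simp

/-- A dead copy that is nevertheless opened satisfies its star inequality with its own value
`uval` in place of the price. -/
theorem dead_star (d : σ → ι → ℝ) (w : ι → ℝ) (hw : ∀ j, 0 ≤ w j) (N : ι → Finset σ)
    (M : ℝ) (K : ι → ℝ) (A : Finset σ) (i : σ) (V0 : ℝ) (V1 : σ → ℝ)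
    (hcard : ∀ j, i ∈ N j → ((N j).card : ℝ) = M)
    (h0 : uval d w N K i ≤ V0)
    (h1 : ∀ κ ∈ A, V1 κ ≤ uval d w N (fun j => min (K j) (d κ j)) i) :
    uval d w N K i * M ≤ (∑ κ ∈ A, (V0 - V1 κ)) +
      ∑ j, if i ∈ N j then
        w j * ((∑ κ ∈ A, if κ ∈ N j then max (min (d κ j) (K j) - d i j) 0 else 0) +
          ((N j \ A).card : ℝ) * max (K j - d i j) 0) else 0 := by
  classical
  have h2 : (∑ κ ∈ A, (uval d w N K i - uval d w N (fun j => min (K j) (d κ j)) i)) ≤
      ∑ κ ∈ A, (V0 - V1 κ) :=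
    Finset.sum_le_sum fun κ hκ => by have := h1 κ hκ; linarith
  refine le_trans ?_ (add_le_add h2 le_rfl)
  have h3 : (∑ j, if i ∈ N j then w j * ((A.filter (fun κ => κ ∈ N j)).card : ℝ) *
        max (K j - d i j) 0 else 0) ≤
      (∑ κ ∈ A, (uval d w N K i - uval d w N (fun j => min (K j) (d κ j)) i)) +
      ∑ j, if i ∈ N j then
        w j * (∑ κ ∈ A, if κ ∈ N j then max (min (d κ j) (K j) - d i j) 0 else 0) else 0 := by
    unfold uval
    rw [Finset.sum_congr rfl fun κ _ => (Finset.sum_sub_distrib _ _).symm, Finset.sum_comm,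
      ← Finset.sum_add_distrib]
    refine Finset.sum_le_sum fun j _ => ?_
    by_cases h : i ∈ N j
    · simp only [h, if_true]
      rw [Finset.mul_sum, ← Finset.sum_add_distrib, mul_assoc, ← nsmul_eq_mul, ← Finset.sum_const,
        Finset.sum_filter, Finset.mul_sum]
      refine Finset.sum_le_sum fun κ _ => ?_
      have e0 : max (min (K j) (d κ j) - d i j) 0 ≤ max (K j - d i j) 0 :=
        max_le_max (by linarith [min_le_left (K j) (d κ j)]) le_rfl
      by_cases hk : κ ∈ N j
      · simp only [hk, if_true]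
        rw [min_comm (d κ j) (K j)]
        apply le_of_eq; ring
      · simp only [hk, if_false]
        have := mul_le_mul_of_nonneg_left e0 (hw j)
        linarith
    · simp [h]
  have h4 : uval d w N K i * M = (∑ j, if i ∈ N j then w j *
        ((A.filter (fun κ => κ ∈ N j)).card : ℝ) * max (K j - d i j) 0 else 0) +
      ∑ j, if i ∈ N j then w j * (((N j \ A).card : ℝ) * max (K j - d i j) 0) else 0 := by
    unfold uval
    rw [Finset.sum_mul, ← Finset.sum_add_distrib]
    refine Finset.sum_congr rfl fun j _ => ?_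
    by_cases h : i ∈ N j
    · simp only [h, if_true]
      have e1 : (A.filter (fun κ => κ ∈ N j)) = N j ∩ A := by
        ext x; simp [and_comm]
      have e2 : ((N j ∩ A).card : ℝ) + ((N j \ A).card : ℝ) = M := by
        rw [← hcard j h]
        exact_mod_cast Finset.card_inter_add_card_sdiff (N j) A
      rw [e1, ← e2]; ring
    · simp [h]
  rw [h4]
  refine le_trans (add_le_add h3 le_rfl) (le_of_eq ?_)
  rw [add_assoc, ← Finset.sum_add_distrib]
  congr 1
  refine Finset.sum_congr rfl fun j _ => ?_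
  split_ifs
  · ring
  · ring

/-- **Exchange lemma, superset form** (used to open the copies alive at a lower price): `A` contains
the alive copies; every dead copy of `A` contributes its price minus its value. -/
theorem exchange_superset (d : σ → ι → ℝ) (w : ι → ℝ) (hw : ∀ j, 0 ≤ w j) (N : ι → Finset σ)
    (M lam : ℝ) (hM : 0 < M) (hcard : ∀ j, ((N j).card : ℝ) = M)
    (n : ℝ) (K : ι → ℝ) (V0 : σ → ℝ) (V1 : σ → σ → ℝ)
    (A Al : Finset σ) (hAl : Al ⊆ A)
    (hdead0 : ∀ i, i ∉ Al → uval d w N K i ≤ V0 i)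
    (hdead1 : ∀ i, i ∉ Al → ∀ κ ∈ A, V1 κ i ≤ uval d w N (fun j => min (K j) (d κ j)) i)
    (hstar : ∀ i ∈ Al, lam * M ≤ (∑ κ ∈ A, (V0 i - V1 κ i)) +
      ∑ j, if i ∈ N j then
        w j * ((∑ κ ∈ A, if κ ∈ N j then max (min (d κ j) (K j) - d i j) 0 else 0) +
          ((N j \ A).card : ℝ) * max (K j - d i j) 0) else 0) :
    ∑ κ ∈ A, (Phi d w N M lam (n + 1) (fun j => min (K j) (d κ j)) (V1 κ)
      - Phi d w N M lam n K V0) ≤ ∑ i ∈ A \ Al, (lam - uval d w N K i) := by
  classical
  refine (exchange_err d w hw N M lam hM n K V0 V1 A (fun _ _ => 0)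
    (fun i => if i ∈ Al then 0 else lam - uval d w N K i) ?_ ?_).trans ?_
  · intro i hi κ hκ
    have hi' : i ∉ Al := fun h => hi (hAl h)
    have := dead_pays d w hw N K (V0 i) (V1 κ i) i κ (hdead0 i hi') (hdead1 i hi' κ hκ)
    linarith
  · intro i hi
    by_cases h : i ∈ Al
    · simpa [h] using hstar i h
    · simp only [h, if_false]
      have := dead_star d w hw N M K A i (V0 i) (fun κ => V1 κ i) (fun j _ => hcard j)
        (hdead0 i h) (fun κ hκ => hdead1 i h κ hκ)
      calc (lam - (lam - uval d w N K i)) * M = uval d w N K i * M := by ring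
        _ ≤ _ := this
  · have e1 : ∑ i ∈ A, (if i ∈ Al then 0 else lam - uval d w N K i) =
        ∑ i ∈ A \ Al, (lam - uval d w N K i) := by
      rw [Finset.sdiff_eq_filter, Finset.sum_filter]
      refine Finset.sum_congr rfl fun i _ => ?_
      by_cases h : i ∈ Al <;> simp [h]
    rw [e1]; simp

/-- **Decoupling lemma.**  A certificate (time `t`, prices `n j` of total weight `lam`, clock shifts
`δ κ`) for the star `i` proves its star inequality from single-client inequalities. -/
theorem star_of_certificate (d : σ → ι → ℝ) (w : ι → ℝ) (hw : ∀ j, 0 ≤ w j) (N : ι → Finset σ)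
    (M lam : ℝ) (K : ι → ℝ) (A : Finset σ) (i : σ) (V0 : ℝ) (V1 : σ → ℝ)
    (t : ℝ) (δ : σ → ℝ) (n a : ι → ℝ) (b : σ → ι → ℝ)
    (hn : ∑ j, (if i ∈ N j then w j * n j else 0) = lam)
    (hV0 : lam * t + ∑ j, (if i ∈ N j then w j * a j else 0) ≤ V0)
    (hV1 : ∀ κ ∈ A, V1 κ ≤ lam * (t - δ κ) + ∑ j, (if i ∈ N j then w j * b κ j else 0))
    (hR : ∀ κ ∈ A, ∀ j, i ∈ N j → κ ∉ N j → b κ j ≤ a j + δ κ * n j)
    (hS : ∀ j, i ∈ N j → M * n j ≤
      (∑ κ ∈ A, if κ ∈ N j then
        a j + δ κ * n j - b κ j + max (min (d κ j) (K j) - d i j) 0 else 0) +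
        ((N j \ A).card : ℝ) * max (K j - d i j) 0) :
    lam * M ≤ (∑ κ ∈ A, (V0 - V1 κ)) +
      ∑ j, if i ∈ N j then
        w j * ((∑ κ ∈ A, if κ ∈ N j then max (min (d κ j) (K j) - d i j) 0 else 0) +
          ((N j \ A).card : ℝ) * max (K j - d i j) 0) else 0 := by
  classical
  have h1 : ∀ κ ∈ A, (∑ j, if i ∈ N j then w j * (if κ ∈ N j then
      (a j + δ κ * n j - b κ j) else 0) else 0) ≤ V0 - V1 κ := by
    intro κ hκ
    have h2 : ∑ j, (if i ∈ N j then w j * (a j + δ κ * n j - b κ j) else 0) ≤ V0 - V1 κ := by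
      have e : ∑ j, (if i ∈ N j then w j * (a j + δ κ * n j - b κ j) else 0) =
          (∑ j, (if i ∈ N j then w j * a j else 0)) +
          δ κ * (∑ j, (if i ∈ N j then w j * n j else 0)) -
          ∑ j, (if i ∈ N j then w j * b κ j else 0) := by
        rw [Finset.mul_sum, ← Finset.sum_add_distrib, ← Finset.sum_sub_distrib]
        refine Finset.sum_congr rfl fun j _ => ?_
        split_ifs <;> ring
      rw [e, hn]
      have := hV1 κ hκ
      nlinarith
    refine le_trans (Finset.sum_le_sum fun j _ => ?_) h2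
    by_cases hi : i ∈ N j
    · simp only [hi, if_true]
      refine mul_le_mul_of_nonneg_left ?_ (hw j)
      by_cases hk : κ ∈ N j
      · simp [hk]
      · simp only [hk, if_false]
        have := hR κ hκ j hi hk
        linarith
    · simp [hi]
  have h3 : lam * M = ∑ j, (if i ∈ N j then w j * (M * n j) else 0) := by
    rw [← hn, Finset.sum_mul]
    refine Finset.sum_congr rfl fun j _ => ?_
    split_ifs <;> ring
  rw [h3]
  refine le_trans ?_ (add_le_add (Finset.sum_le_sum h1) le_rfl)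
  rw [Finset.sum_comm, ← Finset.sum_add_distrib]
  refine Finset.sum_le_sum fun j _ => ?_
  by_cases hi : i ∈ N j
  · simp only [hi, if_true]
    rw [← Finset.mul_sum, ← mul_add]
    refine mul_le_mul_of_nonneg_left ?_ (hw j)
    refine (hS j hi).trans (le_of_eq ?_)
    rw [← add_assoc, ← Finset.sum_add_distrib]
    congr 1
    refine Finset.sum_congr rfl fun κ _ => ?_
    split_ifs <;> ring
  · simp [hi]

/-- Exchange and decoupling together. -/
theorem descent (d : σ → ι → ℝ) (w : ι → ℝ) (hw : ∀ j, 0 ≤ w j) (N : ι → Finset σ)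
    (M lam : ℝ) (hM : 0 < M) (n : ℝ) (K : ι → ℝ) (V0 : σ → ℝ) (V1 : σ → σ → ℝ)
    (A : Finset σ)
    (hdead0 : ∀ i, i ∉ A → uval d w N K i ≤ V0 i)
    (hdead1 : ∀ i, i ∉ A → ∀ κ ∈ A, V1 κ i ≤ uval d w N (fun j => min (K j) (d κ j)) i)
    (hcert : ∀ i ∈ A, ∃ (t : ℝ) (δ : σ → ℝ) (p a : ι → ℝ) (b : σ → ι → ℝ),
      ∑ j, (if i ∈ N j then w j * p j else 0) = lam ∧
      lam * t + ∑ j, (if i ∈ N j then w j * a j else 0) ≤ V0 i ∧
      (∀ κ ∈ A, V1 κ i ≤ lam * (t - δ κ) + ∑ j, (if i ∈ N j then w j * b κ j else 0)) ∧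
      (∀ κ ∈ A, ∀ j, i ∈ N j → κ ∉ N j → b κ j ≤ a j + δ κ * p j) ∧
      (∀ j, i ∈ N j → M * p j ≤
        (∑ κ ∈ A, if κ ∈ N j then
          a j + δ κ * p j - b κ j + max (min (d κ j) (K j) - d i j) 0 else 0) +
          ((N j \ A).card : ℝ) * max (K j - d i j) 0)) :
    ∑ κ ∈ A, (Phi d w N M lam (n + 1) (fun j => min (K j) (d κ j)) (V1 κ)
      - Phi d w N M lam n K V0) ≤ 0 := by
  refine exchange d w hw N M lam hM n K V0 V1 A hdead0 hdead1 fun i hi => ?_
  obtain ⟨t, δ, p, a, b, h1, h2, h3, h4, h5⟩ := hcert i hi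
  exact star_of_certificate d w hw N M lam K A i (V0 i) (fun κ => V1 κ i) t δ p a b h1 h2 h3 h4 h5

/-- A copy outside `A` that is still alive (at its own price `lami` and time `t`) pays the connection
saving of the opened copy up to `t` times the value of the clients hit. -/
theorem late_pays (d : σ → ι → ℝ) (w : ι → ℝ) (hw : ∀ j, 0 ≤ w j) (N : ι → Finset σ)
    (lami : ℝ) (K : ι → ℝ) (i κ : σ) (V0 V1 : ℝ)
    (t δ : ℝ) (n a b : ι → ℝ) (hδ : 0 ≤ δ) (hn0 : ∀ j, i ∈ N j → 0 ≤ n j)
    (hn : ∑ j, (if i ∈ N j then w j * n j else 0) = lami)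
    (hV0 : lami * t + ∑ j, (if i ∈ N j then w j * a j else 0) ≤ V0)
    (hV1 : V1 ≤ lami * (t - δ) + ∑ j, (if i ∈ N j then w j * b j else 0))
    (hR : ∀ j, i ∈ N j → κ ∉ N j → b j ≤ a j + δ * n j)
    (ha : ∀ j, i ∈ N j → κ ∈ N j → (1 - t) * max (K j - d i j) 0 ≤ a j)
    (hb : ∀ j, i ∈ N j → κ ∈ N j → b j ≤ max (min (K j) (d κ j) - d i j) 0) :
    (∑ j, if i ∈ N j ∧ κ ∈ N j then w j * max (K j - d κ j) 0 else 0) -
        t * (∑ j, if i ∈ N j ∧ κ ∈ N j then w j * max (K j - d i j) 0 else 0) ≤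
      (∑ j, if i ∈ N j then w j * max (min (d i j) (K j) - d κ j) 0 else 0) + (V0 - V1) := by
  classical
  have h2 : ∑ j, (if i ∈ N j then w j * (a j + δ * n j - b j) else 0) ≤ V0 - V1 := by
    have e : ∑ j, (if i ∈ N j then w j * (a j + δ * n j - b j) else 0) =
        (∑ j, (if i ∈ N j then w j * a j else 0)) +
        δ * (∑ j, (if i ∈ N j then w j * n j else 0)) -
        ∑ j, (if i ∈ N j then w j * b j else 0) := by
      rw [Finset.mul_sum, ← Finset.sum_add_distrib, ← Finset.sum_sub_distrib]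
      refine Finset.sum_congr rfl fun j _ => ?_
      split_ifs <;> ring
    rw [e, hn]
    nlinarith
  have h3 : (∑ j, if i ∈ N j ∧ κ ∈ N j then w j * max (K j - d κ j) 0 else 0) -
        t * (∑ j, if i ∈ N j ∧ κ ∈ N j then w j * max (K j - d i j) 0 else 0) ≤
      (∑ j, if i ∈ N j then w j * max (min (d i j) (K j) - d κ j) 0 else 0) +
      ∑ j, (if i ∈ N j then w j * (a j + δ * n j - b j) else 0) := by
    rw [Finset.mul_sum, ← Finset.sum_sub_distrib, ← Finset.sum_add_distrib]
    refine Finset.sum_le_sum fun j _ => ?_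
    by_cases hi : i ∈ N j
    · by_cases hk : κ ∈ N j
      · simp only [hi, hk, and_self, if_true]
        have e1 := pos_exchange (K j) (d i j) (d κ j)
        have e2 := ha j hi hk
        have e3 := hb j hi hk
        have e4 : 0 ≤ δ * n j := mul_nonneg hδ (hn0 j hi)
        have : max (K j - d κ j) 0 - t * max (K j - d i j) 0 ≤
            max (min (d i j) (K j) - d κ j) 0 + (a j + δ * n j - b j) := by linarith
        have := mul_le_mul_of_nonneg_left this (hw j)
        linarith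
      · simp only [hi, hk, and_false, if_false, if_true]
        have e1 := hR j hi hk
        have : 0 ≤ w j * (a j + δ * n j - b j) := mul_nonneg (hw j) (by linarith)
        have e2 : 0 ≤ w j * max (min (d i j) (K j) - d κ j) 0 :=
          mul_nonneg (hw j) (le_max_right _ _)
        linarith
    · simp [hi]
  linarith

/-- Total error of a late copy over all openings drawn from `A`. -/
theorem late_total (d : σ → ι → ℝ) (w : ι → ℝ) (hw : ∀ j, 0 ≤ w j) (N : ι → Finset σ)
    (M lami C : ℝ) (K : ι → ℝ) (A : Finset σ) (i : σ) (t : ℝ) (ht : 0 ≤ t) (hM : 0 ≤ M)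
    (hC : 0 ≤ C) (n : ι → ℝ)
    (hcard : ∀ j, i ∈ N j → ((N j).card : ℝ) ≤ M)
    (hn : ∑ j, (if i ∈ N j then w j * n j else 0) = lami)
    (hu : ∀ j, i ∈ N j → max (K j - d i j) 0 ≤ C * n j) :
    ∑ κ ∈ A, t * (∑ j, if i ∈ N j ∧ κ ∈ N j then w j * max (K j - d i j) 0 else 0) ≤
      t * (M * (C * lami)) := by
  classical
  rw [← Finset.mul_sum]
  refine mul_le_mul_of_nonneg_left ?_ ht
  rw [Finset.sum_comm]
  have : M * (C * lami) = ∑ j, (if i ∈ N j then M * (w j * (C * n j)) else 0) := by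
    rw [← hn, Finset.mul_sum, Finset.mul_sum]
    refine Finset.sum_congr rfl fun j _ => ?_
    split_ifs <;> ring
  rw [this]
  refine Finset.sum_le_sum fun j _ => ?_
  by_cases hi : i ∈ N j
  · simp only [hi, true_and, if_true]
    rw [← Finset.sum_filter, Finset.sum_const, nsmul_eq_mul]
    have h1 : ((A.filter fun κ => κ ∈ N j).card : ℝ) ≤ M := by
      refine le_trans ?_ (hcard j hi)
      exact_mod_cast Finset.card_le_card (fun x hx => (Finset.mem_filter.mp hx).2)
    have h2 : w j * max (K j - d i j) 0 ≤ w j * (C * n j) :=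
      mul_le_mul_of_nonneg_left (hu j hi) (hw j)
    have h3 : 0 ≤ w j * max (K j - d i j) 0 := mul_nonneg (hw j) (le_max_right _ _)
    calc ((A.filter fun κ => κ ∈ N j).card : ℝ) * (w j * max (K j - d i j) 0)
        ≤ M * (w j * max (K j - d i j) 0) := mul_le_mul_of_nonneg_right h1 h3
      _ ≤ M * (w j * (C * n j)) := mul_le_mul_of_nonneg_left h2 hM
  · simp [hi]

/-- **Mixed descent lemma.**  Copies `i` carry their own prices `lami i ≥ lam`.  `A` is any set of
alive copies with certificates; the copies outside `A` are dead (`τ i = 0`) or alive at time `τ i`.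
Then drawing the opened copy uniformly from `A` does not increase the potential on average, up to
`C * ∑_{i ∉ A} τ i * lami i` (sum over `κ ∈ A`). -/
theorem mixed_descent (d : σ → ι → ℝ) (w : ι → ℝ) (hw : ∀ j, 0 ≤ w j) (N : ι → Finset σ)
    (M lam C : ℝ) (hM : 0 < M) (hC : 0 ≤ C) (hcard : ∀ j, ((N j).card : ℝ) ≤ M)
    (n : ℝ) (K : ι → ℝ) (V0 : σ → ℝ) (V1 : σ → σ → ℝ)
    (A : Finset σ) (lami τ : σ → ℝ) (hlam : ∀ i ∈ A, lam ≤ lami i)
    (hA : ∀ i ∈ A, ∃ (t : ℝ) (δ : σ → ℝ) (p a : ι → ℝ) (b : σ → ι → ℝ),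
      ∑ j, (if i ∈ N j then w j * p j else 0) = lami i ∧
      lami i * t + ∑ j, (if i ∈ N j then w j * a j else 0) ≤ V0 i ∧
      (∀ κ ∈ A, V1 κ i ≤ lami i * (t - δ κ) + ∑ j, (if i ∈ N j then w j * b κ j else 0)) ∧
      (∀ κ ∈ A, ∀ j, i ∈ N j → κ ∉ N j → b κ j ≤ a j + δ κ * p j) ∧
      (∀ j, i ∈ N j → M * p j ≤
        (∑ κ ∈ A, if κ ∈ N j then
          a j + δ κ * p j - b κ j + max (min (d κ j) (K j) - d i j) 0 else 0) +
          ((N j \ A).card : ℝ) * max (K j - d i j) 0))
    (hout : ∀ i, i ∉ A →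
      (τ i = 0 ∧ uval d w N K i ≤ V0 i ∧
        ∀ κ ∈ A, V1 κ i ≤ uval d w N (fun j => min (K j) (d κ j)) i) ∨
      (0 ≤ τ i ∧ ∃ (δ : σ → ℝ) (p a : ι → ℝ) (b : σ → ι → ℝ),
        ∑ j, (if i ∈ N j then w j * p j else 0) = lami i ∧
        lami i * τ i + ∑ j, (if i ∈ N j then w j * a j else 0) ≤ V0 i ∧
        (∀ j, i ∈ N j → 0 ≤ p j) ∧
        (∀ j, i ∈ N j → max (K j - d i j) 0 ≤ C * p j) ∧
        (∀ j, i ∈ N j → (1 - τ i) * max (K j - d i j) 0 ≤ a j) ∧
        (∀ κ ∈ A, 0 ≤ δ κ ∧
          V1 κ i ≤ lami i * (τ i - δ κ) + ∑ j, (if i ∈ N j then w j * b κ j else 0) ∧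
          (∀ j, i ∈ N j → κ ∉ N j → b κ j ≤ a j + δ κ * p j) ∧
          (∀ j, i ∈ N j → κ ∈ N j → b κ j ≤ max (min (K j) (d κ j) - d i j) 0)))) :
    ∑ κ ∈ A, (Phi d w N M lam (n + 1) (fun j => min (K j) (d κ j)) (V1 κ)
      - Phi d w N M lam n K V0) ≤ C * ∑ i ∈ Aᶜ, τ i * lami i := by
  classical
  -- error table
  set err : σ → σ → ℝ := fun κ i =>
    τ i * (∑ j, if i ∈ N j ∧ κ ∈ N j then w j * max (K j - d i j) 0 else 0) with herr
  have h1 := exchange_err d w hw N M lam hM n K V0 V1 A err (fun _ => 0) ?_ ?_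
  · refine h1.trans ?_
    rw [Finset.sum_const_zero, zero_add, Finset.sum_comm, Finset.mul_sum, Finset.mul_sum]
    refine Finset.sum_le_sum fun i hi => ?_
    have hi' : i ∉ A := by simpa using hi
    rcases hout i hi' with ⟨h0, -, -⟩ | ⟨h0, δ, p, a, b, hp, -, hp0, hu, -, -⟩
    · simp [herr, h0]
    · have := late_total d w hw N M (lami i) C K A i (τ i) h0 hM.le hC p
        (fun j _ => hcard j) hp hu
      calc 1 / M * ∑ κ ∈ A, err κ i ≤ 1 / M * (τ i * (M * (C * lami i))) :=
            mul_le_mul_of_nonneg_left this (by positivity)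
        _ = C * (τ i * lami i) := by field_simp
  · intro i hi κ hκ
    rcases hout i hi with ⟨h0, h2, h3⟩ | ⟨h0, δ, p, a, b, hp, hV0, hp0, hu, ha, hb⟩
    · have := dead_pays d w hw N K (V0 i) (V1 κ i) i κ h2 (h3 κ hκ)
      simp only [herr, h0, zero_mul, sub_zero]
      exact this
    · obtain ⟨hδ, hV1, hR, hb'⟩ := hb κ hκ
      exact late_pays d w hw N (lami i) K i κ (V0 i) (V1 κ i) (τ i) (δ κ) p a (b κ) hδ hp0 hp
        hV0 hV1 hR (fun j hj _ => ha j hj) hb'
  · intro i hi
    obtain ⟨t, δ, p, a, b, h1, h2, h3, h4, h5⟩ := hA i hi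
    refine le_trans ?_ (star_of_certificate d w hw N M (lami i) K A i (V0 i) (fun κ => V1 κ i)
      t δ p a b h1 h2 h3 h4 h5)
    rw [sub_zero]
    exact mul_le_mul_of_nonneg_right (hlam i hi) hM.le

/-- **(MD)** Descent with certificates, superset form.  `A ⊇ Al` (alive copies); every copy in `Al`
has a certificate with respect to the openings in `A`. -/
theorem descent_superset (d : σ → ι → ℝ) (w : ι → ℝ) (hw : ∀ j, 0 ≤ w j) (N : ι → Finset σ)
    (M lam : ℝ) (hM : 0 < M) (hcard : ∀ j, ((N j).card : ℝ) = M)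
    (n : ℝ) (K : ι → ℝ) (V0 : σ → ℝ) (V1 : σ → σ → ℝ)
    (A Al : Finset σ) (hAl : Al ⊆ A)
    (hdead0 : ∀ i, i ∉ Al → uval d w N K i ≤ V0 i)
    (hdead1 : ∀ i, i ∉ Al → ∀ κ ∈ A, V1 κ i ≤ uval d w N (fun j => min (K j) (d κ j)) i)
    (hcert : ∀ i ∈ Al, ∃ (t : ℝ) (δ : σ → ℝ) (p a : ι → ℝ) (b : σ → ι → ℝ),
      ∑ j, (if i ∈ N j then w j * p j else 0) = lam ∧
      lam * t + ∑ j, (if i ∈ N j then w j * a j else 0) ≤ V0 i ∧
      (∀ κ ∈ A, V1 κ i ≤ lam * (t - δ κ) + ∑ j, (if i ∈ N j then w j * b κ j else 0)) ∧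
      (∀ κ ∈ A, ∀ j, i ∈ N j → κ ∉ N j → b κ j ≤ a j + δ κ * p j) ∧
      (∀ j, i ∈ N j → M * p j ≤
        (∑ κ ∈ A, if κ ∈ N j then
          a j + δ κ * p j - b κ j + max (min (d κ j) (K j) - d i j) 0 else 0) +
          ((N j \ A).card : ℝ) * max (K j - d i j) 0)) :
    ∑ κ ∈ A, (Phi d w N M lam (n + 1) (fun j => min (K j) (d κ j)) (V1 κ)
      - Phi d w N M lam n K V0) ≤ ∑ i ∈ A \ Al, (lam - uval d w N K i) := by
  refine exchange_superset d w hw N M lam hM hcard n K V0 V1 A Al hAl hdead0 hdead1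
    fun i hi => ?_
  obtain ⟨t, δ, p, a, b, h1, h2, h3, h4, h5⟩ := hcert i hi
  exact star_of_certificate d w hw N M lam K A i (V0 i) (fun κ => V1 κ i) t δ p a b h1 h2 h3 h4 h5

end

end Crest.Agent.KM
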