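import Crest.Agent.KM.PotK

/-!
# Finite (rational) evaluation of the potential, with error bound

`hullc J E u F f l` approximates `cc u F f (l/J)` up to `(η + 1/(2J²)) f`, where `E s ≈ exp(-s/J)`
up to `η`; `VT` is the minimum over the `J+1` nodes and `RT` the approximation of `State.R`.
-/

set_option autoImplicit false

open Finset

namespace Crest.Agent.KM

section Defs

variable {𝕜 : Type*} [Field 𝕜] [LinearOrder 𝕜]

/-- minimum of a list and a start value -/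
def minL (x0 : 𝕜) (L : List 𝕜) : 𝕜 := L.foldr min x0

/-- value at time `l/J` of the segment from `(0,u)` to the curve point at time `s/J` -/
def seg (J : ℕ) (E : ℕ → 𝕜) (u F f : 𝕜) (l s : ℕ) : 𝕜 :=
  (1 - (l:𝕜)/(s:𝕜)) * u +
    ((l:𝕜)/(s:𝕜)) * ((1 - (s:𝕜)/(J:𝕜)) * (F - min F f) + E s * min F f)

/-- the hull value at node `l` -/
def hullc (J : ℕ) (E : ℕ → 𝕜) (u F f : 𝕜) (l : ℕ) : 𝕜 :=
  if l = 0 then u else
    minL (u - ((l:𝕜)/(J:𝕜)) * (u/2))
      (((List.range (J+1)).filter (fun s => decide (l ≤ s))).map (seg J E u F f l))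

/-- `(1 - 1/J + 1/(2J²))^s` -/
def expT (J : ℕ) (s : ℕ) : 𝕜 := (1 - 1/(J:𝕜) + 1/(2*(J:𝕜)^2))^s

end Defs

lemma minL_le_start {x0 : ℝ} (L : List ℝ) : minL x0 L ≤ x0 := by
  induction L with
  | nil => exact le_rfl
  | cons a L ih => exact (min_le_right _ _).trans ih

lemma minL_le {x0 : ℝ} {L : List ℝ} {a : ℝ} (h : a ∈ L) : minL x0 L ≤ a := by
  induction L with
  | nil => simp at h
  | cons b L ih =>
    rcases List.mem_cons.mp h with h1 | h1
    · rw [h1]; exact min_le_left _ _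
    · exact (min_le_right _ _).trans (ih h1)

lemma le_minL {x0 b : ℝ} {L : List ℝ} (h0 : b ≤ x0) (h : ∀ a ∈ L, b ≤ a) : b ≤ minL x0 L := by
  induction L with
  | nil => exact h0
  | cons a L ih =>
    exact le_min (h a (List.mem_cons_self)) (ih fun c hc => h c (List.mem_cons_of_mem _ hc))

lemma exp_taylor {h : ℝ} (h0 : 0 ≤ h) : Real.exp (-h) ≤ 1 - h + h^2/2 := by
  -- e^{-h} * e^{h} = 1 with e^h ≥ 1 + h + h^2/2
  have h1 : 1 + h + h^2/2 ≤ Real.exp h := Real.quadratic_le_exp_of_nonneg h0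
  have h2 : Real.exp (-h) * Real.exp h = 1 := by rw [← Real.exp_add]; simp
  have h3 : 0 < Real.exp (-h) := Real.exp_pos _
  have h4 : Real.exp (-h) * (1 + h + h^2/2) ≤ 1 := by
    calc _ ≤ Real.exp (-h) * Real.exp h := mul_le_mul_of_nonneg_left h1 h3.le
      _ = 1 := h2
  have h5 : 1 ≤ (1 - h + h^2/2) * (1 + h + h^2/2) := by nlinarith [sq_nonneg (h^2)]
  have h6 : 0 < 1 + h + h^2/2 := by positivity
  have : Real.exp (-h) * (1 + h + h^2/2) ≤ (1 - h + h^2/2) * (1 + h + h^2/2) := h4.trans h5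
  exact le_of_mul_le_mul_right this h6

section

variable {J : ℕ} {E : ℕ → ℝ} {η : ℝ}

lemma seg_ge (hJ : 0 < J) (hE : ∀ s ≤ J, |E s - Real.exp (-((s:ℝ)/J))| ≤ η)
    {u F f : ℝ} (hf : 0 ≤ f) (hF : 0 ≤ F) (huF : u ≤ F) {l s : ℕ} (hl : 0 < l) (hls : l ≤ s)
    (hs : s ≤ J) : cc u F f ((l:ℝ)/J) - η * f ≤ seg J E u F f l s := by
  have hJ' : (0:ℝ) < J := by exact_mod_cast hJ
  have hs' : (0:ℝ) < s := by exact_mod_cast (lt_of_lt_of_le hl hls)
  have hl' : (0:ℝ) < l := by exact_mod_cast hl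
  have hls' : (l:ℝ) ≤ s := by exact_mod_cast hls
  have hsJ : (s:ℝ) ≤ J := by exact_mod_cast hs
  have hρ0 : 0 ≤ (l:ℝ)/s := by positivity
  have hρ1 : (l:ℝ)/s ≤ 1 := by rw [div_le_one hs']; exact hls'
  have h1 := cc_chord (u := u) (x := (s:ℝ)/J) hf hF huF hρ0 hρ1
  have h2 : (l:ℝ)/s * ((s:ℝ)/J) = (l:ℝ)/J := by field_simp
  rw [h2] at h1
  have h3 := cc_le_Bc (u := u) (t := (s:ℝ)/J) hf hF (by positivity) (by rw [div_le_one hJ']; exact hsJ)
  have h4 := (abs_le.mp (hE s hs)).1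
  have hm0 : 0 ≤ min F f := le_min hF hf
  have hmf : min F f ≤ f := min_le_right _ _
  have hη : 0 ≤ η := (abs_nonneg _).trans (hE s hs)
  have h5 : Bc F f ((s:ℝ)/J) - η * f ≤ (1 - (s:ℝ)/J) * (F - min F f) + E s * min F f := by
    unfold Bc
    have := mul_le_mul_of_nonneg_right (show Real.exp (-((s:ℝ)/J)) - η ≤ E s by linarith) hm0
    have := mul_le_mul_of_nonneg_left hmf hη
    linarith
  have h6 := mul_le_mul_of_nonneg_left (h3.trans (sub_le_iff_le_add.mp h5)) hρ0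
  have h7 : (l:ℝ)/s * (η * f) ≤ 1 * (η * f) :=
    mul_le_mul_of_nonneg_right hρ1 (mul_nonneg hη hf)
  unfold seg
  linarith

lemma hullc_ge (hJ : 0 < J) (hE : ∀ s ≤ J, |E s - Real.exp (-((s:ℝ)/J))| ≤ η)
    {u F f : ℝ} (hf : 0 ≤ f) (hF : 0 ≤ F) (huF : u ≤ F) {l : ℕ} (hl : l ≤ J) :
    cc u F f ((l:ℝ)/J) - η * f ≤ hullc J E u F f l := by
  have hη : 0 ≤ η := (abs_nonneg _).trans (hE 0 (Nat.zero_le _))
  have hJ' : (0:ℝ) < J := by exact_mod_cast hJ
  unfold hullc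
  split_ifs with h0
  · rw [h0]
    simp only [Nat.cast_zero, zero_div]
    rw [cc_zero hf hF huF]
    have := mul_nonneg hη hf
    linarith
  · apply le_minL
    · have h1 := cc_chord (u := u) (x := 1) (ρ := (l:ℝ)/J) hf hF huF (by positivity)
        (by rw [div_le_one hJ']; exact_mod_cast hl)
      rw [mul_one, cc_one hf hF huF] at h1
      have h2 : (l:ℝ)/J * min (u/2) (ee * min F f) ≤ (l:ℝ)/J * (u/2) :=
        mul_le_mul_of_nonneg_left (min_le_left _ _) (by positivity)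
      have := mul_nonneg hη hf
      linarith
    · intro a ha
      obtain ⟨s, hs, rfl⟩ := List.mem_map.mp ha
      obtain ⟨hs1, hs2⟩ := List.mem_filter.mp hs
      have hs3 : s < J + 1 := List.mem_range.mp hs1
      have hs4 : l ≤ s := by simpa using hs2
      exact seg_ge hJ hE hf hF huF (Nat.pos_of_ne_zero h0) hs4 (by omega)

lemma hullc_le_seg (u F f : ℝ) {l s : ℕ} (hl : l ≠ 0) (hls : l ≤ s) (hs : s ≤ J) :
    hullc J E u F f l ≤ seg J E u F f l s := by
  unfold hullc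
  rw [if_neg hl]
  apply minL_le
  apply List.mem_map.mpr
  refine ⟨s, List.mem_filter.mpr ⟨List.mem_range.mpr (by omega), by simpa using hls⟩, rfl⟩

lemma hullc_le_half (u F f : ℝ) {l : ℕ} (hl : l ≠ 0) :
    hullc J E u F f l ≤ u - ((l:ℝ)/J) * (u/2) := by
  unfold hullc
  rw [if_neg hl]
  exact minL_le_start _

/-- upper bound of a segment in terms of the true curve -/
lemma seg_le (hE : ∀ s ≤ J, |E s - Real.exp (-((s:ℝ)/J))| ≤ η)
    {u F f : ℝ} (hf : 0 ≤ f) (hF : 0 ≤ F) {l s : ℕ} (hl : 0 < l) (hls : l ≤ s)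
    (hs : s ≤ J) :
    seg J E u F f l s ≤ (1 - (l:ℝ)/s) * u + ((l:ℝ)/s) * Bc F f ((s:ℝ)/J) + η * f := by
  have hs' : (0:ℝ) < s := by exact_mod_cast (lt_of_lt_of_le hl hls)
  have hl' : (0:ℝ) < l := by exact_mod_cast hl
  have hls' : (l:ℝ) ≤ s := by exact_mod_cast hls
  have hρ0 : 0 ≤ (l:ℝ)/s := by positivity
  have hρ1 : (l:ℝ)/s ≤ 1 := by rw [div_le_one hs']; exact hls'
  have h4 := (abs_le.mp (hE s hs)).2
  have hm0 : 0 ≤ min F f := le_min hF hf
  have hmf : min F f ≤ f := min_le_right _ _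
  have hη : 0 ≤ η := (abs_nonneg _).trans (hE s hs)
  have h5 : (1 - (s:ℝ)/J) * (F - min F f) + E s * min F f ≤ Bc F f ((s:ℝ)/J) + η * f := by
    unfold Bc
    have := mul_le_mul_of_nonneg_right (show E s ≤ Real.exp (-((s:ℝ)/J)) + η by linarith) hm0
    have := mul_le_mul_of_nonneg_left hmf hη
    linarith
  have h6 := mul_le_mul_of_nonneg_left h5 hρ0
  have h7 : (l:ℝ)/s * (η * f) ≤ 1 * (η * f) :=
    mul_le_mul_of_nonneg_right hρ1 (mul_nonneg hη hf)
  unfold seg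
  linarith

lemma hullc_le (hJ : 0 < J) (hE : ∀ s ≤ J, |E s - Real.exp (-((s:ℝ)/J))| ≤ η)
    {u F f : ℝ} (hf : 0 ≤ f) (hF : 0 ≤ F) (huF : u ≤ F) {l : ℕ} (hl : l ≤ J) :
    hullc J E u F f l ≤ cc u F f ((l:ℝ)/J) + (η + 1/(2*(J:ℝ)^2)) * f := by
  have hη : 0 ≤ η := (abs_nonneg _).trans (hE 0 (Nat.zero_le _))
  have hJ' : (0:ℝ) < J := by exact_mod_cast hJ
  have hc : 0 ≤ 1/(2*(J:ℝ)^2) * f := by positivity
  have hηf : 0 ≤ η * f := mul_nonneg hη hf
  rcases Nat.eq_zero_or_pos l with h0 | hlpos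
  · subst h0
    unfold hullc
    rw [if_pos rfl]
    simp only [Nat.cast_zero, zero_div]
    rw [cc_zero hf hF huF]
    linarith
  have hl0 : l ≠ 0 := hlpos.ne'
  have hl' : (0:ℝ) < l := by exact_mod_cast hlpos
  have hlJ : (l:ℝ)/J ≤ 1 := by rw [div_le_one hJ']; exact_mod_cast hl
  have hlJ0 : 0 ≤ (l:ℝ)/J := by positivity
  have hm0 : 0 ≤ min F f := le_min hF hf
  have hmf : min F f ≤ f := min_le_right _ _
  have he := ee_pos
  by_cases h : u ≤ F - (1-2*ee)*min F f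
  · rcases le_total (u - ee*min F f) (u/2) with h1 | h1
    · have h2 := hullc_le_half (J := J) (E := E) u F f hl0
      rw [cc_of_le h, max_eq_left h1]
      linarith
    · have h2 := hullc_le_seg (J := J) (E := E) u F f hl0 hl le_rfl
      have h3 := seg_le hE (u := u) hf hF hlpos hl le_rfl
      rw [cc_of_le h, max_eq_right h1]
      have h4 : Bc F f ((J:ℝ)/J) = ee * min F f := by
        rw [div_self hJ'.ne']; unfold Bc ee; ring
      rw [h4] at h3
      linarith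
  · push Not at h
    obtain ⟨hx0, hx1, -⟩ := ts_spec (le_min hF hf) huF h
    have hline := line_at_ts hf hF huF h
    have hcc := cc_of_gt h ((l:ℝ)/J)
    set x := ts u F (min F f) with hx
    rcases le_total x ((l:ℝ)/J) with hxt | hxt
    · have h2 := hullc_le_seg (J := J) (E := E) u F f hl0 le_rfl hl
      have h3 := seg_le hE (u := u) hf hF hlpos le_rfl hl
      rw [div_self hl'.ne'] at h3
      rw [hcc, max_eq_left hxt]
      linarith
    · -- next grid point above x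
      rw [hcc, max_eq_right hxt]
      set s := ⌈x * J⌉₊ with hsdef
      have hs1 : x * J ≤ s := Nat.le_ceil _
      have hs2 : (s:ℝ) < x * J + 1 := Nat.ceil_lt_add_one (by positivity)
      have hlx : (l:ℝ) ≤ x * J := by rwa [div_le_iff₀ hJ'] at hxt
      have hls : l ≤ s := by exact_mod_cast hlx.trans hs1
      have hsJ : s ≤ J := by
        rw [hsdef, Nat.ceil_le]
        exact mul_le_of_le_one_left hJ'.le hx1
      have h2 := hullc_le_seg (J := J) (E := E) u F f hl0 hls hsJ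
      have h3 := seg_le hE (u := u) hf hF hlpos hls hsJ
      have hs' : (0:ℝ) < s := by exact_mod_cast (lt_of_lt_of_le hlpos hls)
      have hls' : (l:ℝ) ≤ s := by exact_mod_cast hls
      have hρ0 : 0 ≤ (l:ℝ)/s := by positivity
      have hρ1 : (l:ℝ)/s ≤ 1 := by rw [div_le_one hs']; exact hls'
      -- the deviation of the curve from the tangent line
      set hh := (s:ℝ)/J - x with hhdef
      have hh0 : 0 ≤ hh := by
        rw [hhdef, sub_nonneg, le_div_iff₀ hJ']; exact hs1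
      have hh1 : hh ≤ 1/J := by
        rw [hhdef, sub_le_iff_le_add, div_le_iff₀ hJ']
        have : (1/(J:ℝ) + x) * J = 1 + x * J := by field_simp
        rw [this]; linarith
      have h5 : Bc F f ((s:ℝ)/J) ≤ Bc F f x + (x - (s:ℝ)/J) * bc F f x + hh^2/2 * f := by
        have h6 : Real.exp (-((s:ℝ)/J)) = Real.exp (-x) * Real.exp (-hh) := by
          rw [← Real.exp_add]; congr 1; rw [hhdef]; ring
        have h7 := exp_taylor hh0
        have h8 : Real.exp (-x) ≤ 1 := exp_neg_le_one hx0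
        have h9 : 0 < Real.exp (-x) := Real.exp_pos _
        have h10 : Real.exp (-((s:ℝ)/J)) ≤ Real.exp (-x) * (1 - hh) + hh^2/2 := by
          rw [h6]
          have a1 := mul_le_mul_of_nonneg_left h7 h9.le
          have a2 := mul_le_mul_of_nonneg_right h8 (show 0 ≤ hh^2/2 by positivity)
          linarith
        have h11 := mul_le_mul_of_nonneg_right h10 hm0
        have h12 : hh^2/2 * min F f ≤ hh^2/2 * f := mul_le_mul_of_nonneg_left hmf (by positivity)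
        have h13 : (s:ℝ)/J = x + hh := by rw [hhdef]; ring
        unfold Bc bc
        rw [h13] at h11 ⊢
        nlinarith
      have h14 : hh^2/2 * f ≤ 1/(2*(J:ℝ)^2) * f := by
        apply mul_le_mul_of_nonneg_right _ hf
        have : hh^2 ≤ (1/(J:ℝ))^2 := pow_le_pow_left₀ hh0 hh1 2
        calc hh^2/2 ≤ (1/(J:ℝ))^2/2 := by linarith
          _ = 1/(2*(J:ℝ)^2) := by field_simp
      have h15 := mul_le_mul_of_nonneg_left (h5.trans (add_le_add le_rfl h14)) hρ0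
      have h16 : (l:ℝ)/s * (1/(2*(J:ℝ)^2) * f) ≤ 1 * (1/(2*(J:ℝ)^2) * f) :=
        mul_le_mul_of_nonneg_right hρ1 hc
      -- evaluate the line at l/J
      have h17 : (1 - (l:ℝ)/s) * u + (l:ℝ)/s * (Bc F f x + (x - (s:ℝ)/J) * bc F f x) =
          Bc F f x + (x - (l:ℝ)/J) * bc F f x := by
        rw [← hline]
        field_simp
        ring
      refine h2.trans (h3.trans ?_)
      have h18 : (l:ℝ)/s * (Bc F f x + (x - (s:ℝ)/J) * bc F f x + 1/(2*(J:ℝ)^2) * f) =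
          (l:ℝ)/s * (Bc F f x + (x - (s:ℝ)/J) * bc F f x) + (l:ℝ)/s * (1/(2*(J:ℝ)^2) * f) := by
        ring
      rw [h18] at h15
      linarith

end

/-! ## Nodes -/

section Defs

variable {𝕜 : Type*} [Field 𝕜] [LinearOrder 𝕜] {ι : Type*}

/-- value of the star function at node `l` -/
def nodeT (J : ℕ) (E : ℕ → 𝕜) (Js : Finset ι) (w u f : ι → 𝕜) (F p : 𝕜) (l : ℕ) : 𝕜 :=
  p * ((l:𝕜)/(J:𝕜)) + ∑ j ∈ Js, w j * hullc J E (u j) F (f j) l

/-- approximate star value: minimum over the nodes -/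
def VT (J : ℕ) (E : ℕ → 𝕜) (Js : Finset ι) (w u f : ι → 𝕜) (F p : 𝕜) : 𝕜 :=
  minL (nodeT J E Js w u f F p 0) ((List.range (J+1)).map (nodeT J E Js w u f F p))

end Defs

lemma gg_diff {u F f a b : ℝ} (hf : 0 ≤ f) (hF : 0 ≤ F) (huF : u ≤ F) (ha : 0 ≤ a) (hab : a ≤ b) :
    gg u F f a - gg u F f b ≤ (b - a) * f := by
  have hm0 : 0 ≤ min F f := le_min hF hf
  have hmf : min F f ≤ f := min_le_right _ _
  by_cases h : u ≤ F - (1-2*ee)*min F f
  · rw [gg_of_le h, gg_of_le h, sub_self]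
    exact mul_nonneg (by linarith) hf
  · push Not at h
    obtain ⟨hx0, hx1, -⟩ := ts_spec (le_min hF hf) huF h
    rw [gg_of_gt h, gg_of_gt h]
    set x := ts u F (min F f)
    unfold bc
    set a' := max a x with ha'
    set b' := max b x with hb'
    have h1 : b' - a' ≤ b - a := by
      rw [ha', hb']
      rcases le_total a x with h2 | h2
      · rw [max_eq_right h2]
        rcases le_total b x with h3 | h3
        · rw [max_eq_right h3]; linarith
        · rw [max_eq_left h3]; linarith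
      · rw [max_eq_left h2, max_eq_left (h2.trans hab)]
    have h0 : a' ≤ b' := max_le_max hab le_rfl
    have h2 := exp_neg_tangent b' a'
    have h3 : Real.exp (-a') ≤ 1 := exp_neg_le_one (ha.trans (le_max_left _ _))
    have h4 : Real.exp (-a') - Real.exp (-b') ≤ b' - a' := by nlinarith
    have h5 := mul_le_mul_of_nonneg_right (h4.trans h1) hm0
    have h6 := mul_le_mul_of_nonneg_left hmf (show 0 ≤ b - a by linarith)
    linarith

/-- interpolation between two nodes -/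
lemma cc_interp {u F f a b ρ : ℝ} (hf : 0 ≤ f) (hF : 0 ≤ F) (huF : u ≤ F) (ha : 0 ≤ a)
    (hab : a ≤ b) (h0 : 0 ≤ ρ) (h1 : ρ ≤ 1) :
    (1 - ρ) * cc u F f a + ρ * cc u F f b ≤
      cc u F f ((1-ρ) * a + ρ * b) + (b-a)^2/4 * f := by
  set t := (1-ρ) * a + ρ * b with ht
  have h2 := cc_sub (u := u) hf hF t a
  have h3 := cc_sub (u := u) hf hF t b
  have h4 := gg_diff hf hF huF ha hab
  have e1 : t - a = ρ * (b - a) := by rw [ht]; ring
  have e2 : b - t = (1 - ρ) * (b - a) := by rw [ht]; ring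
  have h5 : (1 - ρ) * cc u F f a + ρ * cc u F f b ≤ cc u F f t +
      ρ * (1-ρ) * (b-a) * (gg u F f a - gg u F f b) := by
    have a1 := mul_le_mul_of_nonneg_left h2 (show 0 ≤ 1 - ρ by linarith)
    have a2 := mul_le_mul_of_nonneg_left h3 h0
    have e3 : a - t = - (ρ * (b - a)) := by rw [ht]; ring
    rw [e3] at a1
    rw [e2] at a2
    nlinarith
  have h6 : ρ * (1-ρ) * (b-a) * (gg u F f a - gg u F f b) ≤ ρ * (1-ρ) * (b-a) * ((b - a) * f) :=
    mul_le_mul_of_nonneg_left h4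
      (mul_nonneg (mul_nonneg h0 (by linarith)) (by linarith))
  have h7 : ρ * (1-ρ) ≤ 1/4 := by nlinarith [sq_nonneg (ρ - 1/2)]
  have h8 : 0 ≤ (b-a)^2 * f := mul_nonneg (sq_nonneg _) hf
  have h9 : ρ * (1-ρ) * (b-a) * ((b - a) * f) ≤ (b-a)^2/4 * f := by
    have := mul_le_mul_of_nonneg_right h7 h8
    linarith
  linarith

section

variable {J : ℕ} {E : ℕ → ℝ} {η : ℝ} {ι : Type*}

lemma VT_ge (hJ : 0 < J) (hE : ∀ s ≤ J, |E s - Real.exp (-((s:ℝ)/J))| ≤ η)
    (Js : Finset ι) (w u f : ι → ℝ) (F p : ℝ) (hF : 0 ≤ F) (hw : ∀ j ∈ Js, 0 ≤ w j)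
    (hf : ∀ j ∈ Js, 0 ≤ f j) (hu : ∀ j ∈ Js, u j ≤ F) :
    VV Js w u f F p - η * ∑ j ∈ Js, w j * f j ≤ VT J E Js w u f F p := by
  have hJ' : (0:ℝ) < J := by exact_mod_cast hJ
  have key : ∀ l ≤ J, VV Js w u f F p - η * ∑ j ∈ Js, w j * f j ≤ nodeT J E Js w u f F p l := by
    intro l hl
    have h1 := VV_le Js w u f F p (t := (l:ℝ)/J) (by positivity)
      (by rw [div_le_one hJ']; exact_mod_cast hl)
    have h2 : ∑ j ∈ Js, w j * cc (u j) F (f j) ((l:ℝ)/J) ≤
        ∑ j ∈ Js, (w j * hullc J E (u j) F (f j) l + η * (w j * f j)) := by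
      apply Finset.sum_le_sum
      intro j hj
      have := mul_le_mul_of_nonneg_left (hullc_ge hJ hE (hf j hj) hF (hu j hj) hl) (hw j hj)
      linarith
    rw [Finset.sum_add_distrib, ← Finset.mul_sum] at h2
    unfold Vf at h1
    unfold nodeT
    linarith
  unfold VT
  apply le_minL (key 0 (Nat.zero_le _))
  intro a ha
  obtain ⟨l, hl, rfl⟩ := List.mem_map.mp ha
  exact key l (by have := List.mem_range.mp hl; omega)

lemma VT_le (hJ : 0 < J) (hE : ∀ s ≤ J, |E s - Real.exp (-((s:ℝ)/J))| ≤ η)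
    (Js : Finset ι) (w u f : ι → ℝ) (F p : ℝ) (hF : 0 ≤ F) (hw : ∀ j ∈ Js, 0 ≤ w j)
    (hf : ∀ j ∈ Js, 0 ≤ f j) (hu : ∀ j ∈ Js, u j ≤ F) :
    VT J E Js w u f F p ≤ VV Js w u f F p +
      (η + 1/(2*(J:ℝ)^2) + 1/(4*(J:ℝ)^2)) * ∑ j ∈ Js, w j * f j := by
  have hJ' : (0:ℝ) < J := by exact_mod_cast hJ
  obtain ⟨t, ht0, ht1, hmin⟩ := VV_exists Js w u f F p
  rw [hmin]
  -- nodes around t
  obtain ⟨l, hlJ, hl1, hl2⟩ : ∃ l : ℕ, l + 1 ≤ J ∧ (l:ℝ) ≤ t * J ∧ t * J ≤ l + 1 := by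
    rcases eq_or_lt_of_le ht1 with h | h
    · refine ⟨J - 1, by omega, ?_, ?_⟩
      · rw [h, one_mul]; exact_mod_cast Nat.sub_le _ _
      · rw [h, one_mul]
        have : J ≤ (J - 1) + 1 := by omega
        exact_mod_cast this
    · have h1 : 0 ≤ t * J := by positivity
      refine ⟨⌊t * J⌋₊, ?_, Nat.floor_le h1, (Nat.lt_floor_add_one _).le⟩
      have : ⌊t * J⌋₊ < J := by
        rw [Nat.floor_lt h1]
        nlinarith
      omega
  set ρ := t * J - l with hρ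
  have hρ0 : 0 ≤ ρ := by linarith
  have hρ1 : ρ ≤ 1 := by linarith
  have hteq : t = (1 - ρ) * ((l:ℝ)/J) + ρ * (((l+1:ℕ):ℝ)/J) := by
    rw [hρ]; push_cast; field_simp; ring
  have hn : ∀ l' ≤ J, VT J E Js w u f F p ≤ nodeT J E Js w u f F p l' := by
    intro l' hl'
    apply minL_le
    exact List.mem_map.mpr ⟨l', List.mem_range.mpr (by omega), rfl⟩
  have h1 := mul_le_mul_of_nonneg_left (hn l (by omega)) (show 0 ≤ 1 - ρ by linarith)
  have h2 := mul_le_mul_of_nonneg_left (hn (l+1) hlJ) hρ0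
  have h3 : VT J E Js w u f F p ≤ (1-ρ) * nodeT J E Js w u f F p l +
      ρ * nodeT J E Js w u f F p (l+1) := by linarith
  refine h3.trans ?_
  have h4 : ∑ j ∈ Js, ((1-ρ) * (w j * hullc J E (u j) F (f j) l) +
      ρ * (w j * hullc J E (u j) F (f j) (l+1))) ≤
      ∑ j ∈ Js, (w j * cc (u j) F (f j) t +
        (η + 1/(2*(J:ℝ)^2) + 1/(4*(J:ℝ)^2)) * (w j * f j)) := by
    apply Finset.sum_le_sum
    intro j hj
    have a1 := hullc_le hJ hE (hf j hj) hF (hu j hj) (show l ≤ J by omega)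
    have a2 := hullc_le hJ hE (hf j hj) hF (hu j hj) hlJ
    have a3 := cc_interp (u := u j) (ρ := ρ) (a := (l:ℝ)/J) (b := ((l+1:ℕ):ℝ)/J)
      (hf j hj) hF (hu j hj) (by positivity)
      (by push_cast; exact div_le_div_of_nonneg_right (by linarith) hJ'.le) hρ0 hρ1
    rw [← hteq] at a3
    have e : (((l+1:ℕ):ℝ)/J - (l:ℝ)/J)^2/4 = 1/(4*(J:ℝ)^2) := by
      push_cast; field_simp; ring
    rw [e] at a3
    have a4 := mul_le_mul_of_nonneg_left a1 (show 0 ≤ 1 - ρ by linarith)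
    have a5 := mul_le_mul_of_nonneg_left a2 hρ0
    have a6 : (1-ρ) * hullc J E (u j) F (f j) l + ρ * hullc J E (u j) F (f j) (l+1) ≤
        cc (u j) F (f j) t + (η + 1/(2*(J:ℝ)^2) + 1/(4*(J:ℝ)^2)) * f j := by linarith
    have := mul_le_mul_of_nonneg_left a6 (hw j hj)
    linarith
  rw [Finset.sum_add_distrib, Finset.sum_add_distrib, ← Finset.mul_sum, ← Finset.mul_sum,
    ← Finset.mul_sum] at h4
  have h5 : p * t = (1-ρ) * (p * ((l:ℝ)/J)) + ρ * (p * (((l+1:ℕ):ℝ)/J)) := by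
    calc p * t = p * ((1 - ρ) * ((l:ℝ)/J) + ρ * (((l+1:ℕ):ℝ)/J)) := by rw [← hteq]
      _ = _ := by ring
  unfold nodeT Vf
  linarith

end

lemma expT_err {J : ℕ} (hJ : 0 < J) {s : ℕ} (hs : s ≤ J) :
    |expT J s - Real.exp (-((s:ℝ)/J))| ≤ (2/9) / (J:ℝ)^2 := by
  have hJ' : (0:ℝ) < J := by exact_mod_cast hJ
  have hJ1 : (1:ℝ) ≤ J := by exact_mod_cast hJ
  set h : ℝ := 1/J with hh
  have h0 : 0 < h := by positivity
  have h1 : h ≤ 1 := by rw [hh, div_le_one hJ']; exact hJ1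
  set r : ℝ := 1 - h + h^2/2 with hr
  have hb := Real.exp_bound (x := -h) (n := 3) (by rw [abs_neg, abs_of_pos h0]; exact h1)
    (by norm_num)
  have hsum : ∑ m ∈ Finset.range 3, (-h)^m / (m.factorial : ℝ) = r := by
    rw [hr]; simp [Finset.sum_range_succ, Nat.factorial]; ring
  rw [hsum, abs_neg, abs_of_pos h0] at hb
  have hb2 : |Real.exp (-h) - r| ≤ (2/9) * h^3 := by
    refine hb.trans (le_of_eq ?_)
    norm_num [Nat.factorial]; ring
  have hr1 : r ≤ 1 := by rw [hr]; nlinarith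
  have hr0 : 0 ≤ r := by rw [hr]; nlinarith [sq_nonneg (h-1)]
  have he0 : 0 < Real.exp (-h) := Real.exp_pos _
  have he1 : Real.exp (-h) ≤ 1 := exp_neg_le_one h0.le
  have key : ∀ n : ℕ, |r^n - (Real.exp (-h))^n| ≤ n * ((2/9) * h^3) := by
    intro n
    induction n with
    | zero => simp
    | succ n ih =>
      have e : r^(n+1) - (Real.exp (-h))^(n+1) =
          (r^n - (Real.exp (-h))^n) * r + (Real.exp (-h))^n * (r - Real.exp (-h)) := by ring
      rw [e]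
      refine (abs_add_le _ _).trans ?_
      rw [abs_mul, abs_mul, abs_of_nonneg hr0, abs_of_nonneg (pow_nonneg he0.le n)]
      have a1 : |r^n - (Real.exp (-h))^n| * r ≤ n * ((2/9) * h^3) * 1 :=
        mul_le_mul ih hr1 hr0 (by positivity)
      have a2 : (Real.exp (-h))^n * |r - Real.exp (-h)| ≤ 1 * ((2/9) * h^3) := by
        apply mul_le_mul (pow_le_one₀ he0.le he1) _ (abs_nonneg _) zero_le_one
        rw [abs_sub_comm]; exact hb2
      push_cast
      linarith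
  have e1 : (expT J s : ℝ) = r^s := by
    unfold expT
    rw [hr, hh]; congr 1; field_simp
  have e2 : Real.exp (-((s:ℝ)/J)) = (Real.exp (-h))^s := by
    rw [← Real.exp_nat_mul]; congr 1; rw [hh]; ring
  rw [e1, e2]
  refine (key s).trans ?_
  have hsJ : (s:ℝ) ≤ J := by exact_mod_cast hs
  calc (s:ℝ) * ((2/9) * h^3) ≤ J * ((2/9) * h^3) :=
        mul_le_mul_of_nonneg_right hsJ (by positivity)
    _ = (2/9) / (J:ℝ)^2 := by rw [hh]; field_simp

/-- approximate star value with the concrete exponential table -/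
lemma VT_err {J : ℕ} (hJ : 0 < J) {ι : Type*} (Js : Finset ι) (w u f : ι → ℝ) (F p : ℝ)
    (hF : 0 ≤ F) (hw : ∀ j ∈ Js, 0 ≤ w j)
    (hf : ∀ j ∈ Js, 0 ≤ f j) (hu : ∀ j ∈ Js, u j ≤ F) :
    |VT J (expT J) Js w u f F p - VV Js w u f F p| ≤ (1/(J:ℝ)^2) * ∑ j ∈ Js, w j * f j := by
  have hE : ∀ s ≤ J, |expT J s - Real.exp (-((s:ℝ)/J))| ≤ (2/9) / (J:ℝ)^2 :=
    fun s hs => expT_err hJ hs
  have hJ' : (0:ℝ) < J := by exact_mod_cast hJ
  have h1 := VT_ge hJ hE Js w u f F p hF hw hf hu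
  have h2 := VT_le hJ hE Js w u f F p hF hw hf hu
  have hs : 0 ≤ ∑ j ∈ Js, w j * f j :=
    Finset.sum_nonneg fun j hj => mul_nonneg (hw j hj) (hf j hj)
  have h3 : (2/9) / (J:ℝ)^2 ≤ 1/(J:ℝ)^2 := by
    apply div_le_div_of_nonneg_right (by norm_num) (by positivity)
  have h4 : (2/9) / (J:ℝ)^2 + 1/(2*(J:ℝ)^2) + 1/(4*(J:ℝ)^2) ≤ 1/(J:ℝ)^2 := by
    have : (2/9) / (J:ℝ)^2 + 1/(2*(J:ℝ)^2) + 1/(4*(J:ℝ)^2) = (35/36) / (J:ℝ)^2 := by
      field_simp; norm_num
    rw [this]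
    apply div_le_div_of_nonneg_right (by norm_num) (by positivity)
  have h5 := mul_le_mul_of_nonneg_right h3 hs
  have h6 := mul_le_mul_of_nonneg_right h4 hs
  rw [abs_le]
  constructor <;> linarith

namespace FracInst

variable {ι σ : Type} [Fintype ι] [Fintype σ] [DecidableEq σ] {I : FracInst ι σ}

/-- the computed potential -/
noncomputable def State.RT (S : I.State) (J : ℕ) (p : ℝ) : ℝ :=
  (1 / (I.M:ℝ)) * ∑ i, ((∑ j ∈ I.J i, I.w j * min (I.d i j) (S.K j)) +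
    VT J (expT J) (I.J i) I.w (S.u i) (I.key i) (S.F i) p)

/-- **error of the computed potential** -/
theorem State.RT_err (S : I.State) {J : ℕ} (hJ : 0 < J) (p : ℝ) :
    |S.RT J p - S.R p| ≤ (2/(J:ℝ)^2) * ∑ j, I.w j * I.C j := by
  have hM := I.M_pos'
  have e : S.RT J p - S.R p = (1 / (I.M:ℝ)) * ∑ i,
      (VT J (expT J) (I.J i) I.w (S.u i) (I.key i) (S.F i) p - S.V p i) := by
    unfold State.RT State.R
    rw [← mul_sub, ← Finset.sum_sub_distrib]
    congr 1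
    apply Finset.sum_congr rfl
    intro i _; ring
  rw [e, abs_mul, abs_of_nonneg (show 0 ≤ 1 / (I.M:ℝ) by positivity)]
  have h1 : |∑ i, (VT J (expT J) (I.J i) I.w (S.u i) (I.key i) (S.F i) p - S.V p i)| ≤
      ∑ i, (1/(J:ℝ)^2) * ∑ j ∈ I.J i, I.w j * I.key i j := by
    refine (Finset.abs_sum_le_sum_abs _ _).trans (Finset.sum_le_sum fun i _ => ?_)
    exact VT_err hJ _ _ _ _ _ _ (S.F_nonneg i) (fun j _ => I.w_nonneg j)
      (fun j _ => I.key_nonneg i j) (fun j _ => S.u_le i j)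
  rw [← Finset.mul_sum, sum_star_comm (fun i j => I.w j * I.key i j)] at h1
  have h2 : ∑ j, ∑ i ∈ I.N j, I.w j * I.key i j = ∑ j, 2 * I.M * (I.w j * I.C j) := by
    apply Finset.sum_congr rfl
    intro j _
    rw [← Finset.mul_sum]
    have hk : ∑ i ∈ I.N j, I.key i j = 2 * (I.M * I.C j) := by
      unfold key
      rw [← Finset.sum_div, Finset.sum_add_distrib, ← Finset.mul_sum, I.sum_d j,
        Finset.sum_const, nsmul_eq_mul, I.card_N j]
      ring
    rw [hk]; ring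
  rw [h2, ← Finset.mul_sum] at h1
  refine (mul_le_mul_of_nonneg_left h1 (show 0 ≤ 1 / (I.M:ℝ) by positivity)).trans (le_of_eq ?_)
  field_simp

end FracInst

/-! ## Rational versions -/

section Cast

lemma minL_cast (x0 : ℚ) (L : List ℚ) :
    ((minL x0 L : ℚ) : ℝ) = minL (x0:ℝ) (L.map (Rat.cast : ℚ → ℝ)) := by
  induction L with
  | nil => rfl
  | cons a L ih =>
    show ((min a (minL x0 L) : ℚ) : ℝ) = min (a:ℝ) (minL (x0:ℝ) (L.map (Rat.cast : ℚ → ℝ)))
    rw [Rat.cast_min, ih]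

lemma seg_cast (J : ℕ) (E : ℕ → ℚ) (u F f : ℚ) (l s : ℕ) :
    ((seg J E u F f l s : ℚ) : ℝ) = seg J (fun s => (E s : ℝ)) (u:ℝ) F f l s := by
  unfold seg
  push_cast
  ring

lemma expT_cast (J s : ℕ) : ((expT J s : ℚ) : ℝ) = expT J s := by
  unfold expT
  push_cast
  ring

lemma hullc_cast (J : ℕ) (E : ℕ → ℚ) (u F f : ℚ) (l : ℕ) :
    ((hullc J E u F f l : ℚ) : ℝ) = hullc J (fun s => (E s : ℝ)) (u:ℝ) F f l := by
  unfold hullc
  split_ifs with h
  · rfl
  · rw [minL_cast, List.map_map]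
    congr 1
    · push_cast; ring
    · apply List.map_congr_left
      intro s _
      exact seg_cast J E u F f l s

lemma nodeT_cast {ι : Type*} (J : ℕ) (E : ℕ → ℚ) (Js : Finset ι) (w u f : ι → ℚ) (F p : ℚ)
    (l : ℕ) : ((nodeT J E Js w u f F p l : ℚ) : ℝ) =
      nodeT J (fun s => (E s : ℝ)) Js (fun j => (w j : ℝ)) (fun j => (u j:ℝ))
        (fun j => (f j : ℝ)) F p l := by
  unfold nodeT
  push_cast
  congr 1
  apply Finset.sum_congr rfl
  intro j _
  rw [hullc_cast]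

lemma VT_cast {ι : Type*} (J : ℕ) (E : ℕ → ℚ) (Js : Finset ι) (w u f : ι → ℚ) (F p : ℚ) :
    ((VT J E Js w u f F p : ℚ) : ℝ) =
      VT J (fun s => (E s : ℝ)) Js (fun j => (w j : ℝ)) (fun j => (u j:ℝ))
        (fun j => (f j : ℝ)) F p := by
  unfold VT
  rw [minL_cast, List.map_map, nodeT_cast]
  congr 1
  apply List.map_congr_left
  intro l _
  exact nodeT_cast J E Js w u f F p l

end Cast

end Crest.Agent.KM
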