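import Mathlib

/-!
# The client function `c(t; u, F, f)` of the k-median potential (S0482)

`Bc F f t` is the level curve, `bc F f t` minus its slope; `cc u F f t` is the largest convex
function on `[0,1]` with value `≤ u` at `0`, `≤ u/2` at `1` and `≤ Bc F f`; `gg` is minus its slope.
-/

namespace Crest.Agent.KM

open Real Finset

/-- `1/e` -/
noncomputable def ee : ℝ := Real.exp (-1)

/-- clock factor -/
noncomputable def lam (x : ℝ) : ℝ := max 0 (min 1 ((x - 2*ee)/(1-2*ee)))

noncomputable def Bc (F f t : ℝ) : ℝ := (1-t)*(F - min F f) + Real.exp (-t) * min F f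
noncomputable def bc (F f t : ℝ) : ℝ := (F - min F f) + Real.exp (-t) * min F f

open Classical in
/-- tangent time: the tangent at `ts` to the curve passes through `(0,u)` -/
noncomputable def ts (u F m : ℝ) : ℝ :=
  if h : ∃ x : ℝ, 0 ≤ x ∧ x ≤ 1 ∧ F - m + (1+x)*Real.exp (-x)*m = u then Classical.choose h else 0

open Classical in
noncomputable def cc (u F f t : ℝ) : ℝ :=
  if u ≤ F - (1-2*ee)*min F f then u - t * max (u/2) (u - ee*min F f)
  else Bc F f (max t (ts u F (min F f)))
    + (max t (ts u F (min F f)) - t) * bc F f (max t (ts u F (min F f)))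

open Classical in
noncomputable def gg (u F f t : ℝ) : ℝ :=
  if u ≤ F - (1-2*ee)*min F f then max (u/2) (u - ee*min F f)
  else bc F f (max t (ts u F (min F f)))

lemma ee_pos : 0 < ee := Real.exp_pos _

lemma ee_mul : ee * Real.exp 1 = 1 := by
  unfold ee; rw [← Real.exp_add]; simp

lemma ee_lt : ee < 0.3679 := by
  have h1 := Real.exp_one_gt_d9
  have h2 := ee_mul
  have h3 := ee_pos
  nlinarith

lemma ee_gt : 0.3678 < ee := by
  have h1 := Real.exp_one_lt_d9
  have h2 := ee_mul
  have h3 := ee_pos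
  nlinarith

lemma q_pos : 0 < 1 - 2*ee := by have := ee_lt; linarith

lemma lam_nonneg (x : ℝ) : 0 ≤ lam x := le_max_left _ _
lemma lam_le_one (x : ℝ) : lam x ≤ 1 := max_le (by norm_num) (min_le_left _ _)

lemma lam_mono {x y : ℝ} (h : x ≤ y) : lam x ≤ lam y := by
  unfold lam
  apply max_le_max le_rfl
  apply min_le_min le_rfl
  apply div_le_div_of_nonneg_right _ q_pos.le
  linarith

lemma lam_of_one_le {x : ℝ} (h : 1 ≤ x) : lam x = 1 := by
  unfold lam
  rw [min_eq_left, max_eq_right (by norm_num)]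
  rw [le_div_iff₀ q_pos]; linarith

lemma lam_of_le {x : ℝ} (h : x ≤ 2*ee) : lam x = 0 := by
  unfold lam
  apply max_eq_left
  apply (min_le_right _ _).trans
  apply div_nonpos_of_nonpos_of_nonneg _ q_pos.le
  linarith

lemma lam_of_mem {x : ℝ} (h : 2*ee ≤ x) (h1 : x ≤ 1) : lam x = (x - 2*ee)/(1-2*ee) := by
  unfold lam
  rw [min_eq_right, max_eq_right]
  · apply div_nonneg _ q_pos.le; linarith
  · rw [div_le_iff₀ q_pos]; linarith

lemma exp_neg_anti {s t : ℝ} (h : s ≤ t) : Real.exp (-t) ≤ Real.exp (-s) :=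
  Real.exp_le_exp.mpr (by linarith)

lemma exp_neg_le_one {t : ℝ} (h : 0 ≤ t) : Real.exp (-t) ≤ 1 := by
  rw [← Real.exp_zero]; exact Real.exp_le_exp.mpr (by linarith)

lemma ee_le_exp {t : ℝ} (h : t ≤ 1) : ee ≤ Real.exp (-t) :=
  Real.exp_le_exp.mpr (by linarith)

/-- convexity of `exp (-·)` in tangent form -/
lemma exp_neg_tangent (s t : ℝ) : Real.exp (-t) + (t - s) * Real.exp (-t) ≤ Real.exp (-s) := by
  have h : Real.exp (-s) = Real.exp (-t) * Real.exp (t - s) := by
    rw [← Real.exp_add]; congr 1; ring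
  rw [h]
  have h2 := Real.add_one_le_exp (t - s)
  have h3 := Real.exp_pos (-t)
  nlinarith

lemma Bc_tangent {F f : ℝ} (hF : 0 ≤ F) (hf : 0 ≤ f) (s t : ℝ) :
    Bc F f t + (t - s) * bc F f t ≤ Bc F f s := by
  unfold Bc bc
  have hm : 0 ≤ min F f := le_min hF hf
  have h := mul_le_mul_of_nonneg_right (exp_neg_tangent s t) hm
  nlinarith

lemma bc_anti {F f : ℝ} (hF : 0 ≤ F) (hf : 0 ≤ f) {s t : ℝ} (h : s ≤ t) :
    bc F f t ≤ bc F f s := by
  unfold bc
  have hm : 0 ≤ min F f := le_min hF hf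
  have := mul_le_mul_of_nonneg_right (exp_neg_anti h) hm
  linarith

lemma bc_nonneg {F f : ℝ} (hF : 0 ≤ F) (hf : 0 ≤ f) (t : ℝ) : 0 ≤ bc F f t := by
  unfold bc
  have hm : 0 ≤ min F f := le_min hF hf
  have h1 : min F f ≤ F := min_le_left _ _
  have := Real.exp_pos (-t)
  have := mul_nonneg this.le hm
  linarith

lemma bc_cont (F f : ℝ) : Continuous (bc F f) := by
  unfold bc; fun_prop

/-- regime 3 has a tangent time -/
lemma ts_spec {u F m : ℝ} (_hm : 0 ≤ m) (huF : u ≤ F) (hu : F - (1-2*ee)*m < u) :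
    0 ≤ ts u F m ∧ ts u F m ≤ 1 ∧
      F - m + (1 + ts u F m) * Real.exp (-(ts u F m)) * m = u := by
  have hex : ∃ x : ℝ, 0 ≤ x ∧ x ≤ 1 ∧ F - m + (1+x)*Real.exp (-x)*m = u := by
    have hc : ContinuousOn (fun x : ℝ => F - m + (1+x)*Real.exp (-x)*m) (Set.Icc 0 1) := by
      fun_prop
    have := intermediate_value_Icc' (show (0:ℝ) ≤ 1 by norm_num) hc
    have hmem : u ∈ Set.Icc ((fun x : ℝ => F - m + (1+x)*Real.exp (-x)*m) 1)
        ((fun x : ℝ => F - m + (1+x)*Real.exp (-x)*m) 0) := by
      constructor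
      · show F - m + (1+1)*Real.exp (-1)*m ≤ u
        have : Real.exp (-1) = ee := rfl
        rw [this]; linarith
      · show u ≤ F - m + (1+0)*Real.exp (-0)*m
        simp; linarith
    obtain ⟨x, hx, hxe⟩ := this hmem
    exact ⟨x, hx.1, hx.2, hxe⟩
  unfold ts
  rw [dif_pos hex]
  exact Classical.choose_spec hex

lemma cc_of_le {u F f : ℝ} (h : u ≤ F - (1-2*ee)*min F f) (t : ℝ) :
    cc u F f t = u - t * max (u/2) (u - ee*min F f) := by unfold cc; rw [if_pos h]

lemma gg_of_le {u F f : ℝ} (h : u ≤ F - (1-2*ee)*min F f) (t : ℝ) :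
    gg u F f t = max (u/2) (u - ee*min F f) := by unfold gg; rw [if_pos h]

lemma cc_of_gt {u F f : ℝ} (h : F - (1-2*ee)*min F f < u) (t : ℝ) :
    cc u F f t = Bc F f (max t (ts u F (min F f)))
    + (max t (ts u F (min F f)) - t) * bc F f (max t (ts u F (min F f))) := by
  unfold cc; rw [if_neg (not_le.mpr h)]

lemma gg_of_gt {u F f : ℝ} (h : F - (1-2*ee)*min F f < u) (t : ℝ) :
    gg u F f t = bc F f (max t (ts u F (min F f))) := by
  unfold gg; rw [if_neg (not_le.mpr h)]

lemma line_at_ts {u F f : ℝ} (hf : 0 ≤ f) (hF : 0 ≤ F) (huF : u ≤ F)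
    (h : F - (1-2*ee)*min F f < u) :
    Bc F f (ts u F (min F f)) + (ts u F (min F f)) * bc F f (ts u F (min F f)) = u := by
  obtain ⟨h0, h1, h2⟩ := ts_spec (le_min hF hf) huF h
  set x := ts u F (min F f)
  unfold Bc bc
  linarith

lemma cc_zero {u F f : ℝ} (hf : 0 ≤ f) (hF : 0 ≤ F) (huF : u ≤ F) : cc u F f 0 = u := by
  by_cases h : u ≤ F - (1-2*ee)*min F f
  · rw [cc_of_le h]; ring
  · push Not at h
    obtain ⟨h0, h1, h2⟩ := ts_spec (le_min hF hf) huF h
    rw [cc_of_gt h, max_eq_right h0]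
    have := line_at_ts hf hF huF h
    linarith

lemma cc_one {u F f : ℝ} (hf : 0 ≤ f) (hF : 0 ≤ F) (huF : u ≤ F) :
    cc u F f 1 = min (u/2) (ee * min F f) := by
  by_cases h : u ≤ F - (1-2*ee)*min F f
  · rw [cc_of_le h]
    generalize min F f = m at h ⊢
    rcases le_total (u/2) (u - ee*m) with h1 | h1
    · rw [max_eq_right h1, min_eq_right (by linarith)]; ring
    · rw [max_eq_left h1, min_eq_left (by linarith)]; ring
  · push Not at h
    obtain ⟨h0, h1, h2⟩ := ts_spec (le_min hF hf) huF h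
    rw [cc_of_gt h, max_eq_left h1]
    have hm : min F f ≤ F := min_le_left _ _
    unfold Bc
    generalize min F f = m at h hm ⊢
    rw [min_eq_right (by linarith)]
    unfold ee
    ring

lemma gg_one {u F f : ℝ} (hf : 0 ≤ f) (hF : 0 ≤ F) (huF : u ≤ F) :
    gg u F f 1 = min (max (u/2) (u - ee*min F f)) (F - (1-ee) * min F f) := by
  have hm : min F f ≤ F := min_le_left _ _
  have hm0 : 0 ≤ min F f := le_min hF hf
  have he := ee_pos
  have he' := ee_lt
  by_cases h : u ≤ F - (1-2*ee)*min F f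
  · rw [gg_of_le h]
    generalize min F f = m at h hm hm0 ⊢
    rw [min_eq_left]
    apply max_le
    · nlinarith
    · nlinarith
  · push Not at h
    obtain ⟨h0, h1, h2⟩ := ts_spec (le_min hF hf) huF h
    rw [gg_of_gt h, max_eq_left h1]
    unfold bc
    generalize min F f = m at h hm hm0 ⊢
    rw [min_eq_right]
    · unfold ee
      ring
    · apply le_trans _ (le_max_right _ _)
      linarith

lemma gg_cont {u F f : ℝ} : Continuous (gg u F f) := by
  by_cases h : u ≤ F - (1-2*ee)*min F f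
  · have : gg u F f = fun _ => max (u/2) (u - ee*min F f) := by
      funext t; exact gg_of_le h t
    rw [this]; exact continuous_const
  · push Not at h
    have : gg u F f = fun t => bc F f (max t (ts u F (min F f))) := by
      funext t; exact gg_of_gt h t
    rw [this]
    exact (bc_cont F f).comp (by fun_prop)

lemma gg_nonneg {u F f : ℝ} (hu : 0 ≤ u) (hf : 0 ≤ f) (hF : 0 ≤ F) (t : ℝ) :
    0 ≤ gg u F f t := by
  by_cases h : u ≤ F - (1-2*ee)*min F f
  · rw [gg_of_le h]; exact le_trans (by linarith) (le_max_left _ _)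
  · push Not at h
    rw [gg_of_gt h]; exact bc_nonneg hF hf _

/-- subgradient inequality -/
lemma cc_sub {u F f : ℝ} (hf : 0 ≤ f) (hF : 0 ≤ F) (s t : ℝ) :
    cc u F f t + (t - s) * gg u F f t ≤ cc u F f s := by
  by_cases h : u ≤ F - (1-2*ee)*min F f
  · rw [cc_of_le h, cc_of_le h, gg_of_le h]; apply le_of_eq; ring
  · push Not at h
    rw [cc_of_gt h, cc_of_gt h, gg_of_gt h]
    set x := ts u F (min F f)
    have h1 := Bc_tangent hF hf (max s x) (max t x)
    rcases le_total s x with hs | hs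
    · rw [max_eq_right hs] at h1 ⊢
      have h2 : bc F f (max t x) ≤ bc F f x := bc_anti hF hf (le_max_right _ _)
      nlinarith
    · rw [max_eq_left hs] at h1 ⊢
      nlinarith

lemma cc_le_Bc {u F f : ℝ} (hf : 0 ≤ f) (hF : 0 ≤ F) {t : ℝ}
    (ht0 : 0 ≤ t) (ht : t ≤ 1) : cc u F f t ≤ Bc F f t := by
  have hm : min F f ≤ F := min_le_left _ _
  have hm0 : 0 ≤ min F f := le_min hF hf
  have he := ee_pos
  have he' := ee_lt
  by_cases h : u ≤ F - (1-2*ee)*min F f
  · rw [cc_of_le h]
    have h1 := Bc_tangent hF hf t 1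
    have h2 : u - t * max (u/2) (u - ee*min F f) ≤ u - t * (u - ee*min F f) := by
      have := mul_le_mul_of_nonneg_left (le_max_right (u/2) (u - ee*min F f)) ht0
      linarith
    refine le_trans (h2.trans ?_) h1
    unfold Bc bc
    have : Real.exp (-1) = ee := rfl
    rw [this]
    nlinarith
  · push Not at h
    rw [cc_of_gt h]
    exact Bc_tangent hF hf t _

/-- chord inequality from 0 to x, at time ρ x -/
lemma cc_chord {u F f : ℝ} (hf : 0 ≤ f) (hF : 0 ≤ F) (huF : u ≤ F) {x ρ : ℝ}
    (h0 : 0 ≤ ρ) (h1 : ρ ≤ 1) : cc u F f (ρ * x) ≤ (1-ρ) * u + ρ * cc u F f x := by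
  have a := cc_sub (u := u) hf hF 0 (ρ * x)
  have b := cc_sub (u := u) hf hF x (ρ * x)
  rw [cc_zero hf hF huF] at a
  have a' := mul_le_mul_of_nonneg_left a (show 0 ≤ 1 - ρ by linarith)
  have b' := mul_le_mul_of_nonneg_left b h0
  nlinarith

/-- (R0): the clock inequality for the level curves. -/
def R0Prop : Prop := ∀ F F' f t : ℝ, 0 < F → 0 ≤ F' → F' ≤ F → 0 ≤ f → 0 ≤ t → t ≤ 1 →
  Bc F' f (t * lam (F'/F)) ≤ Bc F f t + (t - t * lam (F'/F)) * bc F f t

/-- (L'): the price inequality. -/
def LProp : Prop := ∀ F d C x f : ℝ, 0 < F → 0 ≤ d → 0 ≤ C → 0 ≤ x → f = (11*d+5*C)/8 → f ≤ F →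
  lam ((d+x)/F) * max 0 (F - (1-ee)*f - max ((max 0 (x-d))/2) (max 0 (x-d) - ee*min (d+x) f)) * C
    ≤ x * ee * f

/-- (R) for the client function. -/
theorem cc_R (hR0 : R0Prop) {u u' F F' f t : ℝ} (hF : 0 < F) (hF' : 0 ≤ F') (hFF : F' ≤ F)
    (hf : 0 ≤ f) (huu : u' ≤ u) (hu'F' : u' ≤ F') (huF : u ≤ F)
    (ht0 : 0 ≤ t) (ht1 : t ≤ 1) :
    cc u' F' f (t * lam (F'/F)) ≤ cc u F f t + (t - t * lam (F'/F)) * gg u F f t := by
  have hl0 := lam_nonneg (F'/F)
  have hl1 := lam_le_one (F'/F)
  have he := ee_pos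
  by_cases h : u ≤ F - (1-2*ee)*min F f
  · -- chord regimes
    have hρ0 : 0 ≤ t * lam (F'/F) := mul_nonneg ht0 hl0
    have hρ1 : t * lam (F'/F) ≤ 1 := mul_le_one₀ ht1 hl0 hl1
    have h1 := cc_chord (x := 1) hf hF' hu'F' hρ0 hρ1
    rw [mul_one, cc_one hf hF' hu'F'] at h1
    rw [cc_of_le h, gg_of_le h]
    refine h1.trans ?_
    have hm : min F' f ≤ min F f := min_le_min hFF le_rfl
    set ρ := t * lam (F'/F)
    have h2 : min (u'/2) (ee * min F' f) ≤ u - max (u/2) (u - ee*min F f) := by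
      generalize min F f = m at hm ⊢
      generalize min F' f = m' at hm ⊢
      rcases le_total (u/2) (u - ee*m) with h3 | h3
      · rw [max_eq_right h3]
        refine (min_le_right _ _).trans ?_
        nlinarith
      · rw [max_eq_left h3]
        refine (min_le_left _ _).trans ?_
        linarith
    have h3 := mul_le_mul_of_nonneg_left h2 hρ0
    have h4 := mul_le_mul_of_nonneg_left huu (show 0 ≤ 1 - ρ by linarith)
    linarith
  · push Not at h
    obtain ⟨hx0, hx1, -⟩ := ts_spec (le_min hF.le hf) huF h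
    have hline := line_at_ts hf hF.le huF h
    rw [cc_of_gt h, gg_of_gt h]
    set x := ts u F (min F f) with hxdef
    rcases le_total x t with hxt | hxt
    · rw [max_eq_left hxt]
      have h1 := cc_le_Bc (u := u') (t := t * lam (F'/F)) hf hF' (mul_nonneg ht0 hl0)
        (mul_le_one₀ ht1 hl0 hl1)
      have h2 := hR0 F F' f t hF hF' hFF hf ht0 ht1
      linarith
    · rw [max_eq_right hxt]
      rcases eq_or_lt_of_le hx0 with hx00 | hxpos
      · have ht00 : t = 0 := le_antisymm (by linarith) ht0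
        subst ht00
        rw [← hx00] at hline ⊢
        rw [zero_mul, cc_zero hf hF' hu'F']
        linarith
      · have hρ0 : 0 ≤ t / x := div_nonneg ht0 hx0
        have hρ1 : t / x ≤ 1 := by rw [div_le_one hxpos]; exact hxt
        have htx : t = t / x * x := by field_simp
        set ρ := t / x with hρ
        have h1 := cc_chord (u := u') (x := x * lam (F'/F)) hf hF' hu'F' hρ0 hρ1
        have h2 := cc_le_Bc (u := u') (t := x * lam (F'/F)) hf hF' (mul_nonneg hx0 hl0)
          (mul_le_one₀ hx1 hl0 hl1)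
        have h3 := hR0 F F' f x hF hF' hFF hf hx0 hx1
        have h4 := mul_le_mul_of_nonneg_left (h2.trans h3) hρ0
        have h5 := mul_le_mul_of_nonneg_left huu (show 0 ≤ 1 - ρ by linarith)
        have h6 : t * lam (F'/F) = ρ * (x * lam (F'/F)) := by rw [htx]; ring
        rw [h6]
        refine h1.trans ?_
        have h7 : (1 - ρ) * u = (1 - ρ) * (Bc F f x + x * bc F f x) := by rw [hline]
        have h8 : t = ρ * x := htx
        rw [h8]
        nlinarith

/-- residual gain of the hit client -/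
noncomputable def rr (u d x : ℝ) : ℝ := min u (max 0 (x-d))

/-- price level -/
noncomputable def PP (u F f d x : ℝ) : ℝ :=
  max (rr u d x / 2) (rr u d x - ee * min (min F (d+x)) f)

/-- lower bound for the gain of a client hit from distance `x` -/
noncomputable def GG (u F f d t x : ℝ) : ℝ :=
  cc u F f t + t * gg u F f t - t * lam ((d+x)/F) * max 0 (gg u F f t - PP u F f d x)

lemma rr_le (u d x : ℝ) : rr u d x ≤ u := min_le_left _ _

lemma rr_nonneg {u : ℝ} (hu : 0 ≤ u) (d x : ℝ) : 0 ≤ rr u d x := le_min hu (le_max_left _ _)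

/-- chord bound: `r - c(θ; r, F') ≥ θ P` -/
lemma chord_bound {r F' f θ : ℝ} (hf : 0 ≤ f) (hF' : 0 ≤ F') (hrF : r ≤ F')
    (h0 : 0 ≤ θ) (h1 : θ ≤ 1) :
    θ * max (r/2) (r - ee * min F' f) ≤ r - cc r F' f θ := by
  have h := cc_chord (u := r) (x := 1) hf hF' hrF h0 h1
  rw [mul_one, cc_one hf hF' hrF] at h
  generalize min F' f = m at h ⊢
  rcases le_total (r/2) (r - ee*m) with h3 | h3
  · rw [max_eq_right h3]
    rw [min_eq_right (by linarith)] at h
    nlinarith
  · rw [max_eq_left h3]
    rw [min_eq_left (by linarith)] at h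
    nlinarith

/-- dead mass pays at least `GG` -/
theorem GG_le_u {u F f d t x : ℝ} (hF : 0 < F) (hf : 0 ≤ f) (huF : u ≤ F) (ht0 : 0 ≤ t) :
    GG u F f d t x ≤ u := by
  unfold GG
  have h := cc_sub (u := u) hf hF.le 0 t
  rw [cc_zero hf hF.le huF] at h
  have h1 : 0 ≤ t * lam ((d+x)/F) * max 0 (gg u F f t - PP u F f d x) :=
    mul_nonneg (mul_nonneg ht0 (lam_nonneg _)) (le_max_left _ _)
  linarith

/-- an alive hit pays at least `GG` -/
theorem GG_le_term {u F F' f d t x : ℝ} (hF : 0 < F) (hF' : 0 ≤ F') (hFF : F' ≤ F)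
    (hF'x : F' ≤ d + x) (hf : 0 ≤ f) (hrF : rr u d x ≤ F')
    (ht0 : 0 ≤ t) (ht1 : t ≤ 1) :
    GG u F f d t x ≤ cc u F f t + (t - t * lam (F'/F)) * gg u F f t + rr u d x
      - cc (rr u d x) F' f (t * lam (F'/F)) := by
  have hl0 := lam_nonneg (F'/F)
  have hl1 := lam_le_one (F'/F)
  have he := ee_pos
  have h1 := chord_bound (r := rr u d x) (θ := t * lam (F'/F)) hf hF' hrF (mul_nonneg ht0 hl0)
    (mul_le_one₀ ht1 hl0 hl1)
  have hP : PP u F f d x ≤ max (rr u d x / 2) (rr u d x - ee * min F' f) := by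
    unfold PP
    apply max_le_max le_rfl
    have : min F' f ≤ min (min F (d+x)) f := min_le_min (le_min hFF hF'x) le_rfl
    nlinarith
  have hll : t * lam (F'/F) ≤ t * lam ((d+x)/F) := by
    apply mul_le_mul_of_nonneg_left _ ht0
    apply lam_mono
    exact div_le_div_of_nonneg_right hF'x hF.le
  set θ := t * lam (F'/F) with hθ
  have hθ0 : 0 ≤ θ := mul_nonneg ht0 hl0
  have h2 : θ * PP u F f d x ≤ rr u d x - cc (rr u d x) F' f θ :=
    (mul_le_mul_of_nonneg_left hP hθ0).trans h1
  have h3 : θ * (gg u F f t - PP u F f d x) ≤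
      t * lam ((d+x)/F) * max 0 (gg u F f t - PP u F f d x) := by
    calc θ * (gg u F f t - PP u F f d x) ≤ θ * max 0 (gg u F f t - PP u F f d x) :=
          mul_le_mul_of_nonneg_left (le_max_right _ _) hθ0
      _ ≤ _ := mul_le_mul_of_nonneg_right hll (le_max_left _ _)
  unfold GG
  nlinarith

/-- pointwise price bound in the region `f ≤ F`, regimes 2 and 3 -/
lemma price_pt (hL : LProp) {u F f d C x g : ℝ} (hF : 0 < F) (hd : 0 ≤ d) (hC : 0 ≤ C)
    (hx : 0 ≤ x) (hf : f = (11*d+5*C)/8) (hfF : f ≤ F)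
    (hg : u - ee * f ≤ F - (1-ee)*f ∧ g ≤ u - ee * f ∨
      F - (1-2*ee)*f ≤ u ∧ g ≤ F - (1-ee)*f) :
    lam ((d+x)/F) * max 0 (g - PP u F f d x) * C ≤ x * ee * f := by
  have hf0 : 0 ≤ f := by rw [hf]; positivity
  have he := ee_pos
  have hrhs : 0 ≤ x * ee * f := by positivity
  rcases le_or_gt u (max 0 (x-d)) with hux | hux
  · -- fully paid
    have hr : rr u d x = u := min_eq_left hux
    have hP : u - ee * f ≤ PP u F f d x := by
      unfold PP; rw [hr]
      refine le_trans ?_ (le_max_right _ _)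
      have : min (min F (d+x)) f ≤ f := min_le_right _ _
      nlinarith
    have hgP : g ≤ u - ee * f := by
      rcases hg with h | h
      · exact h.2
      · have := h.1; have := h.2; linarith
    rw [max_eq_left (by linarith)]
    simpa using hrhs
  · have hr : rr u d x = max 0 (x-d) := min_eq_right hux.le
    have hm : min (min F (d+x)) f = min (d+x) f := by
      rw [min_assoc, min_comm F, min_assoc, min_eq_left hfF]
    have hg' : g ≤ F - (1-ee)*f := by
      rcases hg with h | h
      · exact h.2.trans h.1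
      · exact h.2
    have h1 := hL F d C x f hF hd hC hx hf hfF
    refine le_trans ?_ h1
    apply mul_le_mul_of_nonneg_right _ hC
    apply mul_le_mul_of_nonneg_left _ (lam_nonneg _)
    apply max_le_max le_rfl
    unfold PP
    rw [hr, hm]
    linarith

/-- averaged price bound -/
lemma price_avg (hL : LProp) {κ : Type*} (L : Finset κ) (x : κ → ℝ) (hx : ∀ l ∈ L, 0 ≤ x l)
    {u F f d C g : ℝ} (hF : 0 < F) (hd : 0 ≤ d) (hC : 0 ≤ C)
    (hsum : ∑ l ∈ L, x l = L.card * C)
    (hf : f = (11*d+5*C)/8) (hfF : f ≤ F)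
    (hg : u - ee * f ≤ F - (1-ee)*f ∧ g ≤ u - ee * f ∨
      F - (1-2*ee)*f ≤ u ∧ g ≤ F - (1-ee)*f) :
    ∑ l ∈ L, lam ((d+x l)/F) * max 0 (g - PP u F f d (x l)) ≤ L.card * (ee * f) := by
  have he := ee_pos
  have he' := ee_gt
  rcases eq_or_lt_of_le hC with hC0 | hCpos
  · -- all distances vanish
    have hx0 : ∀ l ∈ L, x l = 0 := by
      rw [← hC0, mul_zero] at hsum
      exact (Finset.sum_eq_zero_iff_of_nonneg hx).mp hsum
    have hf0 : 0 ≤ f := by rw [hf]; positivity
    have : ∑ l ∈ L, lam ((d+x l)/F) * max 0 (g - PP u F f d (x l)) = 0 := by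
      apply Finset.sum_eq_zero
      intro l hl
      rw [hx0 l hl, lam_of_le, zero_mul]
      rw [div_le_iff₀ hF]
      nlinarith
    rw [this]; positivity
  · have h1 : ∀ l ∈ L, lam ((d+x l)/F) * max 0 (g - PP u F f d (x l)) ≤ x l * (ee * f / C) := by
      intro l hl
      have := price_pt hL hF hd hC (hx l hl) hf hfF hg
      rw [mul_div_assoc', le_div_iff₀ hCpos]
      linarith
    refine (Finset.sum_le_sum h1).trans ?_
    rw [← Finset.sum_mul, hsum]
    apply le_of_eq
    field_simp

lemma PP_nonneg {u : ℝ} (hu : 0 ≤ u) (F f d x : ℝ) : 0 ≤ PP u F f d x := by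
  unfold PP
  refine le_trans ?_ (le_max_left _ _)
  have := rr_nonneg hu d x
  linarith

/-- (S): the average of `GG` over the neighbourhood is at least the price -/
theorem GG_avg (hL : LProp) {κ : Type*} (L : Finset κ) (x : κ → ℝ) (hx : ∀ l ∈ L, 0 ≤ x l)
    {u F f d C t : ℝ} (hF : 0 < F) (hd : 0 ≤ d) (hC : 0 ≤ C)
    (hsum : ∑ l ∈ L, x l = L.card * C)
    (hf : f = (11*d+5*C)/8) (hu0 : 0 ≤ u) (huF : u ≤ F) (ht0 : 0 ≤ t) (ht1 : t ≤ 1) :
    L.card * gg u F f t ≤ ∑ l ∈ L, GG u F f d t (x l) := by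
  have he := ee_pos
  have he' := ee_gt
  have he'' := ee_lt
  have hf0 : 0 ≤ f := by rw [hf]; positivity
  have hM : (0:ℝ) ≤ L.card := Nat.cast_nonneg _
  -- it suffices to bound the price sum
  have key : t * ∑ l ∈ L, lam ((d+x l)/F) * max 0 (gg u F f t - PP u F f d (x l))
      ≤ L.card * (cc u F f t - (1-t) * gg u F f t) := by
    have hmF : min F f ≤ F := min_le_left _ _
    have hm0 : 0 ≤ min F f := le_min hF.le hf0
    -- crude bound
    have crude : ∀ b : ℝ, gg u F f t ≤ b → 0 ≤ b →
        ∑ l ∈ L, lam ((d+x l)/F) * max 0 (gg u F f t - PP u F f d (x l)) ≤ L.card * b := by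
      intro b hb hb0
      have : ∀ l ∈ L, lam ((d+x l)/F) * max 0 (gg u F f t - PP u F f d (x l)) ≤ b := by
        intro l _
        have h1 : max 0 (gg u F f t - PP u F f d (x l)) ≤ b :=
          max_le hb0 (by have := PP_nonneg hu0 F f d (x l); linarith)
        calc _ ≤ 1 * b := mul_le_mul (lam_le_one _) h1 (le_max_left _ _) (by norm_num)
          _ = b := one_mul b
      refine (Finset.sum_le_sum this).trans ?_
      rw [Finset.sum_const, nsmul_eq_mul]
    by_cases h : u ≤ F - (1-2*ee)*min F f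
    · have hcc : cc u F f t - (1-t) * gg u F f t = u - max (u/2) (u - ee*min F f) := by
        rw [cc_of_le h, gg_of_le h]; ring
      rw [hcc]
      rcases le_or_gt (u - ee*min F f) (u/2) with h1 | h1
      · have hg : gg u F f t = u/2 := by rw [gg_of_le h, max_eq_left h1]
        rw [max_eq_left h1]
        have h2 := crude (u/2) hg.le (by linarith)
        have h3 : 0 ≤ ∑ l ∈ L, lam ((d+x l)/F) * max 0 (gg u F f t - PP u F f d (x l)) :=
          Finset.sum_nonneg fun l _ => mul_nonneg (lam_nonneg _) (le_max_left _ _)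
        nlinarith
      · have hFf : f < F := by
          by_contra hc
          push Not at hc
          rw [min_eq_left hc] at h h1
          linarith
        rw [min_eq_right hFf.le] at h h1 ⊢
        have hg : gg u F f t = u - ee * f := by
          rw [gg_of_le (by rw [min_eq_right hFf.le]; exact h), min_eq_right hFf.le,
            max_eq_right h1.le]
        rw [max_eq_right h1.le]
        have h2 := price_avg hL L x hx hF hd hC hsum hf hFf.le (u := u) (g := gg u F f t)
          (Or.inl ⟨by linarith, hg.le⟩)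
        have h3 : 0 ≤ ∑ l ∈ L, lam ((d+x l)/F) * max 0 (gg u F f t - PP u F f d (x l)) :=
          Finset.sum_nonneg fun l _ => mul_nonneg (lam_nonneg _) (le_max_left _ _)
        nlinarith
    · push Not at h
      obtain ⟨hx0, hx1, -⟩ := ts_spec (le_min hF.le hf0) huF h
      have hcg := cc_of_gt h t
      have hgg := gg_of_gt h t
      set y := ts u F (min F f) with hy
      set τ := max t y with hτ
      have hτ1 : τ ≤ 1 := max_le ht1 hx1
      have hτ0 : 0 ≤ τ := le_trans ht0 (le_max_left _ _)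
      have htτ : t ≤ τ := le_max_left _ _
      have hs := ee_le_exp hτ1
      have hval : cc u F f t - (1-t) * gg u F f t = τ * (Real.exp (-τ) * min F f) := by
        rw [hcg, hgg]; unfold Bc bc; ring
      rw [hval]
      have h3 : 0 ≤ ∑ l ∈ L, lam ((d+x l)/F) * max 0 (gg u F f t - PP u F f d (x l)) :=
        Finset.sum_nonneg fun l _ => mul_nonneg (lam_nonneg _) (le_max_left _ _)
      have goal2 : ∑ l ∈ L, lam ((d+x l)/F) * max 0 (gg u F f t - PP u F f d (x l))
          ≤ L.card * (Real.exp (-τ) * min F f) := by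
        rcases le_or_gt F f with hFf | hFf
        · apply crude
          · rw [hgg]; unfold bc; rw [min_eq_left hFf]; linarith
          · exact mul_nonneg (Real.exp_pos _).le hm0
        · rw [min_eq_right hFf.le] at h ⊢
          have hgv : gg u F f t = (F - (1-ee)*f) + (Real.exp (-τ) - ee) * f := by
            rw [hgg]; unfold bc; rw [min_eq_right hFf.le]; ring
          have h2 := price_avg hL L x hx hF hd hC hsum hf hFf.le (u := u)
            (g := F - (1-ee)*f) (Or.inr ⟨h.le, le_rfl⟩)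
          have h4 : ∀ l ∈ L, lam ((d+x l)/F) * max 0 (gg u F f t - PP u F f d (x l)) ≤
              lam ((d+x l)/F) * max 0 (F - (1-ee)*f - PP u F f d (x l))
                + (Real.exp (-τ) - ee) * f := by
            intro l _
            have hδ : 0 ≤ (Real.exp (-τ) - ee) * f := mul_nonneg (by linarith) hf0
            have h5 : max 0 (gg u F f t - PP u F f d (x l)) ≤
                max 0 (F - (1-ee)*f - PP u F f d (x l)) + (Real.exp (-τ) - ee) * f := by
              apply max_le
              · have := le_max_left 0 (F - (1-ee)*f - PP u F f d (x l))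
                linarith
              · have := le_max_right 0 (F - (1-ee)*f - PP u F f d (x l))
                rw [hgv]; linarith
            have h6 := mul_le_mul_of_nonneg_left h5 (lam_nonneg ((d+x l)/F))
            have h7 := mul_le_mul_of_nonneg_right (lam_le_one ((d+x l)/F)) hδ
            linarith
          refine (Finset.sum_le_sum h4).trans ?_
          rw [Finset.sum_add_distrib, Finset.sum_const, nsmul_eq_mul]
          linarith
      have h5 : 0 ≤ (L.card:ℝ) * (Real.exp (-τ) * min F f) :=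
        mul_nonneg hM (mul_nonneg (Real.exp_pos _).le hm0)
      calc _ ≤ τ * ∑ l ∈ L, lam ((d+x l)/F) * max 0 (gg u F f t - PP u F f d (x l)) :=
            mul_le_mul_of_nonneg_right htτ h3
        _ ≤ τ * (L.card * (Real.exp (-τ) * min F f)) := mul_le_mul_of_nonneg_left goal2 hτ0
        _ = _ := by ring
  have hexp : ∑ l ∈ L, GG u F f d t (x l) = L.card * (cc u F f t + t * gg u F f t)
      - t * ∑ l ∈ L, lam ((d+x l)/F) * max 0 (gg u F f t - PP u F f d (x l)) := by
    unfold GG
    rw [Finset.sum_sub_distrib, Finset.sum_const, nsmul_eq_mul, Finset.mul_sum]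
    congr 1
    apply Finset.sum_congr rfl
    intro l _; ring
  rw [hexp]
  linarith

end Crest.Agent.KM
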