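import Crest.Agent.KM.Star
import Crest.Agent.KM.Descent

/-!
# The concrete star potential of a fractional solution made of equal copies

`σ` = copies of facilities (mass `1/M` each), `ι` = clients, `N j` = the `M` copies serving `j`.
-/

set_option autoImplicit false

open Finset

namespace Crest.Agent.KM

/-! ## More facts on the client function -/

lemma gg_zero_le {u F f : ℝ} (hu : 0 ≤ u) (hf : 0 ≤ f) (hF : 0 ≤ F) (huF : u ≤ F) :
    gg u F f 0 ≤ u := by
  have he := ee_pos
  have hm0 : 0 ≤ min F f := le_min hF hf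
  by_cases h : u ≤ F - (1-2*ee)*min F f
  · rw [gg_of_le h]
    apply max_le
    · linarith
    · nlinarith
  · push Not at h
    obtain ⟨h0, h1, h2⟩ := ts_spec (le_min hF hf) huF h
    rw [gg_of_gt h, max_eq_right h0]
    have h3 : 0 ≤ ts u F (min F f) * (Real.exp (-(ts u F (min F f))) * min F f) :=
      mul_nonneg h0 (mul_nonneg (Real.exp_pos _).le hm0)
    unfold bc
    linarith

lemma cc_ge {u F f t : ℝ} (hu : 0 ≤ u) (hf : 0 ≤ f) (hF : 0 ≤ F) (huF : u ≤ F) (ht : 0 ≤ t) :
    (1 - t) * u ≤ cc u F f t := by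
  have h := cc_sub (u := u) hf hF t 0
  rw [cc_zero hf hF huF] at h
  have := mul_le_mul_of_nonneg_left (gg_zero_le hu hf hF huF) ht
  linarith

lemma VV_ge {ι : Type*} (J : Finset ι) (w u f : ι → ℝ) {F p : ℝ} (hF : 0 ≤ F)
    (hw : ∀ j ∈ J, 0 ≤ w j)
    (hf : ∀ j ∈ J, 0 ≤ f j) (hu0 : ∀ j ∈ J, 0 ≤ u j) (hu : ∀ j ∈ J, u j ≤ F) :
    min p (∑ j ∈ J, w j * u j) ≤ VV J w u f F p := by
  obtain ⟨t, h0, h1, he⟩ := VV_exists J w u f F p
  rw [he]
  unfold Vf
  have h2 : (1 - t) * ∑ j ∈ J, w j * u j ≤ ∑ j ∈ J, w j * cc (u j) F (f j) t := by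
    rw [Finset.mul_sum]
    apply Finset.sum_le_sum
    intro j hj
    have := mul_le_mul_of_nonneg_left (cc_ge (hu0 j hj) (hf j hj) hF (hu j hj) h0) (hw j hj)
    linarith
  have h3 := mul_le_mul_of_nonneg_left (min_le_left p (∑ j ∈ J, w j * u j)) h0
  have h4 := mul_le_mul_of_nonneg_left (min_le_right p (∑ j ∈ J, w j * u j))
    (show 0 ≤ 1 - t by linarith)
  linarith

lemma VV_mono_p {ι : Type*} (J : Finset ι) (w u f : ι → ℝ) (F : ℝ) {p q : ℝ} (hpq : p ≤ q) :
    VV J w u f F p ≤ VV J w u f F q := by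
  obtain ⟨t, h0, h1, he⟩ := VV_exists J w u f F q
  rw [he]
  refine (VV_le J w u f F p h0 h1).trans ?_
  unfold Vf
  have := mul_le_mul_of_nonneg_right hpq h0
  linarith

lemma VV_lip_p {ι : Type*} (J : Finset ι) (w u f : ι → ℝ) (F : ℝ) {p q : ℝ} (hpq : p ≤ q) :
    VV J w u f F q ≤ VV J w u f F p + (q - p) := by
  obtain ⟨t, h0, h1, he⟩ := VV_exists J w u f F p
  rw [he]
  refine (VV_le J w u f F q h0 h1).trans ?_
  unfold Vf
  have := mul_le_mul_of_nonneg_left h1 (show 0 ≤ q - p by linarith)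
  linarith

lemma VV_concave_p {ι : Type*} (J : Finset ι) (w u f : ι → ℝ) (F : ℝ) (p q a b : ℝ)
    (ha : 0 ≤ a) (hb : 0 ≤ b) (hab : a + b = 1) :
    a * VV J w u f F p + b * VV J w u f F q ≤ VV J w u f F (a * p + b * q) := by
  obtain ⟨t, h0, h1, he⟩ := VV_exists J w u f F (a * p + b * q)
  rw [he]
  have h2 := mul_le_mul_of_nonneg_left (VV_le J w u f F p h0 h1) ha
  have h3 := mul_le_mul_of_nonneg_left (VV_le J w u f F q h0 h1) hb
  unfold Vf at *
  have : (∑ j ∈ J, w j * cc (u j) F (f j) t) =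
    a * (∑ j ∈ J, w j * cc (u j) F (f j) t) + b * (∑ j ∈ J, w j * cc (u j) F (f j) t) := by
    rw [← add_mul, hab, one_mul]
  rw [this]
  linarith

lemma VV_nonneg {ι : Type*} (J : Finset ι) (w u f : ι → ℝ) {F p : ℝ} (hp : 0 ≤ p) (hF : 0 ≤ F)
    (hw : ∀ j ∈ J, 0 ≤ w j)
    (hf : ∀ j ∈ J, 0 ≤ f j) (hu0 : ∀ j ∈ J, 0 ≤ u j) (hu : ∀ j ∈ J, u j ≤ F) :
    0 ≤ VV J w u f F p := by
  refine le_trans (le_min hp ?_) (VV_ge J w u f hF hw hf hu0 hu)
  exact Finset.sum_nonneg fun j hj => mul_nonneg (hw j hj) (hu0 j hj)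

/-! ## Instances -/

/-- A fractional solution made of copies of mass `1/M`. -/
structure FracInst (ι σ : Type) [Fintype ι] [Fintype σ] [DecidableEq σ] where
  d : σ → ι → ℝ
  D : σ → σ → ℝ
  w : ι → ℝ
  N : ι → Finset σ
  M : ℕ
  M_pos : 0 < M
  card_N : ∀ j, (N j).card = M
  w_nonneg : ∀ j, 0 ≤ w j
  d_nonneg : ∀ i j, 0 ≤ d i j
  D_nonneg : ∀ i κ, 0 ≤ D κ i
  /-- `D κ i ≤ d κ j + d i j` -/
  tri1 : ∀ i κ j, D κ i ≤ d i j + d κ j
  /-- `d κ j ≤ d i j + D κ i` -/
  tri2 : ∀ i κ j, d κ j ≤ d i j + D κ i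

namespace FracInst

variable {ι σ : Type} [Fintype ι] [Fintype σ] [DecidableEq σ] (I : FracInst ι σ)

/-- average connection cost -/
noncomputable def C (j : ι) : ℝ := (1 / (I.M:ℝ)) * ∑ i ∈ I.N j, I.d i j

noncomputable def key (i : σ) (j : ι) : ℝ := (11 * I.d i j + 5 * I.C j) / 8

/-- clients of the star `i` -/
noncomputable def J (i : σ) : Finset ι := Finset.univ.filter fun j => i ∈ I.N j

/-- a state: current client costs and star distances -/
structure State where
  K : ι → ℝ
  F : σ → ℝ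
  K_nonneg : ∀ j, 0 ≤ K j
  F_nonneg : ∀ i, 0 ≤ F i
  K_le : ∀ i j, K j ≤ I.d i j + F i

variable {I}

/-- residual of client `j` in star `i` -/
noncomputable def State.u (S : I.State) (i : σ) (j : ι) : ℝ := max (S.K j - I.d i j) 0

noncomputable def State.V (S : I.State) (p : ℝ) (i : σ) : ℝ :=
  VV (I.J i) I.w (S.u i) (I.key i) (S.F i) p

/-- total residual of star `i` -/
noncomputable def State.U (S : I.State) (i : σ) : ℝ := ∑ j ∈ I.J i, I.w j * S.u i j

/-- open the copy `κ` -/
noncomputable def State.step (S : I.State) (κ : σ) : I.State where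
  K := fun j => min (S.K j) (I.d κ j)
  F := fun i => min (S.F i) (I.D κ i)
  K_nonneg := fun j => le_min (S.K_nonneg j) (I.d_nonneg κ j)
  F_nonneg := fun i => le_min (S.F_nonneg i) (I.D_nonneg i κ)
  K_le := by
    intro i j
    rcases le_total (S.F i) (I.D κ i) with h | h
    · rw [min_eq_left h]; exact (min_le_left _ _).trans (S.K_le i j)
    · rw [min_eq_right h]; exact (min_le_right _ _).trans (I.tri2 i κ j)

/-- value without the opening costs -/
noncomputable def State.R (S : I.State) (p : ℝ) : ℝ :=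
  (1 / (I.M:ℝ)) * ∑ i, ((∑ j ∈ I.J i, I.w j * min (I.d i j) (S.K j)) + S.V p i)

noncomputable def State.cost (S : I.State) : ℝ := ∑ j, I.w j * S.K j

lemma M_pos' : (0:ℝ) < I.M := by exact_mod_cast I.M_pos

lemma C_nonneg (j : ι) : 0 ≤ I.C j :=
  mul_nonneg (by positivity) (Finset.sum_nonneg fun i _ => I.d_nonneg i j)

lemma sum_d (j : ι) : ∑ i ∈ I.N j, I.d i j = (I.N j).card * I.C j := by
  rw [I.card_N j]
  unfold C
  have := I.M_pos'
  field_simp

lemma key_nonneg (i : σ) (j : ι) : 0 ≤ I.key i j := by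
  unfold key
  have := I.d_nonneg i j
  have := I.C_nonneg j
  positivity

lemma mem_J {i : σ} {j : ι} : j ∈ I.J i ↔ i ∈ I.N j := by simp [J]

lemma sum_J (i : σ) (g : ι → ℝ) : ∑ j ∈ I.J i, g j = ∑ j, if i ∈ I.N j then g j else 0 := by
  unfold J
  rw [Finset.sum_filter]

lemma State.u_nonneg (S : I.State) (i : σ) (j : ι) : 0 ≤ S.u i j := le_max_right _ _

lemma State.u_le (S : I.State) (i : σ) (j : ι) : S.u i j ≤ S.F i :=
  max_le (by have := S.K_le i j; linarith) (S.F_nonneg i)

lemma State.u_step_le (S : I.State) (κ i : σ) (j : ι) : (S.step κ).u i j ≤ S.u i j := by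
  unfold State.u
  apply max_le_max _ le_rfl
  have : (S.step κ).K j ≤ S.K j := min_le_left _ _
  linarith

lemma State.F_step_le (S : I.State) (κ i : σ) : (S.step κ).F i ≤ S.F i := min_le_left _ _

lemma State.K_step_le (S : I.State) (κ : σ) (j : ι) : (S.step κ).K j ≤ S.K j := min_le_left _ _

/-- the residual after a hit is `rr` -/
lemma State.u_step (S : I.State) (κ i : σ) (j : ι) :
    (S.step κ).u i j = rr (S.u i j) (I.d i j) (I.d κ j) := by
  unfold State.u rr State.step
  simp only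
  rcases le_total (S.K j) (I.d κ j) with h | h
  · rw [min_eq_left h, max_comm 0, min_eq_left]
    exact max_le_max (by linarith) le_rfl
  · rw [min_eq_right h, max_comm 0, min_eq_right]
    exact max_le_max (by linarith) le_rfl

lemma State.V_le_U (S : I.State) (p : ℝ) (i : σ) : S.V p i ≤ S.U i :=
  VV_le_sum _ _ _ _ _ (S.F_nonneg i) (fun j _ => I.key_nonneg i j) (fun j _ => S.u_le i j)

lemma State.V_ge (S : I.State) (p : ℝ) (i : σ) : min p (S.U i) ≤ S.V p i :=
  VV_ge _ _ _ _ (S.F_nonneg i) (fun j _ => I.w_nonneg j) (fun j _ => I.key_nonneg i j)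
    (fun j _ => S.u_nonneg i j) (fun j _ => S.u_le i j)

lemma State.V_nonneg (S : I.State) {p : ℝ} (hp : 0 ≤ p) (i : σ) : 0 ≤ S.V p i :=
  VV_nonneg _ _ _ _ hp (S.F_nonneg i) (fun j _ => I.w_nonneg j) (fun j _ => I.key_nonneg i j)
    (fun j _ => S.u_nonneg i j) (fun j _ => S.u_le i j)

lemma State.U_nonneg (S : I.State) (i : σ) : 0 ≤ S.U i :=
  Finset.sum_nonneg fun j _ => mul_nonneg (I.w_nonneg j) (S.u_nonneg i j)

/-- certificates exist for alive stars -/
theorem State.cert (hR0 : R0Prop) (hL : LProp) (S : I.State) {p : ℝ} (hp : 0 < p) (i : σ)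
    (h : S.V p i < S.U i) :
    Nonempty (Cert σ (I.J i) I.w (S.u i) (I.key i) (I.d i) I.C (S.F i) p) :=
  cert_exists hR0 hL (S.F_nonneg i) hp (fun j _ => I.w_nonneg j) (fun j _ => I.d_nonneg i j)
    (fun j _ => I.C_nonneg j) (fun j _ => rfl) (fun j _ => S.u_nonneg i j)
    (fun j _ => S.u_le i j) h

/-- upper bound for the next value through a certificate -/
lemma State.V_step_le_cert (S : I.State) {p : ℝ} (i κ : σ)
    (c : Cert σ (I.J i) I.w (S.u i) (I.key i) (I.d i) I.C (S.F i) p) :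
    (S.step κ).V p i ≤ p * c.Θ ((S.step κ).F i) +
      ∑ j ∈ I.J i, I.w j * cc ((S.step κ).u i j) ((S.step κ).F i) (I.key i j)
        (c.Θ ((S.step κ).F i)) :=
  VV_le _ _ _ _ _ _ (c.Θ_nonneg _) ((c.Θ_le _).trans c.t_le)

/-- the star value does not increase under openings -/
theorem State.V_step_le (hR0 : R0Prop) (hL : LProp) (S : I.State) {p : ℝ} (hp : 0 < p)
    (i κ : σ) : (S.step κ).V p i ≤ S.V p i := by
  rcases lt_or_ge (S.V p i) (S.U i) with h | h
  · obtain ⟨c⟩ := S.cert hR0 hL hp i h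
    refine (S.V_step_le_cert i κ c).trans ?_
    have hval : S.V p i = Vf (I.J i) I.w (S.u i) (I.key i) (S.F i) p c.t := c.val
    rw [hval]
    unfold Vf
    set θ := c.Θ ((S.step κ).F i)
    have h1 : ∑ j ∈ I.J i, I.w j * cc ((S.step κ).u i j) ((S.step κ).F i) (I.key i j) θ ≤
        ∑ j ∈ I.J i, (I.w j * cc (S.u i j) (S.F i) (I.key i j) c.t +
          (c.t - θ) * (I.w j * c.n j)) := by
      apply Finset.sum_le_sum
      intro j hj
      have := mul_le_mul_of_nonneg_left (c.R j hj ((S.step κ).F i) ((S.step κ).u i j)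
        ((S.step κ).F_nonneg i) (S.F_step_le κ i) (S.u_step_le κ i j)
        ((S.step κ).u_le i j)) (I.w_nonneg j)
      linarith
    rw [Finset.sum_add_distrib, ← Finset.mul_sum, c.price] at h1
    linarith
  · refine ((S.step κ).V_le_U p i).trans (le_trans ?_ h)
    exact Finset.sum_le_sum fun j _ => mul_le_mul_of_nonneg_left (S.u_step_le κ i j) (I.w_nonneg j)

/-- star inequality of an alive star -/
theorem State.star_ineq (hR0 : R0Prop) (hL : LProp) (S : I.State) {p : ℝ} (hp : 0 < p)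
    (i : σ) (h : S.V p i < S.U i) (A : Finset σ) :
    p * I.M ≤ (∑ κ ∈ A, (S.V p i - (S.step κ).V p i)) +
      ∑ j ∈ I.J i, I.w j * ((∑ κ ∈ A, if κ ∈ I.N j then (S.step κ).u i j else 0) +
          ((I.N j \ A).card : ℝ) * S.u i j) := by
  obtain ⟨c⟩ := S.cert hR0 hL hp i h
  have hval : S.V p i = Vf (I.J i) I.w (S.u i) (I.key i) (S.F i) p c.t := c.val
  -- per opening
  have h1 : ∀ κ ∈ A, (∑ j ∈ I.J i, I.w j * (if κ ∈ I.N j then
      c.G j (I.d κ j) - (S.step κ).u i j else 0)) ≤ S.V p i - (S.step κ).V p i := by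
    intro κ _
    have h2 := S.V_step_le_cert i κ c
    rw [hval]
    unfold Vf
    set θ := c.Θ ((S.step κ).F i) with hθ
    have h3 : p * (c.t - θ) = ∑ j ∈ I.J i, (c.t - θ) * (I.w j * c.n j) := by
      rw [← Finset.mul_sum, c.price]; ring
    have h4 : (∑ j ∈ I.J i, I.w j * (if κ ∈ I.N j then
      c.G j (I.d κ j) - (S.step κ).u i j else 0)) ≤
        ∑ j ∈ I.J i, ((c.t - θ) * (I.w j * c.n j)
          + I.w j * cc (S.u i j) (S.F i) (I.key i j) c.t
          - I.w j * cc ((S.step κ).u i j) ((S.step κ).F i) (I.key i j) θ) := by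
      apply Finset.sum_le_sum
      intro j hj
      have hrw : (c.t - θ) * (I.w j * c.n j) + I.w j * cc (S.u i j) (S.F i) (I.key i j) c.t
          - I.w j * cc ((S.step κ).u i j) ((S.step κ).F i) (I.key i j) θ =
          I.w j * ((c.t - θ) * c.n j + cc (S.u i j) (S.F i) (I.key i j) c.t
          - cc ((S.step κ).u i j) ((S.step κ).F i) (I.key i j) θ) := by ring
      rw [hrw]
      apply mul_le_mul_of_nonneg_left _ (I.w_nonneg j)
      split_ifs with hk
      · have hF : (S.step κ).F i ≤ I.d i j + I.d κ j :=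
          (min_le_right _ _).trans (I.tri1 i κ j)
        have := c.G_alive j hj (I.d κ j) ((S.step κ).F i) ((S.step κ).F_nonneg i)
          (S.F_step_le κ i) hF (by rw [← S.u_step κ i j]; exact (S.step κ).u_le i j)
        rw [← S.u_step κ i j] at this
        linarith
      · have := c.R j hj ((S.step κ).F i) ((S.step κ).u i j)
          ((S.step κ).F_nonneg i) (S.F_step_le κ i) (S.u_step_le κ i j) ((S.step κ).u_le i j)
        linarith
    rw [Finset.sum_sub_distrib, Finset.sum_add_distrib, ← h3] at h4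
    linarith
  have h5 : p * I.M ≤ ∑ j ∈ I.J i, I.w j * ∑ κ ∈ I.N j, c.G j (I.d κ j) := by
    have hpm : p * I.M = ∑ j ∈ I.J i, I.w j * c.n j * I.M := by
      rw [← Finset.sum_mul, c.price]
    rw [hpm]
    apply Finset.sum_le_sum
    intro j hj
    have h6 := c.G_avg j hj (I.N j) (fun κ => I.d κ j) (fun κ _ => I.d_nonneg κ j) (I.sum_d j)
    rw [I.card_N j] at h6
    have := mul_le_mul_of_nonneg_left h6 (I.w_nonneg j)
    linarith
  refine h5.trans ?_
  have h7 : ∑ j ∈ I.J i, I.w j * ∑ κ ∈ I.N j, c.G j (I.d κ j) ≤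
      ∑ j ∈ I.J i, ((∑ κ ∈ A, I.w j * (if κ ∈ I.N j then
        c.G j (I.d κ j) - (S.step κ).u i j else 0)) +
        I.w j * ((∑ κ ∈ A, if κ ∈ I.N j then (S.step κ).u i j else 0) +
          ((I.N j \ A).card : ℝ) * S.u i j)) := by
    apply Finset.sum_le_sum
    intro j hj
    rw [← Finset.mul_sum, ← mul_add]
    apply mul_le_mul_of_nonneg_left _ (I.w_nonneg j)
    rw [← add_assoc, ← Finset.sum_add_distrib]
    have h8 : ∑ κ ∈ I.N j, c.G j (I.d κ j) =
        (∑ κ ∈ A, if κ ∈ I.N j then c.G j (I.d κ j) else 0) +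
        ∑ κ ∈ I.N j \ A, c.G j (I.d κ j) := by
      rw [← Finset.sum_filter]
      have : A.filter (fun κ => κ ∈ I.N j) = I.N j ∩ A := by
        ext x; simp [and_comm]
      rw [this, ← Finset.sum_inter_add_sum_sdiff (I.N j) A]
    rw [h8]
    apply add_le_add
    · apply le_of_eq
      apply Finset.sum_congr rfl
      intro κ _
      split_ifs <;> ring
    · have : ∑ κ ∈ I.N j \ A, c.G j (I.d κ j) ≤ ∑ κ ∈ I.N j \ A, S.u i j :=
        Finset.sum_le_sum fun κ _ => c.G_dead j hj _
      rwa [Finset.sum_const, nsmul_eq_mul] at this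
  refine h7.trans ?_
  rw [Finset.sum_add_distrib]
  apply add_le_add _ le_rfl
  rw [Finset.sum_comm]
  exact Finset.sum_le_sum h1

lemma State.R_eq (S : I.State) (p n : ℝ) :
    p * n + S.R p = Phi I.d I.w I.N I.M p n S.K (S.V p) := by
  unfold State.R Phi
  congr 2
  apply Finset.sum_congr rfl
  intro i _
  rw [sum_J]

lemma State.U_eq (S : I.State) (i : σ) : S.U i = uval I.d I.w I.N S.K i := by
  unfold State.U uval
  rw [sum_J]
  rfl

/-- copies alive at price `p` -/
noncomputable def State.alive (S : I.State) (p : ℝ) : Finset σ := by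
  classical exact Finset.univ.filter fun i => S.V p i < S.U i

lemma State.mem_alive {S : I.State} {p : ℝ} {i : σ} : i ∈ S.alive p ↔ S.V p i < S.U i := by
  classical
  unfold State.alive
  simp

/-- **Mixed descent** (606's MD): `A` contains all copies alive at price `p`. -/
theorem State.mixed (hR0 : R0Prop) (hL : LProp) (S : I.State) {p : ℝ} (hp : 0 < p)
    (A : Finset σ) (hA : S.alive p ⊆ A) :
    ∑ κ ∈ A, (p + (S.step κ).R p - S.R p) ≤ ∑ i ∈ A \ S.alive p, (p - S.U i) := by
  classical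
  have hM : (0:ℝ) < I.M := I.M_pos'
  have hex := exchange_superset I.d I.w I.w_nonneg I.N I.M p hM
    (fun j => by exact_mod_cast I.card_N j) 0 S.K (S.V p)
    (fun κ i => (S.step κ).V p i) A (S.alive p) hA ?_ ?_ ?_
  · have h1 : ∀ κ, Phi I.d I.w I.N I.M p (0 + 1) (fun j => min (S.K j) (I.d κ j))
        (fun i => (S.step κ).V p i) = p + (S.step κ).R p := by
      intro κ
      have := (S.step κ).R_eq p (0 + 1)
      rw [zero_add, mul_one] at this
      rw [this, zero_add]
      rfl
    have h2 : Phi I.d I.w I.N I.M p 0 S.K (S.V p) = S.R p := by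
      have h3 := S.R_eq p 0
      rw [mul_zero, zero_add] at h3
      exact h3.symm
    rw [h2, Finset.sum_congr rfl fun κ _ => by rw [h1 κ]] at hex
    refine hex.trans (le_of_eq ?_)
    apply Finset.sum_congr rfl
    intro i _
    rw [S.U_eq]
  · intro i hi
    rw [← S.U_eq]
    by_contra hc
    push Not at hc
    exact hi (State.mem_alive.mpr hc)
  · intro i _ κ _
    have h1 := (S.step κ).V_le_U p i
    rw [(S.step κ).U_eq i] at h1
    exact h1
  · intro i hi
    have hconv : (∑ j, if i ∈ I.N j then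
        I.w j * ((∑ κ ∈ A, if κ ∈ I.N j then max (min (I.d κ j) (S.K j) - I.d i j) 0 else 0) +
          ((I.N j \ A).card : ℝ) * max (S.K j - I.d i j) 0) else 0) =
        ∑ j ∈ I.J i, I.w j * ((∑ κ ∈ A, if κ ∈ I.N j then (S.step κ).u i j else 0) +
          ((I.N j \ A).card : ℝ) * S.u i j) := by
      rw [sum_J]
      apply Finset.sum_congr rfl
      intro j _
      congr 2
      congr 1
      apply Finset.sum_congr rfl
      intro κ _
      rw [min_comm]
      rfl
    rw [hconv]
    exact S.star_ineq hR0 hL hp i (State.mem_alive.mp hi) A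

/-! ## The facts used by the global argument -/

lemma State.alive_anti (S : I.State) {p q : ℝ} (h : p ≤ q) : S.alive q ⊆ S.alive p := by
  intro i hi
  rw [State.mem_alive] at *
  exact (VV_mono_p _ _ _ _ _ h).trans_lt hi

lemma State.alive_lt (S : I.State) {p : ℝ} {i : σ} (hi : i ∈ S.alive p) : p < S.U i := by
  rw [State.mem_alive] at hi
  by_contra h
  push Not at h
  have := S.V_ge p i
  rw [min_eq_right h] at this
  linarith

/-- **(\*)**: opening the copies alive at the lower price `μ` costs only the price difference -/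
theorem State.star (hR0 : R0Prop) (hL : LProp) (S : I.State) {μ p : ℝ} (hμp : μ ≤ p)
    (hp : 0 < p) :
    ∑ κ ∈ S.alive μ, (p + (S.step κ).R p - S.R p) ≤ (p - μ) * (S.alive μ).card := by
  refine (S.mixed hR0 hL hp (S.alive μ) (S.alive_anti hμp)).trans ?_
  refine (Finset.sum_le_sum (g := fun _ => p - μ) fun i hi => ?_).trans ?_
  · have := S.alive_lt (Finset.mem_sdiff.mp hi).1
    linarith
  · rw [Finset.sum_const, nsmul_eq_mul, mul_comm]
    apply mul_le_mul_of_nonneg_left _ (by linarith)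
    exact_mod_cast Finset.card_le_card Finset.sdiff_subset

lemma State.R_nonneg (S : I.State) {p : ℝ} (hp : 0 ≤ p) : 0 ≤ S.R p := by
  unfold State.R
  apply mul_nonneg (by positivity)
  apply Finset.sum_nonneg
  intro i _
  apply add_nonneg _ (S.V_nonneg hp i)
  exact Finset.sum_nonneg fun j _ => mul_nonneg (I.w_nonneg j)
    (le_min (I.d_nonneg i j) (S.K_nonneg j))

lemma State.R_mono_p (S : I.State) {p q : ℝ} (hpq : p ≤ q) : S.R p ≤ S.R q := by
  unfold State.R
  apply mul_le_mul_of_nonneg_left _ (by positivity)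
  apply Finset.sum_le_sum
  intro i _
  have : S.V p i ≤ S.V q i := VV_mono_p _ _ _ _ _ hpq
  linarith

lemma State.R_lip_p (S : I.State) {p q : ℝ} (hpq : p ≤ q) :
    S.R q ≤ S.R p + (q - p) * (Fintype.card σ / I.M) := by
  unfold State.R
  have h : ∑ i, ((∑ j ∈ I.J i, I.w j * min (I.d i j) (S.K j)) + S.V q i) ≤
      ∑ i, (((∑ j ∈ I.J i, I.w j * min (I.d i j) (S.K j)) + S.V p i) + (q - p)) := by
    apply Finset.sum_le_sum
    intro i _
    have : S.V q i ≤ S.V p i + (q - p) := VV_lip_p _ _ _ _ _ hpq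
    linarith
  rw [Finset.sum_add_distrib (g := fun _ => q - p), Finset.sum_const, nsmul_eq_mul,
    Finset.card_univ] at h
  have h2 := mul_le_mul_of_nonneg_left h (show 0 ≤ 1 / (I.M:ℝ) by positivity)
  refine h2.trans (le_of_eq ?_)
  ring

lemma State.R_concave (S : I.State) (p q a b : ℝ) (ha : 0 ≤ a) (hb : 0 ≤ b) (hab : a + b = 1) :
    a * S.R p + b * S.R q ≤ S.R (a * p + b * q) := by
  unfold State.R
  have h : a * (∑ i, ((∑ j ∈ I.J i, I.w j * min (I.d i j) (S.K j)) + S.V p i)) +
      b * (∑ i, ((∑ j ∈ I.J i, I.w j * min (I.d i j) (S.K j)) + S.V q i)) ≤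
      ∑ i, ((∑ j ∈ I.J i, I.w j * min (I.d i j) (S.K j)) + S.V (a * p + b * q) i) := by
    rw [Finset.mul_sum, Finset.mul_sum, ← Finset.sum_add_distrib]
    apply Finset.sum_le_sum
    intro i _
    have h1 : a * S.V p i + b * S.V q i ≤ S.V (a * p + b * q) i :=
      VV_concave_p _ _ _ _ _ p q a b ha hb hab
    generalize (∑ j ∈ I.J i, I.w j * min (I.d i j) (S.K j)) = X
    have : X = a * X + b * X := by rw [← add_mul, hab, one_mul]
    linarith
  have h2 := mul_le_mul_of_nonneg_left h (show 0 ≤ 1 / (I.M:ℝ) by positivity)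
  refine le_trans (le_of_eq ?_) h2
  ring

theorem State.R_step_le (hR0 : R0Prop) (hL : LProp) (S : I.State) {p : ℝ} (hp : 0 < p) (κ : σ) :
    (S.step κ).R p ≤ S.R p := by
  unfold State.R
  apply mul_le_mul_of_nonneg_left _ (by positivity)
  apply Finset.sum_le_sum
  intro i _
  apply add_le_add _ (S.V_step_le hR0 hL hp i κ)
  apply Finset.sum_le_sum
  intro j _
  exact mul_le_mul_of_nonneg_left (min_le_min le_rfl (S.K_step_le κ j)) (I.w_nonneg j)

/-- double counting: sum over stars = sum over clients of the neighbourhood sums -/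
lemma sum_star_comm (g : σ → ι → ℝ) : ∑ i, ∑ j ∈ I.J i, g i j = ∑ j, ∑ i ∈ I.N j, g i j := by
  have h1 : ∀ i, ∑ j ∈ I.J i, g i j = ∑ j, if i ∈ I.N j then g i j else 0 := fun i => I.sum_J i _
  rw [Finset.sum_congr rfl fun i _ => h1 i, Finset.sum_comm]
  apply Finset.sum_congr rfl
  intro j _
  rw [← Finset.sum_filter]
  congr 1
  ext i; simp

/-- value of a state without alive copies -/
theorem State.R_dead (S : I.State) {p : ℝ} (h : S.alive p = ∅) : S.R p = S.cost := by
  have hV : ∀ i, S.V p i = S.U i := by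
    intro i
    apply le_antisymm (S.V_le_U p i)
    by_contra hc
    push Not at hc
    have : i ∈ S.alive p := State.mem_alive.mpr hc
    rw [h] at this
    simp at this
  unfold State.R State.cost
  have h1 : ∑ i, ((∑ j ∈ I.J i, I.w j * min (I.d i j) (S.K j)) + S.V p i) =
      ∑ i, ∑ j ∈ I.J i, I.w j * S.K j := by
    apply Finset.sum_congr rfl
    intro i _
    rw [hV i]
    unfold State.U
    rw [← Finset.sum_add_distrib]
    apply Finset.sum_congr rfl
    intro j _
    rw [← mul_add]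
    congr 1
    unfold State.u
    rcases le_total (S.K j) (I.d i j) with h2 | h2
    · rw [min_eq_right h2, max_eq_right (by linarith)]; ring
    · rw [min_eq_left h2, max_eq_left (by linarith)]; ring
  rw [h1, sum_star_comm (fun i j => I.w j * S.K j), Finset.mul_sum]
  apply Finset.sum_congr rfl
  intro j _
  rw [Finset.sum_const, nsmul_eq_mul, I.card_N j]
  have := I.M_pos'
  field_simp

/-- general upper bound: `R p ≤ p * mass + (1+2/e) * Σ w C` in every state -/
theorem State.R_le (S : I.State) (p : ℝ) :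
    S.R p ≤ p * (Fintype.card σ / I.M) + (1 + 2 * ee) * ∑ j, I.w j * I.C j := by
  have he := ee_pos
  have hM := I.M_pos'
  have h1 : ∀ i, ((∑ j ∈ I.J i, I.w j * min (I.d i j) (S.K j)) + S.V p i) ≤
      (∑ j ∈ I.J i, I.w j * (I.d i j + ee * I.key i j)) + p := by
    intro i
    have h2 : S.V p i ≤ p + ∑ j ∈ I.J i, I.w j * (ee * I.key i j) := by
      refine (VV_le _ _ _ _ _ _ zero_le_one le_rfl).trans ?_
      unfold Vf
      rw [mul_one]
      apply add_le_add le_rfl
      apply Finset.sum_le_sum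
      intro j _
      apply mul_le_mul_of_nonneg_left _ (I.w_nonneg j)
      rw [cc_one (I.key_nonneg i j) (S.F_nonneg i) (S.u_le i j)]
      exact (min_le_right _ _).trans (mul_le_mul_of_nonneg_left (min_le_right _ _) he.le)
    have h3 : ∑ j ∈ I.J i, I.w j * min (I.d i j) (S.K j) ≤ ∑ j ∈ I.J i, I.w j * I.d i j :=
      Finset.sum_le_sum fun j _ => mul_le_mul_of_nonneg_left (min_le_left _ _) (I.w_nonneg j)
    have h4 : ∑ j ∈ I.J i, I.w j * (I.d i j + ee * I.key i j) =
        ∑ j ∈ I.J i, I.w j * I.d i j + ∑ j ∈ I.J i, I.w j * (ee * I.key i j) := by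
      rw [← Finset.sum_add_distrib]
      apply Finset.sum_congr rfl
      intro j _; ring
    rw [h4]; linarith
  unfold State.R
  refine (mul_le_mul_of_nonneg_left (Finset.sum_le_sum fun i _ => h1 i)
    (show 0 ≤ 1 / (I.M:ℝ) by positivity)).trans ?_
  rw [Finset.sum_add_distrib, sum_star_comm (fun i j => I.w j * (I.d i j + ee * I.key i j)),
    Finset.sum_const, nsmul_eq_mul, Finset.card_univ, mul_add, add_comm]
  apply add_le_add
  · apply le_of_eq; ring
  · rw [Finset.mul_sum, Finset.mul_sum]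
    apply Finset.sum_le_sum
    intro j _
    rw [← Finset.mul_sum, Finset.sum_add_distrib, ← Finset.mul_sum]
    have hk : ∑ i ∈ I.N j, I.key i j = 2 * (I.M * I.C j) := by
      unfold key
      rw [← Finset.sum_div, Finset.sum_add_distrib, ← Finset.mul_sum, I.sum_d j,
        Finset.sum_const, nsmul_eq_mul, I.card_N j]
      ring
    rw [hk, I.sum_d j, I.card_N j]
    apply le_of_eq
    field_simp

/-- the initial state: everything at distance `B` -/
noncomputable def start (I : FracInst ι σ) (B : ℝ) (hB : 0 ≤ B) : I.State where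
  K := fun _ => B
  F := fun _ => B
  K_nonneg := fun _ => hB
  F_nonneg := fun _ => hB
  K_le := fun i j => by have := I.d_nonneg i j; linarith

/-- the state after opening a list of copies -/
noncomputable def State.steps (S : I.State) (l : List σ) : I.State := l.foldl State.step S

end FracInst

end Crest.Agent.KM
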