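import Crest.Agent.KM.Hfun
import Crest.Agent.R310.Scal

/-!
# The two scalar inequalities of the k-median potential

`R0Prop` and `LProp` of `Crest.Agent.KM.Hfun`, from `Crest.Agent.R310.Scal`.
-/

set_option autoImplicit false

namespace Crest.Agent.KM

theorem lam_eq (x : ℝ) : lam x = Crest.Agent.R310.Scal.lam x := rfl

theorem r0Prop : R0Prop := by
  intro F F' f t hF hF' hFF hf ht0 ht1
  have h := Crest.Agent.R310.Scal.R0 (F := F) (b := F') (f := f) (t := t) hF hF' hFF hf ht0 ht1
  unfold Crest.Agent.R310.Scal.Bf at h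
  rw [← lam_eq] at h
  unfold Bc bc
  refine h.trans (le_of_eq ?_)
  ring

theorem lProp : LProp := by
  intro F d C x f hF hd hC hx hfd hfF
  have hE : ee = Crest.Agent.R310.Scal.E := rfl
  have hE0 := ee_pos
  have hm : min (d + x) f ≤ f := min_le_right _ _
  have h := Crest.Agent.R310.Scal.Lprime (F := F) (κ := x) (d := d) (C := C)
    (h := F - (1-ee)*f - max ((max 0 (x-d))/2) (max 0 (x-d) - ee*min (d+x) f)) hF hx hd hC
    (by rw [← hfd]; exact hfF)
    (by
      rw [← hfd, ← hE, max_comm (x - d) 0]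
      have := le_max_left ((max 0 (x-d))/2) (max 0 (x-d) - ee*min (d+x) f)
      linarith)
    (by
      rw [← hfd, ← hE, max_comm (x - d) 0]
      have := le_max_right ((max 0 (x-d))/2) (max 0 (x-d) - ee*min (d+x) f)
      nlinarith)
  rw [← hfd, ← hE, ← lam_eq, max_comm _ (0 : ℝ)] at h
  exact h

end Crest.Agent.KM
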