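import Crest.Agent.KM.Bdry
import Crest.Agent.KM.Scal
import Crest.Agent.KM.Pot

/-!
# Facility-level descent with a state `τ` (one clock per facility)

`x i j` = fraction of client `j` served by facility `i`, `y i` = mass of facility `i`.
-/

set_option autoImplicit false

open Finset

namespace Crest.Agent.KM

/-- the exchange identity for unequal masses -/
lemma exch_id {σ : Type*} [Fintype σ] (α β a : σ → ℝ) (m : σ → σ → ℝ)
    (hm : ∀ i k, m i k = m k i) (K : ℝ) :
    (∑ k, ∑ i, α k * (α i + β i) * (a i - m i k)) +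
      (∑ i, ∑ k, β i * α k * (K - a i - a k + m i k)) =
    (∑ i, ∑ k, α i * α k * (a k - m i k)) + (∑ i, β i) * ∑ k, α k * (K - a k) := by
  have h1 : (∑ k, ∑ i, α k * (α i + β i) * (a i - m i k)) =
      (∑ k, ∑ i, α k * α i * (a i - m k i)) + ∑ i, ∑ k, β i * α k * (a i - m i k) := by
    rw [Finset.sum_comm (f := fun i k => β i * α k * (a i - m i k)), ← Finset.sum_add_distrib]
    apply Finset.sum_congr rfl
    intro k _
    rw [← Finset.sum_add_distrib]
    apply Finset.sum_congr rfl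
    intro i _
    rw [hm k i]; ring
  rw [h1, add_assoc, Finset.sum_mul, ← Finset.sum_add_distrib]
  congr 1
  apply Finset.sum_congr rfl
  intro i _
  rw [← Finset.sum_add_distrib, Finset.mul_sum]
  apply Finset.sum_congr rfl
  intro k _
  ring

/-- A fractional solution at facility level. -/
structure LocInst (ι σ : Type) [Fintype ι] [Fintype σ] [DecidableEq σ] where
  d : σ → ι → ℝ
  D : σ → σ → ℝ
  w : ι → ℝ
  x : σ → ι → ℝ
  y : σ → ℝ
  w_nonneg : ∀ j, 0 ≤ w j
  d_nonneg : ∀ i j, 0 ≤ d i j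
  D_nonneg : ∀ i κ, 0 ≤ D κ i
  y_nonneg : ∀ i, 0 ≤ y i
  x_nonneg : ∀ i j, 0 ≤ x i j
  x_le : ∀ i j, x i j ≤ y i
  x_sum : ∀ j, ∑ i, x i j = 1
  /-- `D κ i ≤ d κ j + d i j` -/
  tri1 : ∀ i κ j, D κ i ≤ d i j + d κ j
  /-- `d κ j ≤ d i j + D κ i` -/
  tri2 : ∀ i κ j, d κ j ≤ d i j + D κ i

namespace LocInst

variable {ι σ : Type} [Fintype ι] [Fintype σ] [DecidableEq σ] (I : LocInst ι σ)

/-- average connection cost -/
noncomputable def C (j : ι) : ℝ := ∑ i, I.x i j * I.d i j

noncomputable def key (i : σ) (j : ι) : ℝ := (11 * I.d i j + 5 * I.C j) / 8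

/-- a state: current client costs and star distances -/
structure State where
  K : ι → ℝ
  F : σ → ℝ
  K_nonneg : ∀ j, 0 ≤ K j
  F_nonneg : ∀ i, 0 ≤ F i
  K_le : ∀ i j, K j ≤ I.d i j + F i

variable {I}

/-- residual of client `j` in star `i` -/
noncomputable def State.u (S : I.State) (i : σ) (j : ι) : ℝ := max (S.K j - I.d i j) 0

/-- `y i` times the client part of star `i` at time `t` -/
noncomputable def State.G (S : I.State) (i : σ) (t : ℝ) : ℝ :=
  ∑ j, I.w j * I.x i j * cc (S.u i j) (S.F i) (I.key i j) t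

/-- `y i` times the slope of star `i` at time `t` -/
noncomputable def State.slope (S : I.State) (i : σ) (t : ℝ) : ℝ :=
  ∑ j, I.w j * I.x i j * gg (S.u i j) (S.F i) (I.key i j) t

noncomputable def State.base (S : I.State) : ℝ :=
  ∑ j, I.w j * ∑ i, I.x i j * min (I.d i j) (S.K j)

noncomputable def State.Cval (S : I.State) (τ : σ → ℝ) : ℝ := S.base + ∑ i, S.G i (τ i)

/-- open the facility `κ` -/
noncomputable def State.step (S : I.State) (κ : σ) : I.State where
  K := fun j => min (S.K j) (I.d κ j)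
  F := fun i => min (S.F i) (I.D κ i)
  K_nonneg := fun j => le_min (S.K_nonneg j) (I.d_nonneg κ j)
  F_nonneg := fun i => le_min (S.F_nonneg i) (I.D_nonneg i κ)
  K_le := by
    intro i j
    rcases le_total (S.F i) (I.D κ i) with h | h
    · rw [min_eq_left h]; exact (min_le_left _ _).trans (S.K_le i j)
    · rw [min_eq_right h]; exact (min_le_right _ _).trans (I.tri2 i κ j)

noncomputable def State.cost (S : I.State) : ℝ := ∑ j, I.w j * S.K j

lemma C_nonneg (j : ι) : 0 ≤ I.C j :=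
  Finset.sum_nonneg fun i _ => mul_nonneg (I.x_nonneg i j) (I.d_nonneg i j)

lemma key_nonneg (i : σ) (j : ι) : 0 ≤ I.key i j := by
  unfold key
  have := I.d_nonneg i j
  have := I.C_nonneg j
  positivity

lemma wx_nonneg (i : σ) (j : ι) : 0 ≤ I.w j * I.x i j :=
  mul_nonneg (I.w_nonneg j) (I.x_nonneg i j)

lemma State.u_nonneg (S : I.State) (i : σ) (j : ι) : 0 ≤ S.u i j := le_max_right _ _

lemma State.u_le (S : I.State) (i : σ) (j : ι) : S.u i j ≤ S.F i :=
  max_le (by have := S.K_le i j; linarith) (S.F_nonneg i)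

lemma State.u_step_le (S : I.State) (κ i : σ) (j : ι) : (S.step κ).u i j ≤ S.u i j := by
  unfold State.u
  apply max_le_max _ le_rfl
  have : (S.step κ).K j ≤ S.K j := min_le_left _ _
  linarith

lemma State.F_step_le (S : I.State) (κ i : σ) : (S.step κ).F i ≤ S.F i := min_le_left _ _

lemma State.K_step_le (S : I.State) (κ : σ) (j : ι) : (S.step κ).K j ≤ S.K j := min_le_left _ _

/-- the residual after a hit is `rr` -/
lemma State.u_step (S : I.State) (κ i : σ) (j : ι) :
    (S.step κ).u i j = rr (S.u i j) (I.d i j) (I.d κ j) := by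
  unfold State.u rr State.step
  simp only
  rcases le_total (S.K j) (I.d κ j) with h | h
  · rw [min_eq_left h, max_comm 0, min_eq_left]
    exact max_le_max (by linarith) le_rfl
  · rw [min_eq_right h, max_comm 0, min_eq_right]
    exact max_le_max (by linarith) le_rfl

lemma State.u_eq (S : I.State) (i : σ) (j : ι) :
    S.u i j = S.K j - min (I.d i j) (S.K j) := by
  unfold State.u
  rcases le_total (S.K j) (I.d i j) with h | h
  · rw [max_eq_right (by linarith), min_eq_right h]; ring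
  · rw [max_eq_left (by linarith), min_eq_left h]

lemma State.G_zero (S : I.State) (i : σ) : S.G i 0 = ∑ j, I.w j * I.x i j * S.u i j := by
  unfold State.G
  apply Finset.sum_congr rfl
  intro j _
  rw [cc_zero (I.key_nonneg i j) (S.F_nonneg i) (S.u_le i j)]

lemma cc_nonneg {u F f t : ℝ} (hu : 0 ≤ u) (hf : 0 ≤ f) (hF : 0 ≤ F) (huF : u ≤ F)
    (ht0 : 0 ≤ t) (ht1 : t ≤ 1) : 0 ≤ cc u F f t :=
  (mul_nonneg (by linarith) hu).trans (cc_ge hu hf hF huF ht0)

lemma State.G_nonneg (S : I.State) (i : σ) {t : ℝ} (h0 : 0 ≤ t) (h1 : t ≤ 1) : 0 ≤ S.G i t :=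
  Finset.sum_nonneg fun j _ => mul_nonneg (I.wx_nonneg i j)
    (cc_nonneg (S.u_nonneg i j) (I.key_nonneg i j) (S.F_nonneg i) (S.u_le i j) h0 h1)

/-- at a fixed time the star value does not increase under openings -/
lemma State.G_step_le (S : I.State) (κ i : σ) {t : ℝ} (h0 : 0 ≤ t) (h1 : t ≤ 1) :
    (S.step κ).G i t ≤ S.G i t :=
  Finset.sum_le_sum fun j _ => mul_le_mul_of_nonneg_left
    (cc_mono (I.key_nonneg i j) ((S.step κ).F_nonneg i) (S.F_step_le κ i) (S.u_step_le κ i j)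
      ((S.step κ).u_le i j) (S.u_le i j) h0 h1) (I.wx_nonneg i j)

lemma State.base_step_le (S : I.State) (κ : σ) : (S.step κ).base ≤ S.base :=
  Finset.sum_le_sum fun j _ => mul_le_mul_of_nonneg_left
    (Finset.sum_le_sum fun i _ => mul_le_mul_of_nonneg_left
      (min_le_min le_rfl (S.K_step_le κ j)) (I.x_nonneg i j)) (I.w_nonneg j)

/-- subgradient inequality of the star value -/
lemma State.G_sub (S : I.State) (i : σ) (s t : ℝ) :
    S.G i t + (t - s) * S.slope i t ≤ S.G i s := by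
  unfold State.G State.slope
  rw [Finset.mul_sum, ← Finset.sum_add_distrib]
  apply Finset.sum_le_sum
  intro j _
  have := mul_le_mul_of_nonneg_left
    (cc_sub (u := S.u i j) (I.key_nonneg i j) (S.F_nonneg i) s t) (I.wx_nonneg i j)
  linarith

lemma State.slope_nonneg (S : I.State) (i : σ) (t : ℝ) : 0 ≤ S.slope i t :=
  Finset.sum_nonneg fun j _ => mul_nonneg (I.wx_nonneg i j)
    (gg_nonneg (S.u_nonneg i j) (I.key_nonneg i j) (S.F_nonneg i) t)

/-- the opened star has value `0` -/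
lemma State.G_step_self (S : I.State) (κ : σ) : (S.step κ).G κ 0 = 0 := by
  rw [State.G_zero]
  apply Finset.sum_eq_zero
  intro j _
  have : (S.step κ).u κ j = 0 := by
    unfold State.u
    apply max_eq_right
    have : (S.step κ).K j ≤ I.d κ j := min_le_right _ _
    linarith
  rw [this, mul_zero]

/-- certificates of stars with slope at least the price -/
theorem State.lcert (S : I.State) {lm : ℝ} (hlm : 0 < lm) (i : σ) {t : ℝ} (hy : 0 < I.y i)
    (h0 : 0 < t) (h1 : t ≤ 1) (h : lm * I.y i ≤ S.slope i t) :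
    Nonempty (LCert Finset.univ (fun j => I.w j * I.x i j) (S.u i) (I.key i) (I.d i) I.C
      (S.F i) (lm * I.y i) t) := by
  have hp : 0 < lm * I.y i := mul_pos hlm hy
  have hF : 0 < S.F i := by
    rcases eq_or_lt_of_le (S.F_nonneg i) with hF | hF
    · exfalso
      have : S.slope i t = 0 := by
        unfold State.slope
        apply Finset.sum_eq_zero
        intro j _
        have hu : S.u i j = 0 := le_antisymm (by rw [hF]; exact S.u_le i j) (S.u_nonneg i j)
        rw [hu, ← hF, gg_of_le (by rw [min_eq_left (I.key_nonneg i j)]; simp),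
          min_eq_left (I.key_nonneg i j)]
        simp
      linarith
    · exact hF
  exact Crest.Agent.KM.lcert r0Prop lProp hF hp (fun j _ => I.d_nonneg i j)
    (fun j _ => I.C_nonneg j) (fun j _ => rfl) (fun j _ => S.u_nonneg i j)
    (fun j _ => S.u_le i j) h0 h1 h

/-- star inequality, weights `y`: one alive star -/
theorem State.star_loc (S : I.State) {lm : ℝ} (i : σ) {t : ℝ}
    (c : LCert Finset.univ (fun j => I.w j * I.x i j) (S.u i) (I.key i) (I.d i) I.C
      (S.F i) (lm * I.y i) t) (A : Finset σ) :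
    lm * I.y i ≤ (∑ κ ∈ A, I.y κ * (lm * I.y i * (t - c.Θ ((S.step κ).F i)) + S.G i t
        - (S.step κ).G i (c.Θ ((S.step κ).F i)))) +
      ∑ j, I.w j * I.x i j * ((∑ κ ∈ A, I.x κ j * (S.step κ).u i j) +
          (∑ κ ∈ Aᶜ, I.x κ j) * S.u i j) := by
  -- brackets
  set Dk : σ → ι → ℝ := fun κ j => (t - c.Θ ((S.step κ).F i)) * c.n j
      + cc (S.u i j) (S.F i) (I.key i j) t
      - cc ((S.step κ).u i j) ((S.step κ).F i) (I.key i j) (c.Θ ((S.step κ).F i)) with hDk
  have hD0 : ∀ κ j, 0 ≤ Dk κ j := by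
    intro κ j
    have := c.R j (Finset.mem_univ j) ((S.step κ).F i) ((S.step κ).u i j)
          ((S.step κ).F_nonneg i) (S.F_step_le κ i) (S.u_step_le κ i j) ((S.step κ).u_le i j)
    simp only [hDk]; linarith
  have hDG : ∀ κ j, c.G j (I.d κ j) ≤ Dk κ j + (S.step κ).u i j := by
    intro κ j
    have hF : (S.step κ).F i ≤ I.d i j + I.d κ j :=
      (min_le_right _ _).trans (I.tri1 i κ j)
    have := c.G_alive j (Finset.mem_univ j) (I.d κ j) ((S.step κ).F i) ((S.step κ).F_nonneg i)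
      (S.F_step_le κ i) hF (by rw [← S.u_step κ i j]; exact (S.step κ).u_le i j)
    rw [← S.u_step κ i j] at this
    simp only [hDk]; linarith
  have hB : ∀ κ, lm * I.y i * (t - c.Θ ((S.step κ).F i)) + S.G i t
        - (S.step κ).G i (c.Θ ((S.step κ).F i)) = ∑ j, I.w j * I.x i j * Dk κ j := by
    intro κ
    have e1 : lm * I.y i * (t - c.Θ ((S.step κ).F i)) =
        (∑ j, I.w j * I.x i j * c.n j) * (t - c.Θ ((S.step κ).F i)) :=
      congrArg (fun z => z * (t - c.Θ ((S.step κ).F i))) c.price.symm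
    rw [e1]
    unfold State.G
    rw [Finset.sum_mul, ← Finset.sum_add_distrib, ← Finset.sum_sub_distrib]
    apply Finset.sum_congr rfl
    intro j _
    simp only [hDk]; ring
  have h1 : (∑ j, I.w j * I.x i j * ∑ κ ∈ A, I.x κ j * Dk κ j) ≤
      ∑ κ ∈ A, I.y κ * (lm * I.y i * (t - c.Θ ((S.step κ).F i)) + S.G i t
        - (S.step κ).G i (c.Θ ((S.step κ).F i))) := by
    simp_rw [hB, Finset.mul_sum]
    rw [Finset.sum_comm]
    apply Finset.sum_le_sum
    intro κ _
    apply Finset.sum_le_sum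
    intro j _
    have e1 := mul_le_mul_of_nonneg_right (I.x_le κ j)
      (mul_nonneg (I.wx_nonneg i j) (hD0 κ j))
    calc I.w j * I.x i j * (I.x κ j * Dk κ j) = I.x κ j * (I.w j * I.x i j * Dk κ j) := by ring
      _ ≤ _ := e1
  have h2 : lm * I.y i ≤ ∑ j, I.w j * I.x i j * ∑ κ, I.x κ j * c.G j (I.d κ j) := by
    refine c.price.symm.le.trans ?_
    apply Finset.sum_le_sum
    intro j _
    apply mul_le_mul_of_nonneg_left _ (I.wx_nonneg i j)
    exact c.G_avg j (Finset.mem_univ j) Finset.univ (fun κ => I.x κ j) (fun κ => I.d κ j)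
      (fun κ _ => I.x_nonneg κ j) (fun κ _ => I.d_nonneg κ j) (I.x_sum j) rfl
  refine h2.trans (le_trans ?_ (add_le_add_left h1 _))
  rw [← Finset.sum_add_distrib]
  apply Finset.sum_le_sum
  intro j _
  rw [← mul_add]
  apply mul_le_mul_of_nonneg_left _ (I.wx_nonneg i j)
  rw [← add_assoc, ← Finset.sum_add_distrib, ← Finset.sum_add_sum_compl A, Finset.sum_mul]
  apply add_le_add
  · apply Finset.sum_le_sum
    intro κ _
    have := mul_le_mul_of_nonneg_left (hDG κ j) (I.x_nonneg κ j)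
    linarith
  · apply Finset.sum_le_sum
    intro κ _
    exact mul_le_mul_of_nonneg_left (c.G_dead j (Finset.mem_univ j) _) (I.x_nonneg κ j)

/-- star inequality with a deficit `η` in the slope -/
theorem State.star_eta (S : I.State) {lm : ℝ} (hlm : 0 ≤ lm) (i : σ) {t η : ℝ}
    (h0 : 0 < t) (h1 : t ≤ 1) (hη : 0 ≤ η) (h : lm * I.y i ≤ S.slope i t + η) (A : Finset σ) :
    ∃ θ : σ → ℝ, (∀ κ, 0 ≤ θ κ ∧ θ κ ≤ t) ∧
    lm * I.y i - η ≤ (∑ κ ∈ A, I.y κ * (lm * I.y i * (t - θ κ) + S.G i t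
        - (S.step κ).G i (θ κ))) +
      ∑ j, I.w j * I.x i j * ((∑ κ ∈ A, I.x κ j * (S.step κ).u i j) +
          (∑ κ ∈ Aᶜ, I.x κ j) * S.u i j) := by
  have hhit : 0 ≤ ∑ j, I.w j * I.x i j * ((∑ κ ∈ A, I.x κ j * (S.step κ).u i j) +
          (∑ κ ∈ Aᶜ, I.x κ j) * S.u i j) :=
    Finset.sum_nonneg fun j _ => mul_nonneg (I.wx_nonneg i j) (add_nonneg
      (Finset.sum_nonneg fun κ _ => mul_nonneg (I.x_nonneg κ j) ((S.step κ).u_nonneg i j))
      (mul_nonneg (Finset.sum_nonneg fun κ _ => I.x_nonneg κ j) (S.u_nonneg i j)))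
  have triv : lm * I.y i - η ≤ 0 → ∃ θ : σ → ℝ, (∀ κ, 0 ≤ θ κ ∧ θ κ ≤ t) ∧
    lm * I.y i - η ≤ (∑ κ ∈ A, I.y κ * (lm * I.y i * (t - θ κ) + S.G i t
        - (S.step κ).G i (θ κ))) +
      ∑ j, I.w j * I.x i j * ((∑ κ ∈ A, I.x κ j * (S.step κ).u i j) +
          (∑ κ ∈ Aᶜ, I.x κ j) * S.u i j) := by
    intro hle
    refine ⟨fun _ => t, fun _ => ⟨h0.le, le_rfl⟩, hle.trans (add_nonneg ?_ hhit)⟩
    apply Finset.sum_nonneg
    intro κ _
    apply mul_nonneg (I.y_nonneg κ)
    have := S.G_step_le κ i h0.le h1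
    rw [sub_self, mul_zero]
    linarith
  rcases eq_or_lt_of_le (I.y_nonneg i) with hy | hy
  · exact triv (by rw [← hy]; linarith)
  rcases eq_or_lt_of_le hlm with hl | hl
  · exact triv (by rw [← hl]; linarith)
  rcases eq_or_lt_of_le (S.slope_nonneg i t) with hs | hs
  · exact triv (by rw [← hs] at h; linarith)
  set p : ℝ := min lm (S.slope i t / I.y i) with hp
  have hp0 : 0 < p := lt_min hl (div_pos hs hy)
  have hpl : p ≤ lm := min_le_left _ _
  have hps : p * I.y i ≤ S.slope i t := by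
    have := min_le_right lm (S.slope i t / I.y i)
    rw [← hp, le_div_iff₀ hy] at this
    exact this
  have hpη : lm * I.y i - η ≤ p * I.y i := by
    rcases le_total lm (S.slope i t / I.y i) with hc | hc
    · rw [hp, min_eq_left hc]; linarith
    · rw [hp, min_eq_right hc, div_mul_cancel₀ _ hy.ne']; linarith
  obtain ⟨c⟩ := S.lcert hp0 i hy h0 h1 hps
  refine ⟨fun κ => c.Θ ((S.step κ).F i), fun κ => ⟨c.Θ_nonneg _, c.Θ_le _⟩, ?_⟩
  have hst := S.star_loc i c A
  refine hpη.trans (hst.trans ?_)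
  apply add_le_add _ le_rfl
  apply Finset.sum_le_sum
  intro κ _
  apply mul_le_mul_of_nonneg_left _ (I.y_nonneg κ)
  have h5 : p * I.y i * (t - c.Θ ((S.step κ).F i)) ≤ lm * I.y i * (t - c.Θ ((S.step κ).F i)) :=
    mul_le_mul_of_nonneg_right (mul_le_mul_of_nonneg_right hpl hy.le)
      (by have := c.Θ_le ((S.step κ).F i); linarith)
  linarith

/-- **Descent**, averaged form: `A` = facilities with positive clock and mass. -/
theorem State.descent_sum (S : I.State) {lm : ℝ} (hlm : 0 ≤ lm) (τ : σ → ℝ) (η : σ → ℝ)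
    (h0 : ∀ i, 0 ≤ τ i) (h1 : ∀ i, τ i ≤ 1) (hη : ∀ i, 0 ≤ η i)
    (A : Finset σ) (hA : ∀ i, i ∈ A ↔ 0 < τ i ∧ 0 < I.y i)
    (hsl : ∀ i ∈ A, lm * I.y i ≤ S.slope i (τ i) + η i) :
    ∃ θ : σ → σ → ℝ, (∀ κ i, 0 ≤ θ κ i ∧ θ κ i ≤ τ i) ∧
      ∑ κ ∈ A, I.y κ * (lm * (1 + ∑ i, I.y i * (θ κ i - τ i)) + (S.step κ).Cval (θ κ)
        - S.Cval τ) ≤ ∑ i ∈ A, η i := by
  classical
  have hex : ∀ i, ∃ θ : σ → ℝ, (∀ κ, 0 ≤ θ κ ∧ θ κ ≤ τ i) ∧ (i ∈ A →
    lm * I.y i - η i ≤ (∑ κ ∈ A, I.y κ * (lm * I.y i * (τ i - θ κ) + S.G i (τ i)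
        - (S.step κ).G i (θ κ))) +
      ∑ j, I.w j * I.x i j * ((∑ κ ∈ A, I.x κ j * (S.step κ).u i j) +
          (∑ κ ∈ Aᶜ, I.x κ j) * S.u i j)) ∧ (i ∉ A → ∀ κ, θ κ = 0) := by
    intro i
    by_cases hi : i ∈ A
    · obtain ⟨θ, h2, h3⟩ := S.star_eta hlm i ((hA i).mp hi).1 (h1 i) (hη i) (hsl i hi) A
      exact ⟨θ, h2, fun _ => h3, fun h => absurd hi h⟩
    · exact ⟨fun _ => 0, fun _ => ⟨le_rfl, h0 i⟩, fun h => absurd h hi, fun _ _ => rfl⟩
  choose θ' hθb hθa hθd using hex
  have hθex : ∃ θ : σ → σ → ℝ, ∀ κ i, θ κ i = θ' i κ := ⟨fun κ i => θ' i κ, fun _ _ => rfl⟩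
  obtain ⟨θ, hθ⟩ := hθex
  refine ⟨θ, ?_, ?_⟩
  · intro κ i
    rw [hθ]
    exact hθb i κ
  -- per star terms
  set B : σ → σ → ℝ := fun κ i => lm * I.y i * (τ i - θ κ i) + S.G i (τ i)
      - (S.step κ).G i (θ κ i) with hB
  have hval : ∀ κ, lm * (1 + ∑ i, I.y i * (θ κ i - τ i)) + (S.step κ).Cval (θ κ) - S.Cval τ
      = lm - ((S.base - (S.step κ).base) + ∑ i, B κ i) := by
    intro κ
    unfold State.Cval
    simp only [hB]
    rw [Finset.sum_sub_distrib, Finset.sum_add_distrib]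
    have : ∑ i, lm * I.y i * (τ i - θ κ i) = - (lm * ∑ i, I.y i * (θ κ i - τ i)) := by
      rw [Finset.mul_sum, ← Finset.sum_neg_distrib]
      apply Finset.sum_congr rfl
      intro i _; ring
    rw [this]; ring
  -- dead stars
  have hBdead : ∀ κ i, i ∉ A → B κ i = ∑ j, I.w j * I.x i j * (S.u i j - (S.step κ).u i j) := by
    intro κ i hi
    have hθi : θ κ i = 0 := by rw [hθ]; exact hθd i hi κ
    by_cases hy : 0 < I.y i
    · have hτ : τ i = 0 := by
        by_contra hne
        exact hi ((hA i).mpr ⟨lt_of_le_of_ne (h0 i) (Ne.symm hne), hy⟩)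
      simp only [hB]
      rw [hθi, hτ, State.G_zero, State.G_zero, sub_self, mul_zero, zero_add,
        ← Finset.sum_sub_distrib]
      apply Finset.sum_congr rfl
      intro j _; ring
    · have hx : ∀ j, I.x i j = 0 := fun j =>
        le_antisymm ((I.x_le i j).trans (not_lt.mp hy)) (I.x_nonneg i j)
      have hG : ∀ (T : I.State) (t : ℝ), T.G i t = 0 := by
        intro T t
        unfold State.G
        apply Finset.sum_eq_zero
        intro j _
        rw [hx j]; ring
      have hR : ∑ j, I.w j * I.x i j * (S.u i j - (S.step κ).u i j) = 0 := by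
        apply Finset.sum_eq_zero
        intro j _
        rw [hx j]; ring
      simp only [hB]
      rw [hG, hG, hR]
      have hy0 : I.y i = 0 := le_antisymm (not_lt.mp hy) (I.y_nonneg i)
      rw [hy0]; ring
  -- alive stars
  have hBalive : ∀ i ∈ A, lm * I.y i - η i ≤ (∑ κ ∈ A, I.y κ * B κ i) +
      ∑ j, I.w j * I.x i j * ((∑ κ ∈ A, I.x κ j * (S.step κ).u i j) +
          (∑ κ ∈ Aᶜ, I.x κ j) * S.u i j) := by
    intro i hi
    have h := hθa i hi
    simp only [hB, hθ]
    exact h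
  -- the sum over `κ`
  have hsum : ∑ κ ∈ A, I.y κ * (lm * (1 + ∑ i, I.y i * (θ κ i - τ i)) + (S.step κ).Cval (θ κ)
        - S.Cval τ) = ∑ κ ∈ A, lm * I.y κ - (∑ κ ∈ A, I.y κ * (S.base - (S.step κ).base)) -
        ∑ i ∈ A, (∑ κ ∈ A, I.y κ * B κ i) - ∑ i ∈ Aᶜ, (∑ κ ∈ A, I.y κ * B κ i) := by
    have e1 : ∀ κ ∈ A, I.y κ * (lm * (1 + ∑ i, I.y i * (θ κ i - τ i)) + (S.step κ).Cval (θ κ)
        - S.Cval τ) = lm * I.y κ - I.y κ * (S.base - (S.step κ).base) - ∑ i, I.y κ * B κ i := by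
      intro κ _
      rw [hval κ, ← Finset.mul_sum]; ring
    rw [Finset.sum_congr rfl e1, Finset.sum_sub_distrib, Finset.sum_sub_distrib,
      Finset.sum_comm (s := A) (t := Finset.univ), ← Finset.sum_add_sum_compl A
        (fun i => ∑ κ ∈ A, I.y κ * B κ i)]
    ring
  rw [hsum]
  -- lower the weights
  have hbase : ∑ j, I.w j * ∑ κ ∈ A, I.x κ j * ∑ i, I.x i j *
      (min (I.d i j) (S.K j) - min (I.d i j) ((S.step κ).K j)) ≤
      ∑ κ ∈ A, I.y κ * (S.base - (S.step κ).base) := by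
    have e : ∀ κ ∈ A, I.y κ * (S.base - (S.step κ).base) = ∑ j, I.w j * (I.y κ *
        ∑ i, I.x i j * (min (I.d i j) (S.K j) - min (I.d i j) ((S.step κ).K j))) := by
      intro κ _
      unfold State.base
      rw [← Finset.sum_sub_distrib, Finset.mul_sum]
      apply Finset.sum_congr rfl
      intro j _
      have : ∑ i, I.x i j * (min (I.d i j) (S.K j) - min (I.d i j) ((S.step κ).K j)) =
          (∑ i, I.x i j * min (I.d i j) (S.K j)) -
            ∑ i, I.x i j * min (I.d i j) ((S.step κ).K j) := by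
        rw [← Finset.sum_sub_distrib]
        apply Finset.sum_congr rfl
        intro i _; ring
      rw [this]; ring
    rw [Finset.sum_congr rfl e, Finset.sum_comm]
    apply Finset.sum_le_sum
    intro j _
    rw [← Finset.mul_sum]
    apply mul_le_mul_of_nonneg_left _ (I.w_nonneg j)
    apply Finset.sum_le_sum
    intro κ _
    apply mul_le_mul_of_nonneg_right (I.x_le κ j)
    apply Finset.sum_nonneg
    intro i _
    apply mul_nonneg (I.x_nonneg i j)
    have : min (I.d i j) ((S.step κ).K j) ≤ min (I.d i j) (S.K j) :=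
      min_le_min le_rfl (S.K_step_le κ j)
    linarith
  have hdead : ∑ j, I.w j * ∑ i ∈ Aᶜ, ∑ κ ∈ A, I.x i j * I.x κ j *
      (S.u i j - (S.step κ).u i j) ≤ ∑ i ∈ Aᶜ, (∑ κ ∈ A, I.y κ * B κ i) := by
    have e : ∀ i ∈ Aᶜ, (∑ κ ∈ A, I.y κ * B κ i) = ∑ j, I.w j * ∑ κ ∈ A, I.x i j * (I.y κ *
        (S.u i j - (S.step κ).u i j)) := by
      intro i hi
      rw [Finset.sum_congr rfl fun κ _ => by rw [hBdead κ i (Finset.mem_compl.mp hi)]]
      simp_rw [Finset.mul_sum]
      rw [Finset.sum_comm]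
      apply Finset.sum_congr rfl
      intro j _
      apply Finset.sum_congr rfl
      intro κ _; ring
    rw [Finset.sum_congr rfl e, Finset.sum_comm]
    simp_rw [← Finset.mul_sum]
    apply Finset.sum_le_sum
    intro j _
    apply mul_le_mul_of_nonneg_left _ (I.w_nonneg j)
    apply Finset.sum_le_sum
    intro i _
    rw [Finset.mul_sum]
    apply Finset.sum_le_sum
    intro κ _
    have h2 := S.u_step_le κ i j
    have := mul_le_mul_of_nonneg_right (I.x_le κ j)
      (mul_nonneg (I.x_nonneg i j) (show 0 ≤ S.u i j - (S.step κ).u i j by linarith))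
    calc I.x i j * I.x κ j * (S.u i j - (S.step κ).u i j) =
        I.x κ j * (I.x i j * (S.u i j - (S.step κ).u i j)) := by ring
      _ ≤ _ := this
      _ = _ := by ring
  have halive := Finset.sum_le_sum hBalive
  rw [Finset.sum_add_distrib, Finset.sum_sub_distrib] at halive
  -- exchange identity
  have hex : (∑ j, I.w j * ∑ κ ∈ A, I.x κ j * ∑ i, I.x i j *
      (min (I.d i j) (S.K j) - min (I.d i j) ((S.step κ).K j))) +
      (∑ j, I.w j * ∑ i ∈ Aᶜ, ∑ κ ∈ A, I.x i j * I.x κ j *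
      (S.u i j - (S.step κ).u i j)) = ∑ i ∈ A,
      ∑ j, I.w j * I.x i j * ((∑ κ ∈ A, I.x κ j * (S.step κ).u i j) +
          (∑ κ ∈ Aᶜ, I.x κ j) * S.u i j) := by
    rw [Finset.sum_comm (s := A) (t := Finset.univ), ← Finset.sum_add_distrib]
    apply Finset.sum_congr rfl
    intro j _
    rw [← mul_add]
    have e2 : ∑ i ∈ A, I.w j * I.x i j * ((∑ κ ∈ A, I.x κ j * (S.step κ).u i j) +
          (∑ κ ∈ Aᶜ, I.x κ j) * S.u i j) = I.w j * ∑ i ∈ A, I.x i j *
          ((∑ κ ∈ A, I.x κ j * (S.step κ).u i j) + (∑ κ ∈ Aᶜ, I.x κ j) * S.u i j) := by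
      rw [Finset.mul_sum]
      apply Finset.sum_congr rfl
      intro i _; ring
    rw [e2]
    congr 1
    set α : σ → ℝ := fun i => if i ∈ A then I.x i j else 0 with hα
    set β : σ → ℝ := fun i => if i ∈ Aᶜ then I.x i j else 0 with hβ
    set a : σ → ℝ := fun i => min (I.d i j) (S.K j) with ha
    set m : σ → σ → ℝ := fun i κ => min (a i) (a κ) with hm
    have hαβ : ∀ i, α i + β i = I.x i j := by
      intro i; simp only [hα, hβ]
      by_cases hi : i ∈ A
      · simp [hi]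
      · simp [hi]
    have hsA : ∀ f : σ → ℝ, ∑ κ ∈ A, I.x κ j * f κ = ∑ κ, α κ * f κ := by
      intro f
      simp only [hα, ite_mul, zero_mul, Finset.sum_ite_mem, Finset.univ_inter]
    have hsB : ∀ f : σ → ℝ, ∑ κ ∈ Aᶜ, I.x κ j * f κ = ∑ κ, β κ * f κ := by
      intro f
      simp only [hβ, ite_mul, zero_mul, Finset.sum_ite_mem, Finset.univ_inter]
    have hmK : ∀ i κ, min (I.d i j) ((S.step κ).K j) = m i κ := by
      intro i κ
      simp only [hm, ha, State.step]
      rw [min_min_min_comm, min_self, min_comm (S.K j), ← min_assoc]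
    have hKk : ∀ κ, (S.step κ).K j = a κ := by
      intro κ
      simp only [ha, State.step]; rw [min_comm]
    have hu : ∀ i, S.u i j = S.K j - a i := fun i => S.u_eq i j
    have hu' : ∀ i κ, (S.step κ).u i j = a κ - m i κ := by
      intro i κ
      rw [State.u_eq, hmK, hKk]
    have key := exch_id α β a m (fun i k => min_comm _ _) (S.K j)
    have k1 : ∑ κ ∈ A, I.x κ j * ∑ i, I.x i j *
        (min (I.d i j) (S.K j) - min (I.d i j) ((S.step κ).K j)) =
        ∑ k, ∑ i, α k * (α i + β i) * (a i - m i k) := by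
      rw [hsA]
      apply Finset.sum_congr rfl
      intro κ _
      rw [Finset.mul_sum]
      apply Finset.sum_congr rfl
      intro i _
      rw [hmK, hαβ]; ring
    have k2 : ∑ i ∈ Aᶜ, ∑ κ ∈ A, I.x i j * I.x κ j * (S.u i j - (S.step κ).u i j) =
        ∑ i, ∑ k, β i * α k * (S.K j - a i - a k + m i k) := by
      have e3 : ∀ i ∈ Aᶜ, ∑ κ ∈ A, I.x i j * I.x κ j * (S.u i j - (S.step κ).u i j) =
          I.x i j * ∑ κ, α κ * (S.K j - a i - a κ + m i κ) := by
        intro i _
        rw [← hsA, Finset.mul_sum]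
        apply Finset.sum_congr rfl
        intro κ _
        rw [hu, hu']; ring
      rw [Finset.sum_congr rfl e3, hsB]
      apply Finset.sum_congr rfl
      intro i _
      rw [Finset.mul_sum]
      apply Finset.sum_congr rfl
      intro κ _; ring
    have k3 : ∑ i ∈ A, I.x i j * ((∑ κ ∈ A, I.x κ j * (S.step κ).u i j)
        + (∑ κ ∈ Aᶜ, I.x κ j) * S.u i j) =
        (∑ i, ∑ k, α i * α k * (a k - m i k)) + (∑ i, β i) * ∑ k, α k * (S.K j - a k) := by
      have e4 : (∑ κ ∈ Aᶜ, I.x κ j) = ∑ i, β i := by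
        have := hsB (fun _ => 1)
        simpa using this
      rw [e4]
      have e5 : ∀ i ∈ A, I.x i j * ((∑ κ ∈ A, I.x κ j * (S.step κ).u i j)
          + (∑ i, β i) * S.u i j) = I.x i j * (∑ k, α k * (a k - m i k)) +
          (∑ i, β i) * (I.x i j * (S.K j - a i)) := by
        intro i _
        rw [← hsA, Finset.sum_congr rfl fun κ _ => by rw [hu' i κ], hu]
        ring
      rw [Finset.sum_congr rfl e5, Finset.sum_add_distrib, hsA, ← Finset.mul_sum, hsA]
      congr 1
      apply Finset.sum_congr rfl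
      intro i _
      rw [Finset.mul_sum]
      apply Finset.sum_congr rfl
      intro κ _; ring
    rw [k1, k2, k3]
    exact key
  linarith

/-- **Descent.** -/
theorem State.descent (S : I.State) {lm : ℝ} (hlm : 0 ≤ lm) (τ : σ → ℝ) (η : σ → ℝ)
    (h0 : ∀ i, 0 ≤ τ i) (h1 : ∀ i, τ i ≤ 1) (hη : ∀ i, 0 ≤ η i)
    (hsl : ∀ i, 0 < τ i → 0 < I.y i → lm * I.y i ≤ S.slope i (τ i) + η i)
    {y0 : ℝ} (hy0 : 0 < y0) (hy : ∀ i, 0 < I.y i → y0 ≤ I.y i)
    (hne : ∃ i, 0 < τ i ∧ 0 < I.y i) :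
    ∃ κ, 0 < τ κ ∧ 0 < I.y κ ∧ ∃ θ : σ → ℝ, (∀ i, 0 ≤ θ i ∧ θ i ≤ τ i) ∧ θ κ = 0 ∧
      lm * (1 + ∑ i, I.y i * (θ i - τ i)) + (S.step κ).Cval θ ≤ S.Cval τ + (∑ i, η i) / y0 := by
  classical
  obtain ⟨θ, hθ, hs⟩ := S.descent_sum hlm τ η h0 h1 hη
    (Finset.univ.filter fun i => 0 < τ i ∧ 0 < I.y i) (by intro i; simp)
    (fun i hi => hsl i (Finset.mem_filter.mp hi).2.1 (Finset.mem_filter.mp hi).2.2)
  set A := Finset.univ.filter fun i => 0 < τ i ∧ 0 < I.y i with hA
  obtain ⟨i0, hi0⟩ := hne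
  have hAne : A.Nonempty := ⟨i0, by rw [hA]; simpa using hi0⟩
  have hη0 : 0 ≤ ∑ i, η i := Finset.sum_nonneg fun i _ => hη i
  have hηA : ∑ i ∈ A, η i ≤ ∑ i, η i :=
    Finset.sum_le_sum_of_subset_of_nonneg (Finset.subset_univ _) fun i _ _ => hη i
  -- some term is small
  have hex : ∃ κ ∈ A, lm * (1 + ∑ i, I.y i * (θ κ i - τ i)) + (S.step κ).Cval (θ κ) - S.Cval τ
      ≤ (∑ i, η i) / y0 := by
    by_contra hc
    push Not at hc
    have h2 : ∑ κ ∈ A, I.y κ * ((∑ i, η i) / y0) < ∑ κ ∈ A, I.y κ *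
        (lm * (1 + ∑ i, I.y i * (θ κ i - τ i)) + (S.step κ).Cval (θ κ) - S.Cval τ) := by
      apply Finset.sum_lt_sum_of_nonempty hAne
      intro κ hκ
      have hκ' := (Finset.mem_filter.mp hκ).2
      exact mul_lt_mul_of_pos_left (hc κ hκ) hκ'.2
    have h3 : ∑ i, η i ≤ ∑ κ ∈ A, I.y κ * ((∑ i, η i) / y0) := by
      rw [← Finset.sum_mul]
      have h4 : y0 ≤ ∑ κ ∈ A, I.y κ := by
        obtain ⟨κ, hκ⟩ := hAne
        have hκ' := (Finset.mem_filter.mp hκ).2
        exact (hy κ hκ'.2).trans (Finset.single_le_sum (f := fun κ => I.y κ)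
          (fun i _ => I.y_nonneg i) hκ)
      calc ∑ i, η i = y0 * ((∑ i, η i) / y0) := by field_simp
        _ ≤ _ := mul_le_mul_of_nonneg_right h4 (div_nonneg hη0 hy0.le)
    linarith
  obtain ⟨κ, hκA, hκ⟩ := hex
  have hκ' := (Finset.mem_filter.mp hκA).2
  refine ⟨κ, hκ'.1, hκ'.2, Function.update (θ κ) κ 0, ?_, Function.update_self _ _ _, ?_⟩
  · intro i
    by_cases hi : i = κ
    · subst hi; rw [Function.update_self]; exact ⟨le_rfl, h0 _⟩
    · rw [Function.update_of_ne hi]; exact hθ κ i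
  · have e1 : ∑ i, I.y i * (Function.update (θ κ) κ 0 i - τ i) ≤
        ∑ i, I.y i * (θ κ i - τ i) := by
      apply Finset.sum_le_sum
      intro i _
      apply mul_le_mul_of_nonneg_left _ (I.y_nonneg i)
      by_cases hi : i = κ
      · subst hi; rw [Function.update_self]
        have := (hθ i i).1; linarith
      · rw [Function.update_of_ne hi]
    have e2 : (S.step κ).Cval (Function.update (θ κ) κ 0) ≤ (S.step κ).Cval (θ κ) := by
      unfold State.Cval
      apply add_le_add le_rfl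
      apply Finset.sum_le_sum
      intro i _
      by_cases hi : i = κ
      · subst hi; rw [Function.update_self, State.G_step_self]
        exact (S.step i).G_nonneg i (hθ i i).1 ((hθ i i).2.trans (h1 i))
      · rw [Function.update_of_ne hi]
    have e3 := mul_le_mul_of_nonneg_left e1 hlm
    linarith

/-! ## Further facts -/

lemma gg_lip {u F f t t' : ℝ} (hf : 0 ≤ f) (hF : 0 ≤ F) (huF : u ≤ F) (h0 : 0 ≤ t)
    (h : t ≤ t') : gg u F f t ≤ gg u F f t' + (t' - t) * f := by
  by_cases hc : u ≤ F - (1-2*ee)*min F f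
  · rw [gg_of_le hc, gg_of_le hc]
    have := mul_nonneg (show 0 ≤ t' - t by linarith) hf
    linarith
  · push Not at hc
    obtain ⟨hx0, hx1, -⟩ := ts_spec (le_min hF hf) huF hc
    rw [gg_of_gt hc, gg_of_gt hc]
    set x := ts u F (min F f)
    have hm0 : 0 ≤ min F f := le_min hF hf
    have hmf : min F f ≤ f := min_le_right _ _
    have h1 : max t' x - max t x ≤ t' - t := by
      rcases le_total t x with a | a <;> rcases le_total t' x with b | b <;>
        simp only [max_eq_left, max_eq_right, a, b] <;> linarith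
    have h2 : max t x ≤ max t' x := max_le_max h le_rfl
    have h3 : Real.exp (-(max t x)) - Real.exp (-(max t' x)) ≤ max t' x - max t x := by
      have e1 := exp_neg_tangent (max t' x) (max t x)
      have e2 := exp_neg_le_one (t := max t x) (h0.trans (le_max_left _ _))
      nlinarith
    have h4 : (Real.exp (-(max t x)) - Real.exp (-(max t' x))) * min F f ≤ (t' - t) * min F f :=
      mul_le_mul_of_nonneg_right (h3.trans h1) hm0
    have h5 : (t' - t) * min F f ≤ (t' - t) * f :=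
      mul_le_mul_of_nonneg_left hmf (by linarith)
    unfold bc
    linarith

/-- `y i` times the key of star `i` -/
noncomputable def dl (I : LocInst ι σ) (i : σ) : ℝ := ∑ j, I.w j * I.x i j * I.key i j

lemma dl_nonneg (i : σ) : 0 ≤ I.dl i :=
  Finset.sum_nonneg fun j _ => mul_nonneg (I.wx_nonneg i j) (I.key_nonneg i j)

lemma sum_dl : ∑ i, I.dl i = 2 * ∑ j, I.w j * I.C j := by
  unfold dl
  rw [Finset.sum_comm, Finset.mul_sum]
  apply Finset.sum_congr rfl
  intro j _
  have : ∑ i, I.w j * I.x i j * I.key i j = I.w j * ((11 * ∑ i, I.x i j * I.d i j +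
      5 * (∑ i, I.x i j) * I.C j)/8) := by
    unfold key
    rw [Finset.mul_sum, Finset.mul_sum, Finset.sum_mul, ← Finset.sum_add_distrib,
      Finset.sum_div, Finset.mul_sum]
    apply Finset.sum_congr rfl
    intro i _; ring
  rw [this, I.x_sum j]
  unfold C; ring

lemma State.slope_lip (S : I.State) (i : σ) {t t' : ℝ} (h0 : 0 ≤ t) (h : t ≤ t') :
    S.slope i t ≤ S.slope i t' + (t' - t) * I.dl i := by
  unfold State.slope dl
  rw [Finset.mul_sum, ← Finset.sum_add_distrib]
  apply Finset.sum_le_sum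
  intro j _
  have := mul_le_mul_of_nonneg_left
    (gg_lip (u := S.u i j) (I.key_nonneg i j) (S.F_nonneg i) (S.u_le i j) h0 h) (I.wx_nonneg i j)
  linarith

lemma State.G_anti (S : I.State) (i : σ) {t t' : ℝ} (h : t ≤ t') : S.G i t' ≤ S.G i t := by
  have h1 := S.G_sub i t t'
  have h2 := mul_nonneg (show 0 ≤ t' - t by linarith) (S.slope_nonneg i t')
  linarith

/-- value at time `1`, initial bound -/
lemma State.G_one_le (S : I.State) (i : σ) : S.G i 1 ≤ ee * I.dl i := by
  unfold State.G dl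
  rw [Finset.mul_sum]
  apply Finset.sum_le_sum
  intro j _
  have he := ee_pos
  have h1 : cc (S.u i j) (S.F i) (I.key i j) 1 ≤ ee * I.key i j := by
    rw [cc_one (I.key_nonneg i j) (S.F_nonneg i) (S.u_le i j)]
    exact (min_le_right _ _).trans (mul_le_mul_of_nonneg_left (min_le_right _ _) he.le)
  have := mul_le_mul_of_nonneg_left h1 (I.wx_nonneg i j)
  linarith

lemma State.base_le (S : I.State) : S.base ≤ ∑ j, I.w j * I.C j :=
  Finset.sum_le_sum fun j _ => mul_le_mul_of_nonneg_left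
    (Finset.sum_le_sum fun i _ => mul_le_mul_of_nonneg_left (min_le_left _ _)
      (I.x_nonneg i j)) (I.w_nonneg j)

lemma State.Cval_one_le (S : I.State) :
    S.Cval (fun _ => 1) ≤ (1 + 2 * ee) * ∑ j, I.w j * I.C j := by
  unfold State.Cval
  have h1 : ∑ i, S.G i 1 ≤ ee * (2 * ∑ j, I.w j * I.C j) := by
    rw [← I.sum_dl, Finset.mul_sum]
    exact Finset.sum_le_sum fun i _ => S.G_one_le i
  have := S.base_le
  linarith

lemma State.Cval_ge (S : I.State) (τ : σ → ℝ) :
    ∑ j, I.w j * ∑ i, I.x i j * (min (I.d i j) (S.K j) +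
      cc (S.u i j) (S.F i) (I.key i j) (τ i)) = S.Cval τ := by
  unfold State.Cval State.base State.G
  rw [Finset.sum_comm (s := (Finset.univ : Finset σ)), ← Finset.sum_add_distrib]
  apply Finset.sum_congr rfl
  intro j _
  rw [Finset.mul_sum, Finset.mul_sum, ← Finset.sum_add_distrib]
  apply Finset.sum_congr rfl
  intro i _; ring

/-- dead states -/
lemma State.Cval_dead (S : I.State) (τ : σ → ℝ) (h : ∀ i, τ i = 0 ∨ I.y i = 0) :
    S.Cval τ = S.cost := by
  rw [← S.Cval_ge]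
  unfold State.cost
  apply Finset.sum_congr rfl
  intro j _
  congr 1
  have : ∀ i, I.x i j * (min (I.d i j) (S.K j) + cc (S.u i j) (S.F i) (I.key i j) (τ i)) =
      I.x i j * S.K j := by
    intro i
    rcases h i with h1 | h1
    · rw [h1, cc_zero (I.key_nonneg i j) (S.F_nonneg i) (S.u_le i j), S.u_eq]; ring
    · have : I.x i j = 0 := le_antisymm (by rw [← h1]; exact I.x_le i j) (I.x_nonneg i j)
      rw [this]; ring
  rw [Finset.sum_congr rfl fun i _ => this i, ← Finset.sum_mul, I.x_sum j, one_mul]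

/-- clients whose only near facility has been killed pay -/
lemma State.pay (S : I.State) (τ : σ → ℝ) (h0 : ∀ i, 0 ≤ τ i) (h1 : ∀ i, τ i ≤ 1)
    (r : ι → ℝ) (hr : ∀ j, r j ≤ 0 ∨ (r j ≤ S.K j ∧
      ∀ i, r j ≤ I.d i j ∨ τ i = 0 ∨ I.x i j = 0)) :
    ∑ j, I.w j * r j ≤ S.Cval τ := by
  rw [← S.Cval_ge]
  apply Finset.sum_le_sum
  intro j _
  apply mul_le_mul_of_nonneg_left _ (I.w_nonneg j)
  have hcc : ∀ i, 0 ≤ cc (S.u i j) (S.F i) (I.key i j) (τ i) := fun i =>
    cc_nonneg (S.u_nonneg i j) (I.key_nonneg i j) (S.F_nonneg i) (S.u_le i j) (h0 i) (h1 i)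
  rcases hr j with hj | ⟨hK, hj⟩
  · refine hj.trans (Finset.sum_nonneg fun i _ => mul_nonneg (I.x_nonneg i j) ?_)
    exact add_nonneg (le_min (I.d_nonneg i j) (S.K_nonneg j)) (hcc i)
  · have : r j = ∑ i, I.x i j * r j := by rw [← Finset.sum_mul, I.x_sum j, one_mul]
    rw [this]
    apply Finset.sum_le_sum
    intro i _
    rcases hj i with h2 | h2 | h2
    · apply mul_le_mul_of_nonneg_left _ (I.x_nonneg i j)
      have := le_min h2 hK
      have := hcc i
      linarith
    · apply mul_le_mul_of_nonneg_left _ (I.x_nonneg i j)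
      rw [h2, cc_zero (I.key_nonneg i j) (S.F_nonneg i) (S.u_le i j), S.u_eq]
      linarith
    · rw [h2, zero_mul, zero_mul]

end LocInst

end Crest.Agent.KM
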