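import Crest.Agent.KM.Pot
import Crest.Agent.KM.Scal
import Crest.Agent.R310.SlackK

/-!
# The concrete potential as a `SlackK.Pot`
-/

set_option autoImplicit false

open Finset

namespace Crest.Agent.KM

namespace FracInst

variable {ι σ : Type} [Fintype ι] [Fintype σ] [DecidableEq σ] {I : FracInst ι σ}

theorem State.ext' {S T : I.State} (hK : ∀ j, S.K j = T.K j) (hF : ∀ i, S.F i = T.F i) :
    S = T := by
  obtain ⟨K, F, _, _, _⟩ := S
  obtain ⟨K', F', _, _, _⟩ := T
  have h1 : K = K' := funext hK
  have h2 : F = F' := funext hF
  subst h1; subst h2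
  rfl

/-- the state after opening a finite set of copies on top of `S` -/
noncomputable def State.opened (S : I.State) (T : Finset σ) : I.State where
  K := fun j => T.fold min (S.K j) (fun κ => I.d κ j)
  F := fun i => T.fold min (S.F i) (fun κ => I.D κ i)
  K_nonneg := fun j => by
    rw [Finset.le_fold_min]; exact ⟨S.K_nonneg j, fun κ _ => I.d_nonneg κ j⟩
  F_nonneg := fun i => by
    rw [Finset.le_fold_min]; exact ⟨S.F_nonneg i, fun κ _ => I.D_nonneg i κ⟩
  K_le := by
    intro i j
    have h : T.fold min (S.K j) (fun κ => I.d κ j) - I.d i j ≤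
        T.fold min (S.F i) (fun κ => I.D κ i) := by
      rw [Finset.le_fold_min]
      constructor
      · have h1 : T.fold min (S.K j) (fun κ => I.d κ j) ≤ S.K j := by
          rw [Finset.fold_min_le]; exact Or.inl le_rfl
        have := S.K_le i j
        linarith
      · intro κ hκ
        have h1 : T.fold min (S.K j) (fun κ => I.d κ j) ≤ I.d κ j := by
          rw [Finset.fold_min_le]; exact Or.inr ⟨κ, hκ, le_rfl⟩
        have := I.tri2 i κ j
        linarith
    linarith

lemma State.opened_empty (S : I.State) : S.opened ∅ = S :=
  State.ext' (fun j => by simp [State.opened]) (fun i => by simp [State.opened])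

lemma State.opened_insert (S : I.State) (T : Finset σ) (κ : σ) :
    S.opened (insert κ T) = (S.opened T).step κ :=
  State.ext'
    (fun j => by
      simp only [State.opened, State.step]
      rw [Finset.fold_insert_idem, min_comm])
    (fun i => by
      simp only [State.opened, State.step]
      rw [Finset.fold_insert_idem, min_comm])

lemma State.opened_K_le (S : I.State) {T : Finset σ} {κ : σ} (h : κ ∈ T) (j : ι) :
    (S.opened T).K j ≤ I.d κ j := by
  simp only [State.opened]
  rw [Finset.fold_min_le]; exact Or.inr ⟨κ, h, le_rfl⟩

lemma State.notMem_of_alive (S : I.State) {T : Finset σ} {p : ℝ} (hp : 0 ≤ p) {i : σ}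
    (h : i ∈ (S.opened T).alive p) : i ∉ T := by
  intro hi
  rw [State.mem_alive] at h
  have h0 : (S.opened T).U i = 0 := by
    unfold State.U
    apply Finset.sum_eq_zero
    intro j _
    have : (S.opened T).u i j = 0 := by
      unfold State.u
      apply max_eq_right
      have := S.opened_K_le hi j
      linarith
    rw [this, mul_zero]
  have := (S.opened T).V_nonneg hp i
  linarith

lemma two_ee : 2 * ee = 2 / Real.exp 1 := by
  unfold ee
  rw [Real.exp_neg]
  ring

/-- **The k-median potential.** `S` is the initial state (for instance nothing open, or a fixed set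
of hubs / private penalties), `G` an upper bound for `(1+2/e)` times the fractional cost. -/
noncomputable def pot (I : FracInst ι σ) (S : I.State) (G : ℝ) (hG : 0 < G)
    (hle : (1 + 2 / Real.exp 1) * ∑ j, I.w j * I.C j ≤ G) :
    Crest.Agent.R310.SlackK.Pot σ where
  R := fun a T => (S.opened T).R a
  A := fun a T => (S.opened T).alive a
  c := fun T => (S.opened T).cost
  y := fun _ => 1 / (I.M:ℝ)
  n0 := Fintype.card σ / I.M
  hn0 := by positivity
  G := G
  hG := hG
  R_nonneg := fun a T ha => (S.opened T).R_nonneg ha.le
  R_anti := by
    intro a T i ha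
    rw [S.opened_insert]
    exact (S.opened T).R_step_le r0Prop lProp ha i
  R_conc := by
    intro a b e T _ hab hbe
    have hea : 0 < e - a := by linarith
    have h := (S.opened T).R_concave a e ((e-b)/(e-a)) ((b-a)/(e-a))
      (div_nonneg (by linarith) hea.le) (div_nonneg (by linarith) hea.le)
      (by rw [← add_div, div_eq_one_iff_eq hea.ne']; ring)
    have hb : (e-b)/(e-a) * a + (b-a)/(e-a) * e = b := by
      field_simp; ring
    rw [hb] at h
    have h2 := mul_le_mul_of_nonneg_left h hea.le
    have h3 : (e - a) * ((e-b)/(e-a) * (S.opened T).R a + (b-a)/(e-a) * (S.opened T).R e) =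
        (e-b) * (S.opened T).R a + (b-a) * (S.opened T).R e := by
      field_simp
    rw [h3] at h2
    linarith
  y_pos := fun a T _ i _ => by have := I.M_pos'; positivity
  A_out := fun a T ha i hi => S.notMem_of_alive ha.le hi
  mixed := by
    intro a b T ha hab
    have h := (S.opened T).star r0Prop lProp hab (lt_of_lt_of_le ha hab)
    have hM := I.M_pos'
    have h1 : ∑ i ∈ (S.opened T).alive a, 1 / (I.M:ℝ) *
        (b + (S.opened (insert i T)).R b - (S.opened T).R b) =
        1 / (I.M:ℝ) * ∑ i ∈ (S.opened T).alive a,
          (b + ((S.opened T).step i).R b - (S.opened T).R b) := by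
      rw [Finset.mul_sum]
      apply Finset.sum_congr rfl
      intro i _
      rw [S.opened_insert]
    rw [h1, Finset.sum_const, nsmul_eq_mul]
    have h2 := mul_le_mul_of_nonneg_left h (show 0 ≤ 1 / (I.M:ℝ) by positivity)
    refine h2.trans (le_of_eq ?_)
    ring
  final := by
    intro a b T _ hab h
    apply (S.opened T).R_dead
    apply Finset.subset_empty.mp
    rw [← h]
    exact (S.opened T).alive_anti hab
  start := by
    intro a _
    rw [S.opened_empty]
    have h := S.R_le a
    rw [two_ee] at h
    linarith

end FracInst

end Crest.Agent.KM
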