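import Crest.Agent.KM.Loc

/-!
# The state-`τ` run: exact number of centres

A run of lowerings / kills / openings of the facility-level potential (`KM/Loc.lean`) with the
quadratic penalty `Pi`. Clocks `t i ∈ {0..J}`; rigid facilities (`R`) only have clocks `0, J`.
-/

set_option autoImplicit false

open Finset

namespace Crest.Agent.KM

namespace LocInst

variable {ι σ : Type} [Fintype ι] [Fintype σ] [DecidableEq σ] {I : LocInst ι σ}

theorem State.ext' {S T : I.State} (hK : ∀ j, S.K j = T.K j) (hF : ∀ i, S.F i = T.F i) :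
    S = T := by
  obtain ⟨K, F, _, _, _⟩ := S
  obtain ⟨K', F', _, _, _⟩ := T
  have h1 : K = K' := funext hK
  have h2 : F = F' := funext hF
  subst h1; subst h2
  rfl

/-- the state after opening a finite set of facilities on top of `S` -/
noncomputable def State.opened (S : I.State) (T : Finset σ) : I.State where
  K := fun j => T.fold min (S.K j) (fun κ => I.d κ j)
  F := fun i => T.fold min (S.F i) (fun κ => I.D κ i)
  K_nonneg := fun j => by
    rw [Finset.le_fold_min]; exact ⟨S.K_nonneg j, fun κ _ => I.d_nonneg κ j⟩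
  F_nonneg := fun i => by
    rw [Finset.le_fold_min]; exact ⟨S.F_nonneg i, fun κ _ => I.D_nonneg i κ⟩
  K_le := by
    intro i j
    have h : T.fold min (S.K j) (fun κ => I.d κ j) - I.d i j ≤
        T.fold min (S.F i) (fun κ => I.D κ i) := by
      rw [Finset.le_fold_min]
      constructor
      · have h1 : T.fold min (S.K j) (fun κ => I.d κ j) ≤ S.K j := by
          rw [Finset.fold_min_le]; exact Or.inl le_rfl
        have := S.K_le i j
        linarith
      · intro κ hκ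
        have h1 : T.fold min (S.K j) (fun κ => I.d κ j) ≤ I.d κ j := by
          rw [Finset.fold_min_le]; exact Or.inr ⟨κ, hκ, le_rfl⟩
        have := I.tri2 i κ j
        linarith
    linarith

lemma State.opened_empty (S : I.State) : S.opened ∅ = S :=
  State.ext' (fun j => by simp [State.opened]) (fun i => by simp [State.opened])

lemma State.opened_insert (S : I.State) (T : Finset σ) (κ : σ) :
    S.opened (insert κ T) = (S.opened T).step κ :=
  State.ext'
    (fun j => by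
      simp only [State.opened, State.step]
      rw [Finset.fold_insert_idem, min_comm])
    (fun i => by
      simp only [State.opened, State.step]
      rw [Finset.fold_insert_idem, min_comm])

/-- Data of a run. -/
structure RunData (I : LocInst ι σ) where
  S0 : I.State
  R : Finset σ
  J : ℕ
  J_pos : 0 < J
  P : ℝ
  n0 : ℝ
  BL : ℝ
  chi : ℝ
  om : ℝ
  Gt : Finset σ → σ → ℕ → ℝ
  err : σ → ℝ
  Gt_err : ∀ T i l, l ≤ J → |Gt T i l - (S0.opened T).G i ((l:ℝ)/J)| ≤ err i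

namespace RunData

variable (Q : RunData I)

noncomputable def mass (T : Finset σ) (t : σ → ℕ) : ℝ :=
  (T.card : ℝ) + ∑ i, I.y i * ((t i : ℝ) / Q.J)

noncomputable def lamOf (N : ℝ) : ℝ := Q.P * max (N - Q.n0) 0

noncomputable def Pi (N : ℝ) : ℝ := Q.P / 2 * (max (N - Q.n0) 0)^2

/-- exact client part -/
noncomputable def Cv (T : Finset σ) (t : σ → ℕ) : ℝ :=
  (Q.S0.opened T).Cval (fun i => (t i : ℝ) / Q.J)

/-- evaluated client part -/
noncomputable def Ct (T : Finset σ) (t : σ → ℕ) : ℝ :=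
  (Q.S0.opened T).base + ∑ i, Q.Gt T i (t i)

noncomputable def Psi (T : Finset σ) (t : σ → ℕ) : ℝ := Q.Pi (Q.mass T t) + Q.Cv T t

/-- evaluated star value at price `lam` -/
noncomputable def W (T : Finset σ) (lam : ℝ) (i : σ) (l : ℕ) : ℝ :=
  lam * I.y i * ((l : ℝ) / Q.J) + Q.Gt T i l

/-- `b` is an admissible outcome of the minimisation of `W` over `0..l` -/
structure BestOK (T : Finset σ) (lam : ℝ) (i : σ) (l b : ℕ) : Prop where
  le : b ≤ l
  keep : b = l → ∀ l' ≤ l, Q.W T lam i l ≤ Q.W T lam i l'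
  low : b < l → i ∉ Q.R → ∀ l' ≤ l, Q.W T lam i b ≤ Q.W T lam i l'
  kill : b < l → i ∈ Q.R → b = 0 ∧ ∃ l' < l, Q.W T lam i l' ≤ Q.W T lam i l

/-- dropped mass apart from `κ` -/
noncomputable def drop (κ : σ) (t t' : σ → ℕ) : ℝ :=
  ∑ i ∈ Finset.univ.erase κ, I.y i * (((t i : ℝ) - t' i) / Q.J)

/-- kills apart from `κ` -/
noncomputable def kills (κ : σ) (t t' : σ → ℕ) : Finset σ :=
  (Finset.univ.erase κ).filter fun i => i ∈ Q.R ∧ t' i < t i

noncomputable def charge (κ : σ) (t t' : σ → ℕ) : ℝ :=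
  Q.P / 2 * (1 - I.y κ * ((t κ : ℝ) / Q.J)) + Q.BL * Q.drop κ t t'
    + Q.chi * (Q.kills κ t t').card

/-- evaluated criterion of an opening -/
noncomputable def crit (T : Finset σ) (κ : σ) (t t' : σ → ℕ) : ℝ :=
  Q.Pi (Q.mass (insert κ T) t') + Q.Ct (insert κ T) t' - Q.charge κ t t'

/-- outcome of a sweep after the opening of `κ` (`T` is the new set) -/
structure Sweep (T : Finset σ) (lam : ℝ) (κ : σ) (t t' : σ → ℕ) : Prop where
  self : t' κ = 0
  best : ∀ i, i ≠ κ → Q.BestOK T lam i (t i) (t' i) ∨ t' i = t i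
  dich : (∀ i, i ≠ κ → Q.BestOK T lam i (t i) (t' i)) ∨ Q.om ≤ Q.drop κ t t'
  drop_le : Q.drop κ t t' ≤ Q.om + 1

/-- one step of the run -/
inductive Step : Finset σ × (σ → ℕ) → Finset σ × (σ → ℕ) → Prop
  | lower (T : Finset σ) (t : σ → ℕ) (i : σ) (b : ℕ)
      (hb : Q.BestOK T (Q.lamOf (Q.mass T t)) i (t i) b) (hlt : b < t i) :
      Step (T, t) (T, Function.update t i b)
  | opn (T : Finset σ) (t : σ → ℕ) (κ : σ) (sw : σ → σ → ℕ)
      (hκ : 0 < t κ ∧ 0 < I.y κ)
      (hbest : ∀ i, 0 < t i → 0 < I.y i →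
        Q.BestOK T (Q.lamOf (Q.mass T t)) i (t i) (t i))
      (hsw : ∀ κ', 0 < t κ' → 0 < I.y κ' →
        Q.Sweep (insert κ' T) (Q.lamOf (Q.mass T t)) κ' t (sw κ'))
      (hmin : ∀ κ', 0 < t κ' → 0 < I.y κ' → Q.crit T κ t (sw κ) ≤ Q.crit T κ' t (sw κ')) :
      Step (T, t) (insert κ T, sw κ)

/-! ### Comparison lemmas -/

variable {Q}

lemma J_pos' : (0:ℝ) < Q.J := by exact_mod_cast Q.J_pos

lemma clock_le {l : ℕ} (h : l ≤ Q.J) : (l:ℝ)/Q.J ≤ 1 := by
  rw [div_le_one Q.J_pos']; exact_mod_cast h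

lemma clock_nonneg (l : ℕ) : (0:ℝ) ≤ (l:ℝ)/Q.J := by positivity

lemma err_nonneg (i : σ) : 0 ≤ Q.err i :=
  (abs_nonneg _).trans (Q.Gt_err ∅ i 0 (Nat.zero_le _))

/-- kept or non-rigid stars -/
lemma best_cmp {T : Finset σ} {lam : ℝ} {i : σ} {l b : ℕ} (hlam : 0 ≤ lam) (hl : l ≤ Q.J)
    (h : Q.BestOK T lam i l b) (hc : b = l ∨ i ∉ Q.R) {θ : ℝ} (h0 : 0 ≤ θ)
    (hθ : θ ≤ (l:ℝ)/Q.J) :
    lam * I.y i * ((b:ℝ)/Q.J) + (Q.S0.opened T).G i ((b:ℝ)/Q.J) ≤
      lam * I.y i * θ + (Q.S0.opened T).G i θ + (lam * I.y i / Q.J + 2 * Q.err i) := by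
  have hJ := Q.J_pos'
  set l' := ⌈(Q.J:ℝ) * θ⌉₊ with hl'
  have hJθ : 0 ≤ (Q.J:ℝ) * θ := mul_nonneg hJ.le h0
  have h1 : l' ≤ l := by
    apply Nat.ceil_le.mpr
    rw [le_div_iff₀ hJ] at hθ
    linarith
  have h2 : θ ≤ (l':ℝ)/Q.J := by
    rw [le_div_iff₀ hJ]
    have := Nat.le_ceil ((Q.J:ℝ) * θ)
    linarith
  have h3 : (l':ℝ)/Q.J ≤ θ + 1/Q.J := by
    rw [div_le_iff₀ hJ]
    have := Nat.ceil_lt_add_one hJθ
    have h4 : (θ + 1/(Q.J:ℝ)) * Q.J = Q.J * θ + 1 := by field_simp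
    rw [h4]; exact this.le
  have hW : Q.W T lam i b ≤ Q.W T lam i l' := by
    rcases Nat.lt_or_ge b l with hbl | hbl
    · rcases hc with hc | hc
      · exact absurd hc (ne_of_lt hbl)
      · exact h.low hbl hc l' h1
    · have hbl' : b = l := le_antisymm h.le hbl
      rw [hbl']; exact h.keep hbl' l' h1
  have hb : b ≤ Q.J := h.le.trans hl
  have e1 := abs_le.mp (Q.Gt_err T i b hb)
  have e2 := abs_le.mp (Q.Gt_err T i l' (h1.trans hl))
  unfold W at hW
  have h5 : (Q.S0.opened T).G i ((l':ℝ)/Q.J) ≤ (Q.S0.opened T).G i θ := State.G_anti _ i h2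
  have h6 : lam * I.y i * ((l':ℝ)/Q.J) ≤ lam * I.y i * (θ + 1/Q.J) :=
    mul_le_mul_of_nonneg_left h3 (mul_nonneg hlam (I.y_nonneg i))
  have h7 : lam * I.y i * (θ + 1/(Q.J:ℝ)) = lam * I.y i * θ + lam * I.y i / Q.J := by ring
  linarith [e1.1, e2.2]

/-- slope bound of a killed star -/
lemma kill_slope {T : Finset σ} {lam : ℝ} {i : σ} {b : ℕ}
    (h : Q.BestOK T lam i Q.J b) (hb : b < Q.J) (hi : i ∈ Q.R) :
    (Q.S0.opened T).slope i 1 ≤ lam * I.y i + 2 * Q.err i * Q.J := by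
  have hJ := Q.J_pos'
  obtain ⟨-, l', hl', hW⟩ := h.kill hb hi
  have e1 := abs_le.mp (Q.Gt_err T i l' hl'.le)
  have e2 := abs_le.mp (Q.Gt_err T i Q.J le_rfl)
  unfold W at hW
  rw [div_self hJ.ne'] at hW e2
  have h1 := (Q.S0.opened T).G_sub i ((l':ℝ)/Q.J) 1
  have h2 : (0:ℝ) < 1 - (l':ℝ)/Q.J := by
    have : (l':ℝ)/Q.J < 1 := by rw [div_lt_one hJ]; exact_mod_cast hl'
    linarith
  have h3 : 1/(Q.J:ℝ) ≤ 1 - (l':ℝ)/Q.J := by
    rw [div_le_iff₀ hJ]
    have h4 : (1 - (l':ℝ)/Q.J) * Q.J = Q.J - l' := by field_simp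
    rw [h4]
    have : (l':ℝ) + 1 ≤ Q.J := by exact_mod_cast hl'
    linarith
  set x : ℝ := 1 - (l':ℝ)/Q.J with hx
  have h5 : x * (Q.S0.opened T).slope i 1 ≤ x * (lam * I.y i) + 2 * Q.err i := by
    have : lam * I.y i * ((l':ℝ)/Q.J) = lam * I.y i - x * (lam * I.y i) := by rw [hx]; ring
    rw [this] at hW
    linarith [e1.2, e2.1]
  have h6 : 1 ≤ x * Q.J := by
    rw [div_le_iff₀ hJ] at h3; exact h3
  have he := err_nonneg (Q := Q) i
  have h7 : x * (Q.S0.opened T).slope i 1 ≤ x * (lam * I.y i + 2 * Q.err i * Q.J) := by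
    have : 2 * Q.err i ≤ 2 * Q.err i * (x * Q.J) := by nlinarith
    calc _ ≤ x * (lam * I.y i) + 2 * Q.err i := h5
      _ ≤ x * (lam * I.y i) + 2 * Q.err i * (x * Q.J) := by linarith
      _ = _ := by ring
  exact le_of_mul_le_mul_left h7 h2

/-- killed rigid stars -/
lemma kill_cmp {T : Finset σ} {lam : ℝ} {i : σ} {b : ℕ}
    (h : Q.BestOK T lam i Q.J b) (hb : b < Q.J) (hi : i ∈ Q.R)
    {θ : ℝ} (h0 : 0 ≤ θ) (hθ : θ ≤ 1) (hchi : 2 * Q.err i * Q.J + I.dl i ≤ Q.chi) :
    (Q.S0.opened T).G i 0 ≤ lam * I.y i * θ + (Q.S0.opened T).G i θ + Q.chi := by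
  have h1 := kill_slope h hb hi
  have h2 := (Q.S0.opened T).G_sub i θ 0
  have h3 := (Q.S0.opened T).slope_lip i (t := 0) (t' := 1) le_rfl zero_le_one
  have he := err_nonneg (Q := Q) i
  have hd : 0 ≤ I.dl i := I.dl_nonneg i
  have hJ := Q.J_pos'
  have h4 : (Q.S0.opened T).slope i 0 ≤ lam * I.y i + Q.chi := by linarith
  have h5 := mul_le_mul_of_nonneg_left h4 h0
  have h6 : θ * Q.chi ≤ 1 * Q.chi := mul_le_mul_of_nonneg_right hθ (by
    have : 0 ≤ 2 * Q.err i * Q.J := by positivity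
    linarith)
  linarith

/-- alive stars at the end of the lowering phase have almost enough slope -/
lemma keep_slope {T : Finset σ} {lam : ℝ} {i : σ} {l : ℕ} (hl : l ≤ Q.J) (hl0 : 0 < l)
    (h : Q.BestOK T lam i l l) :
    lam * I.y i ≤ (Q.S0.opened T).slope i ((l:ℝ)/Q.J) + (2 * Q.err i * Q.J + I.dl i / Q.J) := by
  have hJ := Q.J_pos'
  obtain ⟨m, rfl⟩ : ∃ m, l = m + 1 := ⟨l - 1, by omega⟩
  have hW := h.keep rfl m (Nat.le_succ m)
  have e1 := abs_le.mp (Q.Gt_err T i m (by omega))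
  have e2 := abs_le.mp (Q.Gt_err T i (m+1) hl)
  unfold W at hW
  have hm : ((m+1:ℕ):ℝ)/Q.J = (m:ℝ)/Q.J + 1/Q.J := by push_cast; ring
  have h1 := (Q.S0.opened T).G_sub i (((m+1:ℕ):ℝ)/Q.J) ((m:ℝ)/Q.J)
  have h2 := (Q.S0.opened T).slope_lip i (t := (m:ℝ)/Q.J) (t' := ((m+1:ℕ):ℝ)/Q.J)
    (clock_nonneg m) (by rw [hm]; have : (0:ℝ) ≤ 1/Q.J := by positivity
                         linarith)
  have h3 : ((m:ℝ)/Q.J - ((m+1:ℕ):ℝ)/Q.J) = -(1/Q.J) := by rw [hm]; ring
  rw [h3] at h1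
  have h4 : (((m+1:ℕ):ℝ)/Q.J - (m:ℝ)/Q.J) = 1/Q.J := by rw [hm]; ring
  rw [h4] at h2
  have h5 : lam * I.y i * (((m+1:ℕ):ℝ)/Q.J) - lam * I.y i * ((m:ℝ)/Q.J)
      = (1/Q.J) * (lam * I.y i) := by rw [hm]; ring
  have h6 : (1/(Q.J:ℝ)) * (lam * I.y i) ≤
      (1/(Q.J:ℝ)) * (Q.S0.opened T).slope i ((m:ℝ)/Q.J) + 2 * Q.err i := by
    linarith [e1.2, e2.1, e1.1, e2.2]
  have h7 := mul_le_mul_of_nonneg_left h6 hJ.le
  have h8 : (Q.J:ℝ) * ((1/(Q.J:ℝ)) * (lam * I.y i)) = lam * I.y i := by field_simp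
  have h9 : (Q.J:ℝ) * ((1/(Q.J:ℝ)) * (Q.S0.opened T).slope i ((m:ℝ)/Q.J) + 2 * Q.err i) =
      (Q.S0.opened T).slope i ((m:ℝ)/Q.J) + 2 * Q.err i * Q.J := by field_simp
  rw [h8, h9] at h7
  have h10 : 1/(Q.J:ℝ) * I.dl i = I.dl i / Q.J := by ring
  rw [h10] at h2
  linarith

/-- second order expansion of the penalty -/
lemma Pi_quad (hP : 0 ≤ Q.P) (N Δ : ℝ) :
    Q.Pi (N + Δ) ≤ Q.Pi N + Q.lamOf N * Δ + Q.P / 2 * Δ^2 := by
  unfold Pi lamOf
  have key : (max (N + Δ - Q.n0) 0)^2 ≤ (max (N - Q.n0) 0)^2 + 2 * max (N - Q.n0) 0 * Δ + Δ^2 := by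
    set m := max (N - Q.n0) 0 with hm
    rcases le_total (N + Δ - Q.n0) 0 with h | h
    · rw [max_eq_right h]
      nlinarith [sq_nonneg (m + Δ)]
    · rw [max_eq_left h]
      rcases le_total (N - Q.n0) 0 with h2 | h2
      · rw [hm, max_eq_right h2]
        nlinarith
      · rw [hm, max_eq_left h2]
        nlinarith
  have := mul_le_mul_of_nonneg_left key (show 0 ≤ Q.P/2 by linarith)
  nlinarith

lemma lamOf_nonneg (hP : 0 ≤ Q.P) (N : ℝ) : 0 ≤ Q.lamOf N :=
  mul_nonneg hP (le_max_right _ _)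

lemma lamOf_le (hP : 0 ≤ Q.P) {N k : ℝ} (hN : N ≤ k) (hk : Q.n0 ≤ k) :
    Q.lamOf N ≤ Q.P * (k - Q.n0) :=
  mul_le_mul_of_nonneg_left (max_le (by linarith) (by linarith)) hP

/-- comparison of a star after a sweep with any smaller time -/
lemma star_cmp {T : Finset σ} {lam : ℝ} {i : σ} {l b : ℕ} (hlam : 0 ≤ lam) (hl : l ≤ Q.J)
    (hR : i ∈ Q.R → l = 0 ∨ l = Q.J)
    (h : Q.BestOK T lam i l b) {θ : ℝ} (h0 : 0 ≤ θ) (hθ : θ ≤ (l:ℝ)/Q.J)
    (hchi : i ∈ Q.R → 2 * Q.err i * Q.J + I.dl i ≤ Q.chi) :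
    lam * I.y i * ((b:ℝ)/Q.J) + (Q.S0.opened T).G i ((b:ℝ)/Q.J) ≤
      lam * I.y i * θ + (Q.S0.opened T).G i θ + (lam * I.y i / Q.J + 2 * Q.err i)
        + (if i ∈ Q.R ∧ b < l then Q.chi else 0) := by
  by_cases hc : i ∈ Q.R ∧ b < l
  · rw [if_pos hc]
    have hlJ : l = Q.J := by
      rcases hR hc.1 with h1 | h1
      · omega
      · exact h1
    subst hlJ
    have hb0 := (h.kill hc.2 hc.1).1
    have hJ := Q.J_pos'
    rw [div_self hJ.ne'] at hθ
    have := kill_cmp h hc.2 hc.1 h0 hθ (hchi hc.1)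
    rw [hb0]
    simp only [Nat.cast_zero, zero_div, mul_zero, zero_add]
    have e1 : 0 ≤ lam * I.y i / Q.J := div_nonneg (mul_nonneg hlam (I.y_nonneg i)) hJ.le
    have e2 := err_nonneg (Q := Q) i
    linarith
  · rw [if_neg hc, add_zero]
    apply best_cmp hlam hl h _ h0 hθ
    by_cases hi : i ∈ Q.R
    · left
      have : ¬ b < l := fun hb => hc ⟨hi, hb⟩
      exact le_antisymm h.le (not_lt.mp this)
    · exact Or.inr hi

/-- mass after an opening -/
lemma mass_insert {T : Finset σ} {κ : σ} (hκ : κ ∉ T) {t t' : σ → ℕ} (h : t' κ = 0) :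
    Q.mass (insert κ T) t' = Q.mass T t + ((1 - I.y κ * ((t κ : ℝ) / Q.J)) - Q.drop κ t t') := by
  unfold mass drop
  rw [Finset.card_insert_of_notMem hκ, ← Finset.add_sum_erase _ _ (Finset.mem_univ κ),
    ← Finset.add_sum_erase (a := κ) Finset.univ (fun i => I.y i * ((t i : ℝ) / Q.J))
      (Finset.mem_univ κ), h]
  have : ∑ i ∈ Finset.univ.erase κ, I.y i * (((t i : ℝ) - t' i) / Q.J) =
      (∑ i ∈ Finset.univ.erase κ, I.y i * ((t i : ℝ) / Q.J)) -
      ∑ i ∈ Finset.univ.erase κ, I.y i * ((t' i : ℝ) / Q.J) := by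
    rw [← Finset.sum_sub_distrib]
    apply Finset.sum_congr rfl
    intro i _; ring
  rw [this]
  push_cast
  ring

/-- first order inequality of a sweep against any times `θ` -/
lemma sweep_phi {T : Finset σ} {κ : σ} {lam : ℝ} {t t' : σ → ℕ} (hlam : 0 ≤ lam)
    (htJ : ∀ i, t i ≤ Q.J) (hR : ∀ i ∈ Q.R, t i = 0 ∨ t i = Q.J)
    (hchi : ∀ i ∈ Q.R, 2 * Q.err i * Q.J + I.dl i ≤ Q.chi)
    (hs : t' κ = 0) {θ : σ → ℝ} (h0 : ∀ i, 0 ≤ θ i) (h1 : ∀ i, θ i ≤ (t i:ℝ)/Q.J)
    (hκ : θ κ = 0)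
    (hb : ∀ i, i ≠ κ → Q.BestOK (insert κ T) lam i (t i) (t' i) ∨
      (t' i = t i ∧ θ i = (t i:ℝ)/Q.J)) :
    lam * (∑ i, I.y i * (((t' i:ℝ)/Q.J) - (t i:ℝ)/Q.J)) + Q.Cv (insert κ T) t' ≤
      lam * (∑ i, I.y i * (θ i - (t i:ℝ)/Q.J)) + ((Q.S0.opened T).step κ).Cval θ
        + (lam * (∑ i, I.y i) / Q.J + 2 * ∑ i, Q.err i) + Q.chi * (Q.kills κ t t').card := by
  have hJ := Q.J_pos'
  unfold Cv State.Cval
  rw [State.opened_insert]
  have hstar : ∀ i, lam * I.y i * ((t' i:ℝ)/Q.J) + ((Q.S0.opened T).step κ).G i ((t' i:ℝ)/Q.J) ≤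
      lam * I.y i * θ i + ((Q.S0.opened T).step κ).G i (θ i) +
        (lam * I.y i / Q.J + 2 * Q.err i) + (if i ∈ Q.kills κ t t' then Q.chi else 0) := by
    intro i
    have e1 : 0 ≤ lam * I.y i / Q.J := div_nonneg (mul_nonneg hlam (I.y_nonneg i)) hJ.le
    have e2 := err_nonneg (Q := Q) i
    by_cases hi : i = κ
    · subst hi
      have hk : i ∉ Q.kills i t t' := by unfold kills; simp
      rw [if_neg hk, hs, hκ]
      simp only [Nat.cast_zero, zero_div]
      linarith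
    · have hk : (i ∈ Q.kills κ t t') ↔ (i ∈ Q.R ∧ t' i < t i) := by
        unfold kills; simp [hi]
      rcases hb i hi with h | ⟨h, h'⟩
      · have := star_cmp hlam (htJ i) (hR i) h (h0 i) (h1 i) (hchi i)
        rw [State.opened_insert] at this
        simp only [hk]
        exact this
      · have hk' : i ∉ Q.kills κ t t' := by rw [hk]; rintro ⟨-, h2⟩; omega
        rw [if_neg hk', h, h']
        linarith
  have hsum := Finset.sum_le_sum fun i (_ : i ∈ Finset.univ) => hstar i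
  simp only [Finset.sum_add_distrib] at hsum
  have k1 : ∑ i, (if i ∈ Q.kills κ t t' then Q.chi else 0) = Q.chi * (Q.kills κ t t').card := by
    rw [← Finset.sum_filter, Finset.filter_mem_eq_inter, Finset.univ_inter, Finset.sum_const,
      nsmul_eq_mul]; ring
  have k2 : ∑ i, lam * I.y i / Q.J = lam * (∑ i, I.y i) / Q.J := by
    rw [← Finset.sum_div, ← Finset.mul_sum]
  have k3 : ∑ i, 2 * Q.err i = 2 * ∑ i, Q.err i := by rw [Finset.mul_sum]
  have k4 : ∑ i, lam * I.y i * ((t' i:ℝ)/Q.J) = lam * ∑ i, I.y i * ((t' i:ℝ)/Q.J) := by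
    rw [Finset.mul_sum]; apply Finset.sum_congr rfl; intro i _; ring
  have k5 : ∑ i, lam * I.y i * θ i = lam * ∑ i, I.y i * θ i := by
    rw [Finset.mul_sum]; apply Finset.sum_congr rfl; intro i _; ring
  rw [k1, k2, k3, k4, k5] at hsum
  have k6 : ∑ i, I.y i * (((t' i:ℝ)/Q.J) - (t i:ℝ)/Q.J) =
      (∑ i, I.y i * ((t' i:ℝ)/Q.J)) - ∑ i, I.y i * ((t i:ℝ)/Q.J) := by
    rw [← Finset.sum_sub_distrib]; apply Finset.sum_congr rfl; intro i _; ring
  have k7 : ∑ i, I.y i * (θ i - (t i:ℝ)/Q.J) =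
      (∑ i, I.y i * θ i) - ∑ i, I.y i * ((t i:ℝ)/Q.J) := by
    rw [← Finset.sum_sub_distrib]; apply Finset.sum_congr rfl; intro i _; ring
  rw [k6, k7]
  linarith

lemma Ct_err (T : Finset σ) (t : σ → ℕ) (ht : ∀ i, t i ≤ Q.J) :
    |Q.Ct T t - Q.Cv T t| ≤ ∑ i, Q.err i := by
  unfold Ct Cv State.Cval
  have : (Q.S0.opened T).base + ∑ i, Q.Gt T i (t i) -
      ((Q.S0.opened T).base + ∑ i, (Q.S0.opened T).G i ((t i:ℝ)/Q.J)) =
      ∑ i, (Q.Gt T i (t i) - (Q.S0.opened T).G i ((t i:ℝ)/Q.J)) := by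
    rw [Finset.sum_sub_distrib]; ring
  rw [this]
  exact (Finset.abs_sum_le_sum_abs _ _).trans
    (Finset.sum_le_sum fun i _ => Q.Gt_err T i (t i) (ht i))

/-- numeric hypotheses of the run -/
structure Good (Q : RunData I) (k G eps cb Z Y q0 y0 tol : ℝ) : Prop where
  y_le : ∀ i, I.y i ≤ 1
  y0_pos : 0 < y0
  y0_le : ∀ i, 0 < I.y i → y0 ≤ I.y i
  P_pos : 0 < Q.P
  n0_lt : Q.n0 < k
  n0_ge : ∑ i, I.y i ≤ Q.n0
  om_pos : 0 < Q.om
  BL_ge : Q.P * (k - Q.n0) / Q.om + Q.P / 2 * (Q.om + 1) ≤ Q.BL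
  chi_nonneg : 0 ≤ Q.chi
  chi_ge : ∀ i ∈ Q.R, 2 * Q.err i * Q.J + I.dl i ≤ Q.chi
  tol_ge : 4 * ∑ i, Q.err i + Q.P * (k - Q.n0) * (∑ i, I.y i) / Q.J +
    (∑ i, (2 * Q.err i * Q.J + I.dl i / Q.J)) / y0 ≤ tol
  pay : ∀ (T : Finset σ) (t : σ → ℕ), (∀ i, t i ≤ Q.J) → (∀ i ∈ T, 0 < I.y i) →
    cb * ((Q.R \ T).filter fun i => t i = 0).card ≤ Q.Cv T t
  cb_pos : 0 < cb
  Z_ge : ∑ i ∈ Q.R, (1 - I.y i) ≤ Z
  Y_ge : ∑ i ∈ Q.Rᶜ, I.y i ≤ Y
  q_ge : k - Q.R.card ≤ q0
  G_pos : 0 < G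
  G_ge : (1 + 2 * ee) * ∑ j, I.w j * I.C j ≤ G
  eps_pos : 0 < eps
  eps_le : eps ≤ 1/4
  hA : Q.P / 2 * (2 * Z + q0 + 1) + Q.BL * Y + 2 * Q.J * ∑ i, Q.err i + tol * (k + 1) ≤ eps * G
  hB : Q.P / 2 + Q.BL + Q.chi ≤ eps * cb
  hP : 2 * G ≤ Q.P / 2 * (k - Q.n0)^2

variable {k G eps cb Z Y q0 y0 tol : ℝ}

lemma Good.BL_ge' (h : Q.Good k G eps cb Z Y q0 y0 tol) : Q.P / 2 * (Q.om + 1) ≤ Q.BL := by
  have h1 := h.BL_ge
  have h2 : 0 ≤ Q.P * (k - Q.n0) / Q.om :=
    div_nonneg (mul_nonneg h.P_pos.le (by have := h.n0_lt; linarith)) h.om_pos.le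
  linarith

lemma Good.BL_pos (h : Q.Good k G eps cb Z Y q0 y0 tol) : 0 < Q.BL := by
  have h1 := h.BL_ge'
  have h2 : 0 < Q.P / 2 * (Q.om + 1) := mul_pos (by have := h.P_pos; linarith)
    (by have := h.om_pos; linarith)
  linarith

lemma drop_nonneg {κ : σ} {t t' : σ → ℕ} (hle : ∀ i, t' i ≤ t i) : 0 ≤ Q.drop κ t t' := by
  apply Finset.sum_nonneg
  intro i _
  apply mul_nonneg (I.y_nonneg i)
  apply div_nonneg _ Q.J_pos'.le
  have : (t' i:ℝ) ≤ t i := by exact_mod_cast hle i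
  linarith

/-- **progress**: the best opening is good -/
lemma open_good (h : Q.Good k G eps cb Z Y q0 y0 tol) {T : Finset σ} {t : σ → ℕ}
    (htJ : ∀ i, t i ≤ Q.J) (hR : ∀ i ∈ Q.R, t i = 0 ∨ t i = Q.J) (hT : ∀ i ∈ T, t i = 0)
    (hN : Q.mass T t ≤ k)
    {κ : σ} {sw : σ → σ → ℕ} (hκ : 0 < t κ ∧ 0 < I.y κ)
    (hbest : ∀ i, 0 < t i → 0 < I.y i → Q.BestOK T (Q.lamOf (Q.mass T t)) i (t i) (t i))
    (hsw : ∀ κ', 0 < t κ' → 0 < I.y κ' →
        Q.Sweep (insert κ' T) (Q.lamOf (Q.mass T t)) κ' t (sw κ'))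
    (hmin : ∀ κ', 0 < t κ' → 0 < I.y κ' → Q.crit T κ t (sw κ) ≤ Q.crit T κ' t (sw κ')) :
    Q.Psi (insert κ T) (sw κ) ≤ Q.Psi T t + Q.charge κ t (sw κ) + tol := by
  have hJ := Q.J_pos'
  set lam := Q.lamOf (Q.mass T t) with hlamdef
  have hlam0 : 0 ≤ lam := lamOf_nonneg h.P_pos.le _
  have hlamle : lam ≤ Q.P * (k - Q.n0) := lamOf_le h.P_pos.le hN h.n0_lt.le
  have herr : ∀ i, 0 ≤ Q.err i := fun i => err_nonneg i
  have herrS : 0 ≤ ∑ i, Q.err i := Finset.sum_nonneg fun i _ => herr i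
  have hyS : 0 ≤ ∑ i, I.y i := Finset.sum_nonneg fun i _ => I.y_nonneg i
  have hle : ∀ κ', 0 < t κ' → 0 < I.y κ' → ∀ i, sw κ' i ≤ t i := by
    intro κ' h1 h2 i
    by_cases hi : i = κ'
    · subst hi; rw [(hsw i h1 h2).self]; exact Nat.zero_le _
    · rcases (hsw κ' h1 h2).best i hi with h3 | h3
      · exact h3.le
      · exact h3.le
  -- the good opening
  obtain ⟨κ', hκ1, hκ2, θ, hθ, hθκ, hdesc⟩ := (Q.S0.opened T).descent hlam0
    (fun i => (t i:ℝ)/Q.J) (fun i => 2 * Q.err i * Q.J + I.dl i / Q.J)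
    (fun i => clock_nonneg _) (fun i => clock_le (htJ i))
    (fun i => add_nonneg (mul_nonneg (mul_nonneg (by norm_num) (herr i)) hJ.le)
      (div_nonneg (I.dl_nonneg i) hJ.le))
    (fun i hi hy => by
      have hi' : 0 < t i := by
        rcases Nat.eq_zero_or_pos (t i) with h0 | h0
        · rw [h0] at hi; simp at hi
        · exact h0
      exact keep_slope (htJ i) hi' (hbest i hi' hy))
    h.y0_pos h.y0_le ⟨κ, by
      have : (0:ℝ) < t κ := by exact_mod_cast hκ.1
      positivity, hκ.2⟩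
  have hκ1' : 0 < t κ' := by
    rcases Nat.eq_zero_or_pos (t κ') with h0 | h0
    · rw [h0] at hκ1; simp at hκ1
    · exact h0
  have hS := hsw κ' hκ1' hκ2
  have hle' := hle κ' hκ1' hκ2
  have hκT : κ' ∉ T := fun hc => by have := hT κ' hc; omega
  set t' := sw κ' with ht'
  set a : ℝ := 1 - I.y κ' * ((t κ':ℝ)/Q.J) with ha
  set L : ℝ := Q.drop κ' t t' with hL
  have hL0 : 0 ≤ L := drop_nonneg hle'
  have hclk := clock_le (Q := Q) (htJ κ')
  have hclk0 := clock_nonneg (Q := Q) (t κ')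
  have ha0 : 0 ≤ a := by
    have := mul_le_one₀ (h.y_le κ') hclk0 hclk
    rw [ha]; linarith
  have ha1 : a ≤ 1 := by
    have := mul_nonneg (I.y_nonneg κ') hclk0
    rw [ha]; linarith
  have hSη : 0 ≤ (∑ i, (2 * Q.err i * Q.J + I.dl i / Q.J)) / y0 :=
    div_nonneg (Finset.sum_nonneg fun i _ => add_nonneg
      (mul_nonneg (mul_nonneg (by norm_num) (herr i)) hJ.le)
      (div_nonneg (I.dl_nonneg i) hJ.le)) h.y0_pos.le
  -- first order part: two cases
  have hmass : Q.mass (insert κ' T) t' = Q.mass T t + (a - L) := mass_insert hκT hS.self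
  have hdiff : 1 + ∑ i, I.y i * (((t' i:ℝ)/Q.J) - (t i:ℝ)/Q.J) = a - L := by
    have e := hmass
    unfold mass at e
    rw [Finset.card_insert_of_notMem hκT] at e
    have e2 : ∑ i, I.y i * (((t' i:ℝ)/Q.J) - (t i:ℝ)/Q.J) =
        (∑ i, I.y i * ((t' i:ℝ)/Q.J)) - ∑ i, I.y i * ((t i:ℝ)/Q.J) := by
      rw [← Finset.sum_sub_distrib]; apply Finset.sum_congr rfl; intro i _; ring
    rw [e2]
    push_cast at e
    linarith
  have hrho : lam * (∑ i, I.y i) / Q.J ≤ Q.P * (k - Q.n0) * (∑ i, I.y i) / Q.J := by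
    apply div_le_div_of_nonneg_right _ hJ.le
    exact mul_le_mul_of_nonneg_right hlamle hyS
  have hfirst : lam * (a - L) + Q.Cv (insert κ' T) t' ≤ Q.Cv T t +
      Q.P * (k - Q.n0) / Q.om * L + (Q.P * (k - Q.n0) * (∑ i, I.y i) / Q.J + 2 * ∑ i, Q.err i)
      + (∑ i, (2 * Q.err i * Q.J + I.dl i / Q.J)) / y0
      + Q.chi * (Q.kills κ' t t').card := by
    have hPk : 0 ≤ Q.P * (k - Q.n0) := mul_nonneg h.P_pos.le (by have := h.n0_lt; linarith)
    have hL2 : 0 ≤ Q.P * (k - Q.n0) / Q.om * L :=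
      mul_nonneg (div_nonneg hPk h.om_pos.le) hL0
    rw [← hdiff]
    rcases hS.dich with hd | hd
    · have := sweep_phi (T := T) hlam0 htJ hR h.chi_ge hS.self (fun i => (hθ i).1)
        (fun i => (hθ i).2) hθκ (fun i hi => Or.inl (hd i hi))
      have e : Q.Cv T t = (Q.S0.opened T).Cval (fun i => (t i:ℝ)/Q.J) := rfl
      rw [e]
      linarith
    · -- truncated sweep
      set θ2 : σ → ℝ := Function.update (fun i => (t i:ℝ)/Q.J) κ' 0 with hθ2
      have hθ2a : ∀ i, 0 ≤ θ2 i := by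
        intro i
        by_cases hi : i = κ'
        · rw [hθ2, hi, Function.update_self]
        · rw [hθ2, Function.update_of_ne hi]; exact clock_nonneg _
      have hθ2b : ∀ i, θ2 i ≤ (t i:ℝ)/Q.J := by
        intro i
        by_cases hi : i = κ'
        · rw [hθ2, hi, Function.update_self]; exact clock_nonneg _
        · rw [hθ2, Function.update_of_ne hi]
      have := sweep_phi (T := T) hlam0 htJ hR h.chi_ge hS.self hθ2a hθ2b
        (by rw [hθ2, Function.update_self]) (fun i hi => by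
          rcases hS.best i hi with h3 | h3
          · exact Or.inl h3
          · exact Or.inr ⟨h3, by rw [hθ2, Function.update_of_ne hi]⟩)
      have e1 : lam * (1 + ∑ i, I.y i * (θ2 i - (t i:ℝ)/Q.J)) = lam * a := by
        congr 1
        rw [Finset.sum_eq_single κ']
        · rw [hθ2, Function.update_self, ha]; ring
        · intro i _ hi
          rw [hθ2, Function.update_of_ne hi, sub_self, mul_zero]
        · intro hc; exact absurd (Finset.mem_univ _) hc
      have e2 : ((Q.S0.opened T).step κ').Cval θ2 ≤ Q.Cv T t := by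
        unfold Cv State.Cval
        apply add_le_add (State.base_step_le _ _)
        apply Finset.sum_le_sum
        intro i _
        by_cases hi : i = κ'
        · rw [hθ2, hi, Function.update_self, State.G_step_self]
          exact State.G_nonneg _ _ (clock_nonneg _) (clock_le (htJ _))
        · rw [hθ2, Function.update_of_ne hi]
          exact State.G_step_le _ _ _ (clock_nonneg _) (clock_le (htJ _))
      have e3 : lam * a ≤ Q.P * (k - Q.n0) / Q.om * L := by
        calc lam * a ≤ lam * 1 := mul_le_mul_of_nonneg_left ha1 hlam0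
          _ ≤ Q.P * (k - Q.n0) := by linarith
          _ = Q.P * (k - Q.n0) / Q.om * Q.om := by have := h.om_pos; field_simp
          _ ≤ _ := mul_le_mul_of_nonneg_left hd (div_nonneg hPk h.om_pos.le)
      linarith
  -- second order
  have hquad := Pi_quad (Q := Q) h.P_pos.le (Q.mass T t) (a - L)
  rw [← hmass] at hquad
  have hsq : Q.P / 2 * (a - L)^2 ≤ Q.P / 2 * a + Q.P / 2 * (Q.om + 1) * L := by
    have h1 : (a - L)^2 ≤ a + (Q.om + 1) * L := by
      have := hS.drop_le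
      nlinarith [mul_nonneg ha0 hL0]
    have := mul_le_mul_of_nonneg_left h1 (show 0 ≤ Q.P / 2 by have := h.P_pos; linarith)
    linarith
  have hBL : (Q.P * (k - Q.n0) / Q.om + Q.P / 2 * (Q.om + 1)) * L ≤ Q.BL * L :=
    mul_le_mul_of_nonneg_right h.BL_ge hL0
  have hcrit' : Q.crit T κ' t t' ≤ Q.Psi T t + ((Q.P * (k - Q.n0) * (∑ i, I.y i) / Q.J
      + 2 * ∑ i, Q.err i) + (∑ i, (2 * Q.err i * Q.J + I.dl i / Q.J)) / y0 + ∑ i, Q.err i) := by
    have h1 := (abs_le.mp (Ct_err (insert κ' T) t' fun i => (hle' i).trans (htJ i))).2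
    unfold crit charge Psi
    linarith
  have hm := hmin κ' hκ1' hκ2
  have hle0 := hle κ hκ.1 hκ.2
  have h2 := (abs_le.mp (Ct_err (insert κ T) (sw κ) fun i => (hle0 i).trans (htJ i))).1
  have h3 : Q.Psi (insert κ T) (sw κ) ≤ Q.crit T κ t (sw κ) + Q.charge κ t (sw κ)
      + ∑ i, Q.err i := by
    unfold crit Psi
    linarith
  have h4 := h.tol_ge
  linarith

/-! ### Accounting -/

open Classical in
/-- accumulated charge of star `i` with clock `l` -/
noncomputable def es (Q : RunData I) (T : Finset σ) (i : σ) (l : ℕ) : ℝ :=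
  (if i ∈ Q.R then (if i ∈ T then Q.P / 2 * (1 - I.y i) else if l = 0 then Q.BL + Q.chi else 0)
    else (if i ∈ T then Q.P / 2 else 0) + Q.BL * (I.y i * (1 - (l:ℝ)/Q.J)))
  + 2 * ((Q.J:ℝ) - l) * Q.err i

noncomputable def Ef (Q : RunData I) (tol : ℝ) (T : Finset σ) (t : σ → ℕ) : ℝ :=
  tol * (T.card : ℝ) + ∑ i, Q.es T i (t i)

/-- the invariant of the run -/
structure Inv (Q : RunData I) (k G tol : ℝ) (T : Finset σ) (t : σ → ℕ) : Prop where
  tJ : ∀ i, t i ≤ Q.J
  rig : ∀ i ∈ Q.R, t i = 0 ∨ t i = Q.J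
  opn : ∀ i ∈ T, t i = 0
  supp : ∀ i ∈ T, 0 < I.y i
  psi : Q.Psi T t ≤ G + Q.Ef tol T t
  mass_le : Q.mass T t ≤ k

lemma Pi_nonneg (hP : 0 ≤ Q.P) (N : ℝ) : 0 ≤ Q.Pi N :=
  mul_nonneg (by linarith) (sq_nonneg _)

/-- the accumulated charge is small -/
lemma Ef_le (h : Q.Good k G eps cb Z Y q0 y0 tol) (htol : 0 ≤ tol) {T : Finset σ} {t : σ → ℕ}
    (htJ : ∀ i, t i ≤ Q.J) (hR : ∀ i ∈ Q.R, t i = 0 ∨ t i = Q.J) (hT : ∀ i ∈ T, 0 < I.y i)
    (hpsi : Q.Psi T t ≤ G + Q.Ef tol T t) (hN : Q.mass T t ≤ k + 1) :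
    Q.Ef tol T t ≤ 3 * eps * G := by
  classical
  have hJ := Q.J_pos'
  have herr : ∀ i, 0 ≤ Q.err i := fun i => err_nonneg i
  set q : ℝ := (((Q.R \ T).filter fun i => t i = 0).card : ℝ) with hq
  have hclk : ∀ i, (t i:ℝ)/Q.J ≤ 1 := fun i => clock_le (htJ i)
  have hclk0 : ∀ i, 0 ≤ (t i:ℝ)/Q.J := fun i => clock_nonneg _
  -- count
  have hcount : ((T \ Q.R).card : ℝ) ≤ Q.mass T t - Q.R.card + q + Z := by
    have h1 : (T.card:ℝ) = (T ∩ Q.R).card + (T \ Q.R).card := by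
      have := Finset.card_inter_add_card_sdiff T Q.R
      exact_mod_cast this.symm
    have h2 : (Q.R.card:ℝ) = (T ∩ Q.R).card + (Q.R \ T).card := by
      have := Finset.card_inter_add_card_sdiff Q.R T
      rw [Finset.inter_comm] at this
      exact_mod_cast this.symm
    have h3 : ((Q.R \ T).card:ℝ) - q - Z ≤ ∑ i, I.y i * ((t i:ℝ)/Q.J) := by
      have e1 : ∑ i ∈ Q.R \ T, I.y i * ((t i:ℝ)/Q.J) ≤ ∑ i, I.y i * ((t i:ℝ)/Q.J) :=
        Finset.sum_le_sum_of_subset_of_nonneg (Finset.subset_univ _)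
          fun i _ _ => mul_nonneg (I.y_nonneg i) (hclk0 i)
      refine le_trans ?_ e1
      have e2 : ∑ i ∈ Q.R \ T, ((1:ℝ) - (if t i = 0 then 1 else 0) - (1 - I.y i)) ≤
          ∑ i ∈ Q.R \ T, I.y i * ((t i:ℝ)/Q.J) := by
        apply Finset.sum_le_sum
        intro i hi
        rcases hR i (Finset.mem_sdiff.mp hi).1 with h4 | h4
        · rw [if_pos h4, h4]
          have := h.y_le i
          simp only [Nat.cast_zero, zero_div, mul_zero]
          linarith
        · rw [h4, div_self hJ.ne', if_neg (by have := Q.J_pos; omega)]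
          linarith
      refine le_trans ?_ e2
      rw [Finset.sum_sub_distrib, Finset.sum_sub_distrib, Finset.sum_const, nsmul_eq_mul, mul_one]
      have e3 : ∑ i ∈ Q.R \ T, (if t i = 0 then (1:ℝ) else 0) = q := by
        rw [hq, Finset.card_filter]; push_cast; rfl
      have e4 : ∑ i ∈ Q.R \ T, (1 - I.y i) ≤ Z :=
        (Finset.sum_le_sum_of_subset_of_nonneg Finset.sdiff_subset
          fun i _ _ => by have := h.y_le i; linarith).trans h.Z_ge
      rw [e3]; linarith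
    unfold mass
    linarith
  have hTk : (T.card:ℝ) ≤ k + 1 := by
    refine le_trans ?_ hN
    unfold mass
    have : 0 ≤ ∑ i, I.y i * ((t i:ℝ)/Q.J) :=
      Finset.sum_nonneg fun i _ => mul_nonneg (I.y_nonneg i) (hclk0 i)
    linarith
  have hPp := h.P_pos
  have hBL := h.BL_pos
  have hchi := h.chi_nonneg
  -- bound the sum
  have hsum : ∑ i, Q.es T i (t i) ≤ Q.P/2 * (∑ i ∈ Q.R, (1 - I.y i)) + Q.P/2 * (T \ Q.R).card
      + Q.BL * ∑ i ∈ Q.Rᶜ, I.y i + (Q.BL + Q.chi) * q + 2 * Q.J * ∑ i, Q.err i := by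
    have e0 : ∀ i, Q.es T i (t i) ≤ (if i ∈ Q.R then Q.P/2 * (1 - I.y i) else 0) +
        (if i ∈ T \ Q.R then Q.P/2 else 0) + (if i ∈ Q.Rᶜ then Q.BL * I.y i else 0) +
        (if i ∈ (Q.R \ T).filter (fun i => t i = 0) then Q.BL + Q.chi else 0)
        + 2 * Q.J * Q.err i := by
      intro i
      have hz : 0 ≤ Q.P/2 * (1 - I.y i) :=
        mul_nonneg (by linarith) (by have := h.y_le i; linarith)
      have he : 2 * ((Q.J:ℝ) - t i) * Q.err i ≤ 2 * Q.J * Q.err i :=
        mul_le_mul_of_nonneg_right (by have : (0:ℝ) ≤ t i := Nat.cast_nonneg _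
                                       linarith) (herr i)
      have hy : Q.BL * (I.y i * (1 - (t i:ℝ)/Q.J)) ≤ Q.BL * I.y i := by
        apply mul_le_mul_of_nonneg_left _ hBL.le
        have := mul_nonneg (I.y_nonneg i) (hclk0 i)
        linarith
      unfold es
      by_cases hiR : i ∈ Q.R
      · by_cases hiT : i ∈ T
        · simp only [hiR, hiT, if_true, Finset.mem_sdiff, not_true, and_false, if_false,
            Finset.mem_compl, Finset.mem_filter, false_and, true_and, not_false_eq_true]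
          linarith
        · by_cases h0 : t i = 0
          · simp only [hiR, hiT, h0, if_true, Finset.mem_sdiff, not_true, and_false, if_false,
              Finset.mem_compl, Finset.mem_filter, and_true, not_false_eq_true,
              Nat.cast_zero] at he ⊢
            linarith
          · simp only [hiR, hiT, h0, if_true, Finset.mem_sdiff, not_true, and_false, if_false,
              Finset.mem_compl, Finset.mem_filter, not_false_eq_true]
            linarith
      · by_cases hiT : i ∈ T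
        · simp only [hiR, hiT, if_true, Finset.mem_sdiff, not_true, and_false, if_false,
            Finset.mem_compl, Finset.mem_filter, false_and, true_and, not_false_eq_true]
          linarith
        · simp only [hiR, hiT, if_true, Finset.mem_sdiff, and_true, if_false,
            Finset.mem_compl, Finset.mem_filter, false_and, not_false_eq_true]
          linarith
    refine (Finset.sum_le_sum fun i _ => e0 i).trans ?_
    rw [Finset.sum_add_distrib, Finset.sum_add_distrib, Finset.sum_add_distrib,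
      Finset.sum_add_distrib]
    have k1 : ∑ i, (if i ∈ Q.R then Q.P/2 * (1 - I.y i) else 0) =
        Q.P/2 * ∑ i ∈ Q.R, (1 - I.y i) := by
      rw [Finset.sum_ite_mem, Finset.univ_inter, Finset.mul_sum]
    have k2 : ∑ i, (if i ∈ T \ Q.R then Q.P/2 else 0) = Q.P/2 * (T \ Q.R).card := by
      rw [Finset.sum_ite_mem, Finset.univ_inter, Finset.sum_const, nsmul_eq_mul]; ring
    have k3 : ∑ i, (if i ∈ Q.Rᶜ then Q.BL * I.y i else 0) = Q.BL * ∑ i ∈ Q.Rᶜ, I.y i := by
      rw [Finset.sum_ite_mem, Finset.univ_inter, Finset.mul_sum]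
    have k4 : ∑ i, (if i ∈ (Q.R \ T).filter (fun i => t i = 0) then Q.BL + Q.chi else 0) =
        (Q.BL + Q.chi) * q := by
      rw [Finset.sum_ite_mem, Finset.univ_inter, Finset.sum_const, nsmul_eq_mul, hq]; ring
    have k5 : ∑ i, 2 * (Q.J:ℝ) * Q.err i = 2 * Q.J * ∑ i, Q.err i := by rw [Finset.mul_sum]
    rw [k1, k2, k3, k4, k5]
  have hpay := h.pay T t htJ hT
  rw [← hq] at hpay
  have hPi := Pi_nonneg (Q := Q) hPp.le (Q.mass T t)
  have hCv : Q.Cv T t ≤ G + Q.Ef tol T t := by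
    unfold Psi at hpsi; linarith
  have hq0 : 0 ≤ q := Nat.cast_nonneg _
  have hE1 : Q.Ef tol T t ≤ eps * G + (Q.P/2 + Q.BL + Q.chi) * q := by
    have m1 : Q.P/2 * (∑ i ∈ Q.R, (1 - I.y i)) ≤ Q.P/2 * Z :=
      mul_le_mul_of_nonneg_left h.Z_ge (by linarith)
    have m2 : Q.P/2 * ((T \ Q.R).card:ℝ) ≤ Q.P/2 * (q0 + 1 + q + Z) := by
      apply mul_le_mul_of_nonneg_left _ (by linarith)
      have := h.q_ge
      linarith
    have m3 : Q.BL * ∑ i ∈ Q.Rᶜ, I.y i ≤ Q.BL * Y := mul_le_mul_of_nonneg_left h.Y_ge hBL.le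
    have m4 : tol * (T.card:ℝ) ≤ tol * (k + 1) := mul_le_mul_of_nonneg_left hTk htol
    have := h.hA
    unfold Ef
    linarith
  have hE2 : (Q.P/2 + Q.BL + Q.chi) * q ≤ eps * (G + Q.Ef tol T t) := by
    calc (Q.P/2 + Q.BL + Q.chi) * q ≤ eps * cb * q := mul_le_mul_of_nonneg_right h.hB hq0
      _ = eps * (cb * q) := by ring
      _ ≤ _ := mul_le_mul_of_nonneg_left (hpay.trans hCv) h.eps_pos.le
  have h1 := h.eps_pos
  have h2 := h.eps_le
  have hG := h.G_pos
  have hGe : 0 < eps * G := mul_pos h1 hG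
  set E := Q.Ef tol T t with hE
  have h3 : E * (1 - eps) ≤ 2 * (eps * G) := by nlinarith
  by_contra hc
  push Not at hc
  have h4 : 3 * eps * G * (1 - eps) < E * (1 - eps) := mul_lt_mul_of_pos_right hc (by linarith)
  nlinarith

lemma mass_le_of (h : Q.Good k G eps cb Z Y q0 y0 tol) {T : Finset σ} {t : σ → ℕ}
    (htJ : ∀ i, t i ≤ Q.J)
    (hpsi : Q.Psi T t ≤ G + 3 * eps * G) : Q.mass T t ≤ k := by
  by_contra hc
  push Not at hc
  have hCv : 0 ≤ Q.Cv T t := by
    unfold Cv State.Cval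
    apply add_nonneg
    · unfold State.base
      exact Finset.sum_nonneg fun j _ => mul_nonneg (I.w_nonneg j)
        (Finset.sum_nonneg fun i _ => mul_nonneg (I.x_nonneg i j)
          (le_min (I.d_nonneg i j) ((Q.S0.opened T).K_nonneg j)))
    · exact Finset.sum_nonneg fun i _ => State.G_nonneg _ _ (clock_nonneg _) (clock_le (htJ i))
  have hPi : Q.P/2 * (k - Q.n0)^2 < Q.Pi (Q.mass T t) := by
    unfold Pi
    apply mul_lt_mul_of_pos_left _ (by have := h.P_pos; linarith)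
    have h1 := h.n0_lt
    rw [max_eq_left (by linarith)]
    nlinarith
  have h2 := h.hP
  have h3 := h.eps_le
  have hG := h.G_pos
  unfold Psi at hpsi
  nlinarith

lemma sum_update (f : σ → ℕ → ℝ) (t : σ → ℕ) (i : σ) (b : ℕ) :
    ∑ s, f s (Function.update t i b s) = ∑ s, f s (t s) + (f i b - f i (t i)) := by
  rw [← Finset.add_sum_erase _ _ (Finset.mem_univ i),
    ← Finset.add_sum_erase (a := i) Finset.univ (fun s => f s (t s)) (Finset.mem_univ i),
    Function.update_self]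
  have : ∑ s ∈ Finset.univ.erase i, f s (Function.update t i b s) =
      ∑ s ∈ Finset.univ.erase i, f s (t s) := by
    apply Finset.sum_congr rfl
    intro s hs
    rw [Function.update_of_ne (Finset.ne_of_mem_erase hs)]
  rw [this]; ring

/-- a lowering step -/
lemma lower_ok (h : Q.Good k G eps cb Z Y q0 y0 tol) {T : Finset σ} {t : σ → ℕ}
    (htJ : ∀ i, t i ≤ Q.J) (hR : ∀ i ∈ Q.R, t i = 0 ∨ t i = Q.J) (hT : ∀ i ∈ T, t i = 0)
    {i : σ} {b : ℕ}
    (hb : Q.BestOK T (Q.lamOf (Q.mass T t)) i (t i) b) (hlt : b < t i) :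
    Q.Psi T (Function.update t i b) - Q.Psi T t ≤
      Q.Ef tol T (Function.update t i b) - Q.Ef tol T t ∧
    Q.mass T (Function.update t i b) ≤ Q.mass T t := by
  have hJ := Q.J_pos'
  set lam := Q.lamOf (Q.mass T t) with hlam
  have hlam0 : 0 ≤ lam := lamOf_nonneg h.P_pos.le _
  have herr : 0 ≤ Q.err i := err_nonneg i
  have hiT : i ∉ T := fun hc => by have := hT i hc; omega
  have hti : (b:ℝ) + 1 ≤ t i := by exact_mod_cast hlt
  set δ : ℝ := I.y i * (((t i:ℝ) - b)/Q.J) with hδ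
  have hδ0 : 0 ≤ δ := mul_nonneg (I.y_nonneg i) (div_nonneg (by linarith) hJ.le)
  have hδ1 : δ ≤ 1 := by
    have h1 : ((t i:ℝ) - b)/Q.J ≤ 1 := by
      rw [div_le_one hJ]
      have : (t i:ℝ) ≤ Q.J := by exact_mod_cast htJ i
      have : (0:ℝ) ≤ b := Nat.cast_nonneg _
      linarith
    exact mul_le_one₀ (h.y_le i) (div_nonneg (by linarith) hJ.le) h1
  have hm : Q.mass T (Function.update t i b) = Q.mass T t + (-δ) := by
    unfold mass
    rw [sum_update (fun s l => I.y s * ((l:ℝ)/Q.J))]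
    rw [hδ]; ring
  have hC : Q.Cv T (Function.update t i b) = Q.Cv T t +
      ((Q.S0.opened T).G i ((b:ℝ)/Q.J) - (Q.S0.opened T).G i ((t i:ℝ)/Q.J)) := by
    unfold Cv State.Cval
    rw [sum_update (fun s l => (Q.S0.opened T).G s ((l:ℝ)/Q.J))]
    ring
  have hE : Q.Ef tol T (Function.update t i b) = Q.Ef tol T t +
      (Q.es T i b - Q.es T i (t i)) := by
    unfold Ef
    rw [sum_update (fun s l => Q.es T s l)]
    ring
  refine ⟨?_, by rw [hm]; linarith⟩
  have hquad := Pi_quad (Q := Q) h.P_pos.le (Q.mass T t) (-δ)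
  rw [← hm] at hquad
  have hsq : Q.P/2 * (-δ)^2 ≤ Q.P/2 * δ := by
    apply mul_le_mul_of_nonneg_left _ (by have := h.P_pos; linarith)
    nlinarith
  have hBL : Q.P/2 ≤ Q.BL := by
    have h1 := h.BL_ge'
    have h2 : Q.P/2 * 1 ≤ Q.P/2 * (Q.om + 1) := mul_le_mul_of_nonneg_left
      (by have := h.om_pos; linarith) (by have := h.P_pos; linarith)
    linarith
  unfold Psi
  rw [hC, hE]
  have hlamδ : lam * I.y i * ((b:ℝ)/Q.J) - lam * I.y i * ((t i:ℝ)/Q.J) = - (lam * δ) := by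
    rw [hδ]; ring
  have hBLδ : Q.P/2 * δ ≤ Q.BL * δ := mul_le_mul_of_nonneg_right hBL hδ0
  by_cases hi : i ∈ Q.R
  · -- kill
    have htiJ : t i = Q.J := by
      rcases hR i hi with h0 | h0
      · omega
      · exact h0
    have hb' := hb
    rw [htiJ] at hb'
    have hb0 := (hb'.kill (by omega) hi).1
    have hk := kill_cmp hb' (by omega) hi zero_le_one le_rfl (h.chi_ge i hi)
    have hes : Q.es T i b - Q.es T i (t i) = Q.BL + Q.chi + 2 * Q.J * Q.err i := by
      unfold es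
      rw [if_pos hi, if_pos hi, if_neg hiT, if_neg hiT, if_pos hb0,
        if_neg (by omega), hb0, htiJ]
      push_cast; ring
    rw [hes]
    have e1 : ((b:ℕ):ℝ)/Q.J = 0 := by rw [hb0]; simp
    have e2 : ((t i:ℕ):ℝ)/Q.J = 1 := by rw [htiJ]; exact div_self hJ.ne'
    rw [e1, e2] at hlamδ ⊢
    have e3 : Q.P/2 * δ ≤ Q.P/2 * 1 := mul_le_mul_of_nonneg_left hδ1 (by have := h.P_pos; linarith)
    have e4 : 0 ≤ 2 * Q.J * Q.err i := by positivity
    linarith
  · have hW := hb.low hlt hi (t i) le_rfl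
    unfold W at hW
    have e1 := abs_le.mp (Q.Gt_err T i b (hb.le.trans (htJ i)))
    have e2 := abs_le.mp (Q.Gt_err T i (t i) (htJ i))
    have hes : Q.es T i b - Q.es T i (t i) = Q.BL * δ + 2 * ((t i:ℝ) - b) * Q.err i := by
      unfold es
      rw [if_neg hi, if_neg hi, if_neg hiT, hδ]
      ring
    rw [hes]
    have e3 : 2 * 1 * Q.err i ≤ 2 * ((t i:ℝ) - b) * Q.err i :=
      mul_le_mul_of_nonneg_right (by linarith) herr
    linarith [e1.1, e2.2]

/-- an opening step -/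
lemma open_ok (h : Q.Good k G eps cb Z Y q0 y0 tol) {T : Finset σ} {t : σ → ℕ}
    (htJ : ∀ i, t i ≤ Q.J) (hR : ∀ i ∈ Q.R, t i = 0 ∨ t i = Q.J) (hT : ∀ i ∈ T, t i = 0)
    {κ : σ} {t' : σ → ℕ} (hκ : 0 < t κ) {lam : ℝ}
    (hs : Q.Sweep (insert κ T) lam κ t t') :
    Q.charge κ t t' + tol ≤ Q.Ef tol (insert κ T) t' - Q.Ef tol T t ∧
    Q.mass (insert κ T) t' ≤ Q.mass T t + 1 ∧ (∀ i ∈ Q.R, t' i = 0 ∨ t' i = Q.J) ∧
    (∀ i ∈ insert κ T, t' i = 0) ∧ (∀ i, t' i ≤ t i) := by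
  classical
  have hJ := Q.J_pos'
  have hκT : κ ∉ T := fun hc => by have := hT κ hc; omega
  have hle : ∀ i, t' i ≤ t i := by
    intro i
    by_cases hi : i = κ
    · subst hi; rw [hs.self]; exact Nat.zero_le _
    · rcases hs.best i hi with h3 | h3
      · exact h3.le
      · exact h3.le
  have hrig : ∀ i ∈ Q.R, t' i = 0 ∨ t' i = Q.J := by
    intro i hi
    by_cases hc : i = κ
    · subst hc; exact Or.inl hs.self
    · rcases hs.best i hc with h3 | h3
      · rcases Nat.lt_or_ge (t' i) (t i) with h4 | h4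
        · exact Or.inl (h3.kill h4 hi).1
        · have : t' i = t i := le_antisymm (hle i) h4
          rw [this]; exact hR i hi
      · rw [h3]; exact hR i hi
  have hopn : ∀ i ∈ insert κ T, t' i = 0 := by
    intro i hi
    rcases Finset.mem_insert.mp hi with h1 | h1
    · rw [h1]; exact hs.self
    · have := hle i
      have := hT i h1
      omega
  refine ⟨?_, ?_, hrig, hopn, hle⟩
  · -- accounting
    have hPp := h.P_pos
    have hBL := h.BL_pos
    have hchi := h.chi_nonneg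
    have hclk := clock_le (Q := Q) (htJ κ)
    have hclk0 := clock_nonneg (Q := Q) (t κ)
    have hself : Q.P / 2 * (1 - I.y κ * ((t κ : ℝ) / Q.J)) ≤
        Q.es (insert κ T) κ (t' κ) - Q.es T κ (t κ) := by
      have herr : 0 ≤ Q.err κ := err_nonneg κ
      have htκ : (0:ℝ) ≤ t κ := Nat.cast_nonneg _
      have e0 : 0 ≤ 2 * (t κ:ℝ) * Q.err κ := by positivity
      unfold es
      rw [hs.self, if_pos (Finset.mem_insert_self κ T), if_neg hκT]
      by_cases hc : κ ∈ Q.R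
      · have htJ' : t κ = Q.J := by
          rcases hR κ hc with h0 | h0
          · omega
          · exact h0
        rw [if_pos hc, if_pos hc, if_neg (by omega), htJ', div_self hJ.ne']
        rw [htJ'] at e0
        push_cast
        linarith
      · rw [if_neg hc, if_neg hc, if_pos (Finset.mem_insert_self κ T), if_neg hκT]
        have e1 := mul_nonneg (I.y_nonneg κ) hclk0
        have e2 := mul_nonneg hBL.le e1
        have e3 := mul_nonneg (show 0 ≤ Q.P/2 by linarith) e1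
        simp only [Nat.cast_zero, zero_div]
        linarith
    have hother : ∀ i ∈ Finset.univ.erase κ, Q.BL * (I.y i * (((t i : ℝ) - t' i) / Q.J)) +
        (if i ∈ Q.kills κ t t' then Q.chi else 0) ≤
        Q.es (insert κ T) i (t' i) - Q.es T i (t i) := by
      intro i hi
      have hne := Finset.ne_of_mem_erase hi
      have herr : 0 ≤ Q.err i := err_nonneg i
      have hle' : (t' i:ℝ) ≤ t i := by exact_mod_cast hle i
      have hk : (i ∈ Q.kills κ t t') ↔ (i ∈ Q.R ∧ t' i < t i) := by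
        unfold kills; simp [hne]
      have e0 : 0 ≤ 2 * ((t i:ℝ) - t' i) * Q.err i :=
        mul_nonneg (by linarith) herr
      have hins : (i ∈ insert κ T) ↔ i ∈ T := by simp [hne]
      unfold es
      simp only [hk, hins]
      by_cases hc : i ∈ Q.R
      · by_cases hiT : i ∈ T
        · have h1 : t i = 0 := hT i hiT
          have h2 : t' i = 0 := hopn i (hins.mpr hiT)
          simp [hc, hiT, h1, h2]
        · rcases Nat.lt_or_ge (t' i) (t i) with h4 | h4
          · have h5 : t i = Q.J := by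
              rcases hR i hc with h0 | h0
              · omega
              · exact h0
            have h6 : t' i = 0 := by
              rcases hrig i hc with h0 | h0
              · exact h0
              · omega
            have h7 : Q.BL * (I.y i * 1) ≤ Q.BL := by
              have := mul_le_mul_of_nonneg_left (h.y_le i) hBL.le
              linarith
            have hJ0 : ¬ Q.J = 0 := by have := Q.J_pos; omega
            have e5 : ((Q.J:ℝ) - ((0:ℕ):ℝ))/Q.J = 1 := by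
              rw [Nat.cast_zero, sub_zero]; exact div_self hJ.ne'
            simp only [hc, hiT, if_true, if_false, h5, h6, hJ0, true_and,
              Q.J_pos, e5]
            rw [h5, h6] at e0
            linarith
          · have h5 : t' i = t i := le_antisymm (hle i) h4
            have h6 : ¬ t i < t i := lt_irrefl _
            simp only [hc, hiT, if_true, if_false, h5, h6, and_false, sub_self, zero_div, mul_zero,
              add_zero, le_refl]
      · simp only [hc, if_false, false_and]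
        have : Q.BL * (I.y i * (((t i : ℝ) - t' i) / Q.J)) =
            Q.BL * (I.y i * (1 - (t' i:ℝ)/Q.J)) - Q.BL * (I.y i * (1 - (t i:ℝ)/Q.J)) := by ring
        rw [this]
        linarith
    have hsum := Finset.sum_le_sum hother
    rw [Finset.sum_add_distrib] at hsum
    have k1 : ∑ i ∈ Finset.univ.erase κ, (if i ∈ Q.kills κ t t' then Q.chi else 0) =
        Q.chi * (Q.kills κ t t').card := by
      rw [Finset.sum_ite_mem, Finset.inter_eq_right.mpr (by unfold kills; exact Finset.filter_subset _ _),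
        Finset.sum_const, nsmul_eq_mul]; ring
    have k2 : ∑ i ∈ Finset.univ.erase κ, Q.BL * (I.y i * (((t i : ℝ) - t' i) / Q.J)) =
        Q.BL * Q.drop κ t t' := by
      unfold drop; rw [Finset.mul_sum]
    rw [k1, k2, Finset.sum_sub_distrib] at hsum
    unfold charge Ef
    rw [Finset.card_insert_of_notMem hκT, ← Finset.add_sum_erase Finset.univ
      (fun i => Q.es (insert κ T) i (t' i)) (Finset.mem_univ κ),
      ← Finset.add_sum_erase Finset.univ (fun i => Q.es T i (t i)) (Finset.mem_univ κ)]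
    push_cast
    linarith
  · rw [mass_insert hκT hs.self]
    have h1 := drop_nonneg (Q := Q) (κ := κ) hle
    have h2 := mul_nonneg (I.y_nonneg κ) (clock_nonneg (Q := Q) (t κ))
    linarith

lemma Good.tol_nonneg (h : Q.Good k G eps cb Z Y q0 y0 tol) : 0 ≤ tol := by
  refine le_trans ?_ h.tol_ge
  have hJ := Q.J_pos'
  have herr : ∀ i, 0 ≤ Q.err i := fun i => err_nonneg i
  apply add_nonneg
  · apply add_nonneg
    · exact mul_nonneg (by norm_num) (Finset.sum_nonneg fun i _ => herr i)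
    · apply div_nonneg _ hJ.le
      apply mul_nonneg
      · exact mul_nonneg h.P_pos.le (by have := h.n0_lt; linarith)
      · exact Finset.sum_nonneg fun i _ => I.y_nonneg i
  · apply div_nonneg _ h.y0_pos.le
    exact Finset.sum_nonneg fun i _ => add_nonneg
      (mul_nonneg (mul_nonneg (by norm_num) (herr i)) hJ.le) (div_nonneg (I.dl_nonneg i) hJ.le)

/-- the invariant is preserved -/
theorem Inv.step (h : Q.Good k G eps cb Z Y q0 y0 tol) {T T' : Finset σ} {t t' : σ → ℕ}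
    (hI : Q.Inv k G tol T t) (hst : Q.Step (T, t) (T', t')) :
    Q.Inv k G tol T' t' ∧ ∑ i, t' i < ∑ i, t i := by
  have htol := h.tol_nonneg
  cases hst with
  | lower _ _ i b hb hlt =>
    obtain ⟨h1, h2⟩ := lower_ok h hI.tJ hI.rig hI.opn hb hlt (tol := tol)
    have hJ' : ∀ s, Function.update t i b s ≤ Q.J := by
      intro s
      by_cases hs : s = i
      · subst hs; rw [Function.update_self]; exact hb.le.trans (hI.tJ s)
      · rw [Function.update_of_ne hs]; exact hI.tJ s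
    have hR' : ∀ s ∈ Q.R, Function.update t i b s = 0 ∨ Function.update t i b s = Q.J := by
      intro s hsR
      by_cases hs : s = i
      · subst hs; rw [Function.update_self]; exact Or.inl (hb.kill hlt hsR).1
      · rw [Function.update_of_ne hs]; exact hI.rig s hsR
    have hT' : ∀ s ∈ T, Function.update t i b s = 0 := by
      intro s hsT
      by_cases hs : s = i
      · subst hs; have := hI.opn s hsT; omega
      · rw [Function.update_of_ne hs]; exact hI.opn s hsT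
    have hpsi : Q.Psi T (Function.update t i b) ≤ G + Q.Ef tol T (Function.update t i b) := by
      have := hI.psi; linarith
    have hm : Q.mass T (Function.update t i b) ≤ k := h2.trans hI.mass_le
    refine ⟨⟨hJ', hR', hT', hI.supp, hpsi, hm⟩, ?_⟩
    apply Finset.sum_lt_sum
    · intro s _
      by_cases hs : s = i
      · subst hs; rw [Function.update_self]; exact hlt.le
      · rw [Function.update_of_ne hs]
    · exact ⟨i, Finset.mem_univ i, by rw [Function.update_self]; exact hlt⟩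
  | opn _ _ κ sw hκ hbest hsw hmin =>
    have hgood := open_good h hI.tJ hI.rig hI.opn hI.mass_le hκ hbest hsw hmin
    obtain ⟨h1, h2, h3, h4, h5⟩ := open_ok h hI.tJ hI.rig hI.opn hκ.1 (hsw κ hκ.1 hκ.2)
    have hpsi : Q.Psi (insert κ T) (sw κ) ≤ G + Q.Ef tol (insert κ T) (sw κ) := by
      have := hI.psi; linarith
    have hJ' : ∀ s, sw κ s ≤ Q.J := fun s => (h5 s).trans (hI.tJ s)
    have hsupp : ∀ i ∈ insert κ T, 0 < I.y i := by
      intro i hi
      rcases Finset.mem_insert.mp hi with h6 | h6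
      · rw [h6]; exact hκ.2
      · exact hI.supp i h6
    have hE := Ef_le h htol hJ' h3 hsupp hpsi (by have := hI.mass_le; linarith)
    have hm : Q.mass (insert κ T) (sw κ) ≤ k := mass_le_of h hJ' (by linarith)
    refine ⟨⟨hJ', h3, h4, hsupp, hpsi, hm⟩, ?_⟩
    apply Finset.sum_lt_sum
    · intro s _; exact h5 s
    · exact ⟨κ, Finset.mem_univ κ, by rw [(hsw κ hκ.1 hκ.2).self]; exact hκ.1⟩

/-- the start satisfies the invariant -/
theorem Inv.start (h : Q.Good k G eps cb Z Y q0 y0 tol) : Q.Inv k G tol ∅ (fun _ => Q.J) := by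
  have hJ := Q.J_pos'
  have hm : Q.mass ∅ (fun _ => Q.J) = ∑ i, I.y i := by
    unfold mass
    simp only [div_self hJ.ne', Finset.card_empty]; simp
  have hE : 0 ≤ Q.Ef tol ∅ (fun _ => Q.J) := by
    unfold Ef
    rw [Finset.card_empty, Nat.cast_zero, mul_zero, zero_add]
    apply Finset.sum_nonneg
    intro i _
    unfold es
    have hJ0 : ¬ Q.J = 0 := by have := Q.J_pos; omega
    rw [if_neg (Finset.notMem_empty i), if_neg (Finset.notMem_empty i), if_neg hJ0,
      div_self hJ.ne', sub_self, sub_self]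
    split_ifs <;> simp
  refine ⟨fun _ => le_rfl, fun _ _ => Or.inr rfl, fun i hi => absurd hi (Finset.notMem_empty i),
    fun i hi => absurd hi (Finset.notMem_empty i), ?_, ?_⟩
  · have h1 : Q.Pi (Q.mass ∅ (fun _ => Q.J)) = 0 := by
      unfold Pi
      rw [hm, max_eq_right (by have := h.n0_ge; linarith)]; simp
    have h2 : Q.Cv ∅ (fun _ => Q.J) ≤ G := by
      unfold Cv
      simp only [div_self hJ.ne']
      exact (State.Cval_one_le _).trans h.G_ge
    unfold Psi
    linarith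
  · rw [hm]; have := h.n0_ge; have := h.n0_lt; linarith

/-- **final states** -/
theorem Inv.final (h : Q.Good k G eps cb Z Y q0 y0 tol) {T : Finset σ} {t : σ → ℕ}
    (hI : Q.Inv k G tol T t) (hend : ∀ i, t i = 0 ∨ I.y i = 0) :
    (T.card:ℝ) ≤ k ∧ (Q.S0.opened T).cost ≤ (1 + 3 * eps) * G := by
  have hE := Ef_le h h.tol_nonneg hI.tJ hI.rig hI.supp hI.psi (by have := hI.mass_le; linarith)
  constructor
  · refine le_trans ?_ hI.mass_le
    unfold mass
    have : 0 ≤ ∑ i, I.y i * ((t i:ℝ)/Q.J) :=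
      Finset.sum_nonneg fun i _ => mul_nonneg (I.y_nonneg i) (clock_nonneg _)
    linarith
  · have h1 : Q.Cv T t = (Q.S0.opened T).cost := by
      unfold Cv
      apply State.Cval_dead
      intro i
      rcases hend i with h0 | h0
      · left; rw [h0]; simp
      · exact Or.inr h0
    rw [← h1]
    have h2 := Pi_nonneg (Q := Q) h.P_pos.le (Q.mass T t)
    have h3 := hI.psi
    unfold Psi at h3
    linarith

end RunData

end LocInst

end Crest.Agent.KM
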