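import Crest.Agent.KM.Hfun

/-!
# Star level: the value `VV`, KKT certificate, star inequality
-/

namespace Crest.Agent.KM

open Finset

variable {ι : Type*}

/-- star function at time `t` -/
noncomputable def Vf (J : Finset ι) (w u f : ι → ℝ) (F p t : ℝ) : ℝ :=
  p * t + ∑ j ∈ J, w j * cc (u j) F (f j) t

/-- value of a star -/
noncomputable def VV (J : Finset ι) (w u f : ι → ℝ) (F p : ℝ) : ℝ :=
  sInf (Vf J w u f F p '' Set.Icc (0:ℝ) 1)

lemma cc_cont (u F f : ℝ) : Continuous (cc u F f) := by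
  by_cases h : u ≤ F - (1-2*ee)*min F f
  · have : cc u F f = fun t => u - t * max (u/2) (u - ee*min F f) := by
      funext t; exact cc_of_le h t
    rw [this]; fun_prop
  · push Not at h
    have : cc u F f = fun t => Bc F f (max t (ts u F (min F f)))
        + (max t (ts u F (min F f)) - t) * bc F f (max t (ts u F (min F f))) := by
      funext t; exact cc_of_gt h t
    rw [this]
    unfold Bc bc
    fun_prop

lemma Vf_cont (J : Finset ι) (w u f : ι → ℝ) (F p : ℝ) : Continuous (Vf J w u f F p) := by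
  unfold Vf
  refine Continuous.add (by fun_prop) ?_
  exact continuous_finsetSum _ fun j _ => continuous_const.mul (cc_cont _ _ _)

lemma VV_exists (J : Finset ι) (w u f : ι → ℝ) (F p : ℝ) :
    ∃ t, 0 ≤ t ∧ t ≤ 1 ∧ VV J w u f F p = Vf J w u f F p t := by
  have hc : IsCompact (Vf J w u f F p '' Set.Icc (0:ℝ) 1) :=
    isCompact_Icc.image (Vf_cont J w u f F p)
  have hne : (Vf J w u f F p '' Set.Icc (0:ℝ) 1).Nonempty :=
    ⟨_, ⟨0, ⟨le_rfl, zero_le_one⟩, rfl⟩⟩
  obtain ⟨t, ht, hte⟩ := hc.sInf_mem hne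
  exact ⟨t, ht.1, ht.2, hte.symm⟩

lemma VV_le (J : Finset ι) (w u f : ι → ℝ) (F p : ℝ) {t : ℝ} (h0 : 0 ≤ t) (h1 : t ≤ 1) :
    VV J w u f F p ≤ Vf J w u f F p t := by
  have hc : IsCompact (Vf J w u f F p '' Set.Icc (0:ℝ) 1) :=
    isCompact_Icc.image (Vf_cont J w u f F p)
  exact csInf_le hc.bddBelow ⟨t, ⟨h0, h1⟩, rfl⟩

lemma Vf_zero (J : Finset ι) (w u f : ι → ℝ) {F : ℝ} (p : ℝ) (hF : 0 ≤ F)
    (hf : ∀ j ∈ J, 0 ≤ f j) (hu : ∀ j ∈ J, u j ≤ F) :
    Vf J w u f F p 0 = ∑ j ∈ J, w j * u j := by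
  unfold Vf
  rw [mul_zero, zero_add]
  apply Finset.sum_congr rfl
  intro j hj
  rw [cc_zero (hf j hj) hF (hu j hj)]

lemma VV_le_sum (J : Finset ι) (w u f : ι → ℝ) {F : ℝ} (p : ℝ) (hF : 0 ≤ F)
    (hf : ∀ j ∈ J, 0 ≤ f j) (hu : ∀ j ∈ J, u j ≤ F) :
    VV J w u f F p ≤ ∑ j ∈ J, w j * u j := by
  rw [← Vf_zero J w u f p hF hf hu]
  exact VV_le J w u f F p le_rfl zero_le_one

/-- KKT: the slope sum at a minimiser in `(0,1]` is at least the price -/
lemma slope_ge {J : Finset ι} {w u f : ι → ℝ} {F p t : ℝ} (hF : 0 ≤ F)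
    (hw : ∀ j ∈ J, 0 ≤ w j) (hf : ∀ j ∈ J, 0 ≤ f j) (ht : 0 < t) (ht1 : t ≤ 1)
    (hmin : VV J w u f F p = Vf J w u f F p t) :
    p ≤ ∑ j ∈ J, w j * gg (u j) F (f j) t := by
  have hcl : IsClosed {s : ℝ | p ≤ ∑ j ∈ J, w j * gg (u j) F (f j) s} := by
    apply isClosed_le continuous_const
    exact continuous_finsetSum _ fun j _ => continuous_const.mul gg_cont
  have hsub : Set.Ico 0 t ⊆ {s : ℝ | p ≤ ∑ j ∈ J, w j * gg (u j) F (f j) s} := by
    intro s hs
    have h1 := VV_le J w u f F p hs.1 (hs.2.le.trans ht1)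
    rw [hmin] at h1
    unfold Vf at h1
    have h2 : ∑ j ∈ J, w j * cc (u j) F (f j) s ≤
        ∑ j ∈ J, w j * cc (u j) F (f j) t + (t - s) * ∑ j ∈ J, w j * gg (u j) F (f j) s := by
      rw [Finset.mul_sum, ← Finset.sum_add_distrib]
      apply Finset.sum_le_sum
      intro j hj
      have := mul_le_mul_of_nonneg_left (cc_sub (u := u j) (hf j hj) hF t s) (hw j hj)
      linarith
    have h3 : 0 < t - s := by linarith [hs.2]
    have h4 : (t - s) * p ≤ (t - s) * ∑ j ∈ J, w j * gg (u j) F (f j) s := by linarith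
    exact le_of_mul_le_mul_left h4 h3
  have := hcl.closure_subset_iff.mpr hsub
  rw [closure_Ico (ne_of_lt ht)] at this
  exact this ⟨ht.le, le_rfl⟩

lemma slope_le {J : Finset ι} {w u f : ι → ℝ} {F p t : ℝ} (hF : 0 ≤ F)
    (hw : ∀ j ∈ J, 0 ≤ w j) (hf : ∀ j ∈ J, 0 ≤ f j) (ht : 0 ≤ t) (ht1 : t < 1)
    (hmin : VV J w u f F p = Vf J w u f F p t) :
    ∑ j ∈ J, w j * gg (u j) F (f j) t ≤ p := by
  have hcl : IsClosed {s : ℝ | ∑ j ∈ J, w j * gg (u j) F (f j) s ≤ p} := by
    apply isClosed_le _ continuous_const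
    exact continuous_finsetSum _ fun j _ => continuous_const.mul gg_cont
  have hsub : Set.Ioc t 1 ⊆ {s : ℝ | ∑ j ∈ J, w j * gg (u j) F (f j) s ≤ p} := by
    intro s hs
    have h1 := VV_le J w u f F p (ht.trans hs.1.le) hs.2
    rw [hmin] at h1
    unfold Vf at h1
    have h2 : ∑ j ∈ J, w j * cc (u j) F (f j) s + (s - t) * ∑ j ∈ J, w j * gg (u j) F (f j) s ≤
        ∑ j ∈ J, w j * cc (u j) F (f j) t := by
      rw [Finset.mul_sum, ← Finset.sum_add_distrib]
      apply Finset.sum_le_sum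
      intro j hj
      have := mul_le_mul_of_nonneg_left (cc_sub (u := u j) (hf j hj) hF t s) (hw j hj)
      linarith
    have h3 : 0 < s - t := by linarith [hs.1]
    have h4 : (s - t) * ∑ j ∈ J, w j * gg (u j) F (f j) s ≤ (s - t) * p := by linarith
    exact le_of_mul_le_mul_left h4 h3
  have := hcl.closure_subset_iff.mpr hsub
  rw [closure_Ioc (ne_of_lt ht1)] at this
  exact this ⟨le_rfl, ht1.le⟩

/-- A certificate for a star (state `u, F`) with time `t`, prices `n`, clock `Θ`, gains `G`;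
`σ` is the type of stations over which the neighbourhood averages are taken. -/
structure Cert (σ : Type*) (J : Finset ι) (w u f d C : ι → ℝ) (F p : ℝ) where
  t : ℝ
  n : ι → ℝ
  Θ : ℝ → ℝ
  G : ι → ℝ → ℝ
  t_pos : 0 < t
  t_le : t ≤ 1
  val : VV J w u f F p = Vf J w u f F p t
  price : ∑ j ∈ J, w j * n j = p
  Θ_nonneg : ∀ F', 0 ≤ Θ F'
  Θ_le : ∀ F', Θ F' ≤ t
  R : ∀ j ∈ J, ∀ F' u', 0 ≤ F' → F' ≤ F → u' ≤ u j → u' ≤ F' →
    cc u' F' (f j) (Θ F') ≤ cc (u j) F (f j) t + (t - Θ F') * n j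
  G_dead : ∀ j ∈ J, ∀ x, G j x ≤ u j
  G_alive : ∀ j ∈ J, ∀ x F', 0 ≤ F' → F' ≤ F → F' ≤ d j + x → rr (u j) (d j) x ≤ F' →
    G j x ≤ cc (u j) F (f j) t + (t - Θ F') * n j + rr (u j) (d j) x
      - cc (rr (u j) (d j) x) F' (f j) (Θ F')
  G_avg : ∀ j ∈ J, ∀ (L : Finset σ) (x : σ → ℝ), (∀ l ∈ L, 0 ≤ x l) →
    ∑ l ∈ L, x l = L.card * C j → L.card * n j ≤ ∑ l ∈ L, G j (x l)

/-- certificate when the slopes at the minimiser sum to the price -/
theorem cert_of_eq (hR0 : R0Prop) (hL : LProp) {σ : Type*} {J : Finset ι}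
    {w u f d C : ι → ℝ} {F p t : ℝ}
    (hF : 0 < F) (hd : ∀ j ∈ J, 0 ≤ d j) (hC : ∀ j ∈ J, 0 ≤ C j)
    (hf : ∀ j ∈ J, f j = (11 * d j + 5 * C j)/8)
    (hu0 : ∀ j ∈ J, 0 ≤ u j) (huF : ∀ j ∈ J, u j ≤ F)
    (ht : 0 < t) (ht1 : t ≤ 1)
    (hmin : VV J w u f F p = Vf J w u f F p t)
    (hsum : ∑ j ∈ J, w j * gg (u j) F (f j) t = p) :
    Nonempty (Cert σ J w u f d C F p) := by
  have hf0 : ∀ j ∈ J, 0 ≤ f j := by
    intro j hj; rw [hf j hj]; have := hd j hj; have := hC j hj; positivity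
  refine ⟨{ t := t, n := fun j => gg (u j) F (f j) t, Θ := fun F' => t * lam (F'/F),
            G := fun j x => GG (u j) F (f j) (d j) t x, t_pos := ht, t_le := ht1,
            val := hmin, price := hsum, Θ_nonneg := ?_, Θ_le := ?_, R := ?_, G_dead := ?_,
            G_alive := ?_, G_avg := ?_ }⟩
  · intro F'; exact mul_nonneg ht.le (lam_nonneg _)
  · intro F'; exact mul_le_of_le_one_right ht.le (lam_le_one _)
  · intro j hj F' u' h0 h1 h2 h3
    exact cc_R hR0 hF h0 h1 (hf0 j hj) h2 h3 (huF j hj) ht.le ht1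
  · intro j hj x
    exact GG_le_u hF (hf0 j hj) (huF j hj) ht.le
  · intro j hj x F' h0 h1 h2 h3
    exact GG_le_term hF h0 h1 h2 (hf0 j hj) h3 ht.le ht1
  · intro j hj L x hx hs
    exact GG_avg hL L x hx hF (hd j hj) (hC j hj) hs (hf j hj) (hu0 j hj) (huF j hj) ht.le ht1

/-- the truncated slope sum at time one reaches the price -/
lemma exists_trunc {J : Finset ι} {w u f : ι → ℝ} {F p : ℝ} (hF : 0 < F) (hp : 0 < p)
    (hf : ∀ j ∈ J, 0 ≤ f j) (hu0 : ∀ j ∈ J, 0 ≤ u j) (huF : ∀ j ∈ J, u j ≤ F)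
    (hge : p ≤ ∑ j ∈ J, w j * gg (u j) F (f j) 1) :
    ∃ y, 0 < y ∧ y ≤ F ∧ ∑ j ∈ J, w j * gg (min (u j) y) y (f j) 1 = p := by
  have he := ee_pos
  set S : ℝ → ℝ := fun y => ∑ j ∈ J, w j *
    min (max ((min (u j) y)/2) (min (u j) y - ee*min y (f j))) (y - (1-ee) * min y (f j)) with hS
  have hSc : Continuous S := by
    rw [hS]
    exact continuous_finsetSum _ fun j _ => by fun_prop
  have hSg : ∀ y, 0 ≤ y → S y = ∑ j ∈ J, w j * gg (min (u j) y) y (f j) 1 := by
    intro y hy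
    apply Finset.sum_congr rfl
    intro j hj
    rw [gg_one (hf j hj) hy (min_le_right _ _)]
  have hS0 : S 0 = 0 := by
    rw [hS]
    apply Finset.sum_eq_zero
    intro j hj
    rw [min_eq_right (hu0 j hj), min_eq_left (hf j hj)]
    simp
  have hSF : p ≤ S F := by
    rw [hSg F hF.le]
    refine hge.trans (le_of_eq ?_)
    apply Finset.sum_congr rfl
    intro j hj
    rw [min_eq_left (huF j hj)]
  have := intermediate_value_Icc hF.le hSc.continuousOn
  obtain ⟨y, hy, hye⟩ := this ⟨by rw [hS0]; exact hp.le, hSF⟩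
  have hy0 : 0 < y := by
    rcases eq_or_lt_of_le hy.1 with h | h
    · rw [← h, hS0] at hye; linarith
    · exact h
  exact ⟨y, hy0, hy.2, by rw [← hSg y hy.1]; exact hye⟩

/-- time-one comparison for the truncated state -/
lemma trunc_cmp {u F r F' y f : ℝ} (hf : 0 ≤ f) (hy : 0 < y) (hyF' : y ≤ F') (hF'F : F' ≤ F)
    (hru : r ≤ u) :
    min (min u y / 2) (ee * min y f) + min r y - min (min r y / 2) (ee * min y f)
      ≤ min (u/2) (ee * min F f) + r - min (r/2) (ee * min F' f) := by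
  have he := ee_pos
  have he' := ee_lt
  have h1 : min y f ≤ min F' f := min_le_min hyF' le_rfl
  have h2 : min F' f ≤ min F f := min_le_min hF'F le_rfl
  have h3 : min y f ≤ y := min_le_left _ _
  have h0 : 0 ≤ min y f := le_min hy.le hf
  generalize min y f = a at *
  generalize min F' f = b at *
  generalize min F f = c at *
  have e1 : ee * a ≤ ee * b := mul_le_mul_of_nonneg_left h1 he.le
  have e2 : ee * b ≤ ee * c := mul_le_mul_of_nonneg_left h2 he.le
  have e3 : ee * a ≤ y / 2 := by nlinarith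
  generalize ee * a = A at *
  generalize ee * b = B at *
  generalize ee * c = D at *
  -- now a purely linear statement with min
  rcases le_total u y with hu | hu
  · have hry : r ≤ y := hru.trans hu
    rw [min_eq_left hu, min_eq_left hry]
    rcases le_total (u/2) A with a1 | a1 <;> rcases le_total (r/2) A with a2 | a2 <;>
      rcases le_total (r/2) B with a3 | a3 <;> rcases le_total (u/2) D with a4 | a4 <;>
      simp only [min_eq_left, min_eq_right, a1, a2, a3, a4] <;> linarith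
  · rw [min_eq_right hu]
    rcases le_total r y with hry | hry
    · rw [min_eq_left hry]
      rcases le_total (y/2) A with a1 | a1 <;> rcases le_total (r/2) A with a2 | a2 <;>
        rcases le_total (r/2) B with a3 | a3 <;> rcases le_total (u/2) D with a4 | a4 <;>
        simp only [min_eq_left, min_eq_right, a1, a2, a3, a4] <;> linarith
    · rw [min_eq_right hry]
      rcases le_total (y/2) A with a1 | a1 <;> 
        rcases le_total (r/2) B with a3 | a3 <;> rcases le_total (u/2) D with a4 | a4 <;>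
        simp only [min_eq_left, min_eq_right, a1, a3, a4] <;> linarith

/-- certificate at time one -/
theorem cert_top (hR0 : R0Prop) (hL : LProp) {σ : Type*} {J : Finset ι}
    {w u f d C : ι → ℝ} {F p : ℝ}
    (hF : 0 < F) (hp : 0 < p) (hd : ∀ j ∈ J, 0 ≤ d j) (hC : ∀ j ∈ J, 0 ≤ C j)
    (hf : ∀ j ∈ J, f j = (11 * d j + 5 * C j)/8)
    (hu0 : ∀ j ∈ J, 0 ≤ u j) (huF : ∀ j ∈ J, u j ≤ F)
    (hmin : VV J w u f F p = Vf J w u f F p 1)
    (hge : p ≤ ∑ j ∈ J, w j * gg (u j) F (f j) 1) :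
    Nonempty (Cert σ J w u f d C F p) := by
  have hf0 : ∀ j ∈ J, 0 ≤ f j := by
    intro j hj; rw [hf j hj]; have := hd j hj; have := hC j hj; positivity
  have he := ee_pos
  obtain ⟨y, hy, hyF, hsum⟩ := exists_trunc hF hp hf0 hu0 huF hge
  refine ⟨{ t := 1, n := fun j => gg (min (u j) y) y (f j) 1, Θ := fun F' => 1 * lam (F'/y),
            G := fun j x => GG (min (u j) y) y (f j) (d j) 1 x, t_pos := one_pos, t_le := le_rfl,
            val := hmin, price := hsum, Θ_nonneg := ?_, Θ_le := ?_, R := ?_, G_dead := ?_,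
            G_alive := ?_, G_avg := ?_ }⟩
  · intro F'; exact mul_nonneg zero_le_one (lam_nonneg _)
  · intro F'; exact mul_le_of_le_one_right zero_le_one (lam_le_one _)
  · intro j hj F' u' h0 h1 h2 h3
    have hmono : cc (min (u j) y) y (f j) 1 ≤ cc (u j) F (f j) 1 := by
      rw [cc_one (hf0 j hj) hy.le (min_le_right _ _), cc_one (hf0 j hj) hF.le (huF j hj)]
      apply min_le_min
      · have := min_le_left (u j) y; linarith
      · exact mul_le_mul_of_nonneg_left (min_le_min hyF le_rfl) he.le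
    rcases le_total F' y with hFy | hFy
    · have := cc_R hR0 (t := 1) hy h0 hFy (hf0 j hj) (le_min h2 (h3.trans hFy)) h3
        (min_le_right (u j) y) zero_le_one le_rfl
      linarith
    · have hl : lam (F'/y) = 1 := lam_of_one_le (by rwa [one_le_div hy])
      rw [hl, mul_one, sub_self, zero_mul, add_zero,
        cc_one (hf0 j hj) h0 h3, cc_one (hf0 j hj) hF.le (huF j hj)]
      apply min_le_min (by linarith)
      exact mul_le_mul_of_nonneg_left (min_le_min h1 le_rfl) he.le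
  · intro j hj x
    exact (GG_le_u hy (hf0 j hj) (min_le_right _ _) zero_le_one).trans (min_le_left _ _)
  · intro j hj x F' h0 h1 h2 h3
    have hmono : cc (min (u j) y) y (f j) 1 ≤ cc (u j) F (f j) 1 := by
      rw [cc_one (hf0 j hj) hy.le (min_le_right _ _), cc_one (hf0 j hj) hF.le (huF j hj)]
      apply min_le_min
      · have := min_le_left (u j) y; linarith
      · exact mul_le_mul_of_nonneg_left (min_le_min hyF le_rfl) he.le
    have hrr : rr (min (u j) y) (d j) x = min (rr (u j) (d j) x) y := by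
      unfold rr; rw [min_assoc, min_comm y, ← min_assoc]
    rcases le_total F' y with hFy | hFy
    · have hr2 : rr (min (u j) y) (d j) x = rr (u j) (d j) x := by
        rw [hrr, min_eq_left (h3.trans hFy)]
      have := GG_le_term (u := min (u j) y) (d := d j) (x := x) (t := 1) hy h0 hFy h2
        (hf0 j hj) (by rw [hr2]; exact h3) zero_le_one le_rfl
      rw [hr2] at this
      linarith
    · have hl : lam (F'/y) = 1 := lam_of_one_le (by rwa [one_le_div hy])
      have h5 := GG_le_term (u := min (u j) y) (F' := y) (d := d j) (x := x) (t := 1) hy hy.le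
        le_rfl (hFy.trans h2) (hf0 j hj) (by rw [hrr]; exact min_le_right _ _) zero_le_one le_rfl
      rw [div_self hy.ne', lam_of_one_le le_rfl, hrr] at h5
      refine h5.trans ?_
      have h6 := trunc_cmp (hf0 j hj) hy hFy h1 (rr_le (u j) (d j) x)
      rw [hl, mul_one, sub_self, zero_mul, add_zero]
      rw [cc_one (hf0 j hj) hy.le (min_le_right _ _), cc_one (hf0 j hj) hy.le (min_le_right _ _),
        cc_one (hf0 j hj) hF.le (huF j hj), cc_one (hf0 j hj) h0 h3]
      linarith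
  · intro j hj L x hx hs
    exact GG_avg hL L x hx hy (hd j hj) (hC j hj) hs (hf j hj)
      (le_min (hu0 j hj) hy.le) (min_le_right _ _) zero_le_one le_rfl

/-- every alive star has a certificate -/
theorem cert_exists (hR0 : R0Prop) (hL : LProp) {σ : Type*} {J : Finset ι}
    {w u f d C : ι → ℝ} {F p : ℝ}
    (hF : 0 ≤ F) (hp : 0 < p) (hw : ∀ j ∈ J, 0 ≤ w j)
    (hd : ∀ j ∈ J, 0 ≤ d j) (hC : ∀ j ∈ J, 0 ≤ C j)
    (hf : ∀ j ∈ J, f j = (11 * d j + 5 * C j)/8)
    (hu0 : ∀ j ∈ J, 0 ≤ u j) (huF : ∀ j ∈ J, u j ≤ F)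
    (halive : VV J w u f F p < ∑ j ∈ J, w j * u j) :
    Nonempty (Cert σ J w u f d C F p) := by
  have hf0 : ∀ j ∈ J, 0 ≤ f j := by
    intro j hj; rw [hf j hj]; have := hd j hj; have := hC j hj; positivity
  obtain ⟨t, ht0, ht1, hmin⟩ := VV_exists J w u f F p
  have htpos : 0 < t := by
    rcases eq_or_lt_of_le ht0 with h | h
    · rw [← h, Vf_zero J w u f p hF hf0 huF] at hmin
      linarith
    · exact h
  have hFpos : 0 < F := by
    rcases eq_or_lt_of_le hF with h | h
    · have h0 : ∑ j ∈ J, w j * u j = 0 := by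
        apply Finset.sum_eq_zero
        intro j hj
        have : u j = 0 := le_antisymm (by rw [h]; exact huF j hj) (hu0 j hj)
        rw [this, mul_zero]
      have h1 := slope_ge hF hw hf0 htpos ht1 hmin
      have h2 : ∑ j ∈ J, w j * gg (u j) F (f j) t ≤ 0 := by
        apply Finset.sum_nonpos
        intro j hj
        have hu : u j = 0 := le_antisymm (by rw [h]; exact huF j hj) (hu0 j hj)
        have hF0 : F = 0 := h.symm
        have : gg (u j) F (f j) t = 0 := by
          rw [gg_of_le, hu, hF0, min_eq_left (hf0 j hj)]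
          · simp
          · rw [hu, hF0, min_eq_left (hf0 j hj)]; simp
        rw [this, mul_zero]
      linarith
    · exact h
  have hge := slope_ge hF hw hf0 htpos ht1 hmin
  rcases eq_or_lt_of_le ht1 with h | h
  · subst h
    exact cert_top hR0 hL hFpos hp hd hC hf hu0 huF hmin hge
  · have hle := slope_le hF hw hf0 ht0 h hmin
    exact cert_of_eq hR0 hL hFpos hd hC hf hu0 huF htpos ht1 hmin (le_antisymm hle hge)

end Crest.Agent.KM
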